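import Crest.Agent.X212.Rdc90.Nf
import Crest.Agent.X212.Bki64.G1
import Crest.Agent.X212.Wz78.Gw
import Crest.Agent.X212.Rf65.Psc

/-!
# Row 212, RDEC (helper90): exponential decay on necks of positive scalar curvature, the leaves
-/

set_option autoImplicit false
set_option linter.unusedSectionVars false
noncomputable section
open scoped Manifold ContDiff Topology InnerProductSpace
open MeasureTheory Set Function Filter Real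

namespace Crest.Agent.X212.Rdc90
open An Nd18 Cyf70
open Wz78 (nab dir)
open Tmp64 (Eq0 AdmOn)
open Bki64 (Cl win)
open Neck67 (Lb)

variable {E3 : Type} [NormedAddCommGroup E3] [NormedSpace ℝ E3] [FiniteDimensional ℝ E3]
  [MeasurableSpace E3] [BorelSpace E3]
  {H3 : Type} [TopologicalSpace H3] {I3 : ModelWithCorners ℝ E3 H3} [I3.Boundaryless]
  {Y : Type} [TopologicalSpace Y] [ChartedSpace H3 Y] [IsManifold I3 ∞ Y] [T2Space Y]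
  [MeasurableSpace Y] [BorelSpace Y] [SecondCountableTopology Y] [CompactSpace Y]
  {κ : Type} [Fintype κ] {lam : Type} [Fintype lam]

section
variable (D : YD I3 Y κ lam) (β : YC Y κ lam)

/-- the `g`-part of the curvature vanishes -/
def Flt : Prop := ∀ x, (cy β).m.Fg D.Z (cy β).W x = 0

/-- a flat reducible base point -/
structure Bs : Prop where
  ok : D.OK
  dim : Module.finrank ℝ E3 = 3
  adm : D.Adm β
  zr : ∀ y, β.Φ y = 0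
  flat : Flt D β

/-- `g`-valued one-forms on `Y` -/
structure Fo (a : κ → Y → β.m.A) : Prop where
  sm : ∀ k, Sm I3 (a k)
  mem : ∀ k y, a k y ∈ β.m.gS y
  P : ∀ k y, ∑ l, D.F.P k l y • a l y = a k y

/-- positive spinors on `Y` -/
structure So (φ : Y → β.m.V) : Prop where
  sm : Sm I3 φ
  pos : ∀ x : Y × ℝ, (cy β).m.pp D.B x (φ x.1) = φ x.1

/-- the adjoint connection of `β` on `Y` -/
def A0 : κ → Y → En (Fin β.m.N × Fin β.m.N) := fun k y => adc (β.W (some k) y)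

/-- the adjoint connection of `β + a` -/
def Ay (a : κ → Y → β.m.A) : κ → Y → En (Fin β.m.N × Fin β.m.N) :=
  fun k y => adc (β.W (some k) y + opL (a k y))

/-- the curvature of `β + a` (for flat `β`) -/
def By (a : κ → Y → β.m.A) (j k : κ) (y : Y) : β.m.A :=
  ed I3 D.F.e D.F.c (A0 β) a j k y + adc (opL (a j y)) (a k y)

/-- the divergence of the curvature of `β + a` -/
def Ly (a : κ → Y → β.m.A) (k : κ) (y : Y) : β.m.A :=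
  ∑ m, D.F.P k m y • dl I3 D.F.e D.F.c D.F.dv (Ay β a) (By D β a) m y

/-- harmonic forms -/
structure Har (h : κ → Y → β.m.A) : Prop extends Fo D β h where
  ed : ∀ j k y, ed I3 D.F.e D.F.c (A0 β) h j k y = 0
  dv : ∀ y, dv1 I3 D.F.e D.F.dv (A0 β) h y = 0

/-- harmonic forms are integrable -/
def HC : Prop := ∀ h, Har D β h → ∀ j k y, adc (opL (h j y)) (h k y) = 0

/-- the scalar curvature dominates the curvature of `Λ` -/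
def PS (c₀ : ℝ) : Prop := ∀ x, √(∑ s, Wz78.fP D.B D.G x s ^ 2) - Wz78.sc D.G x / 4 ≤ -c₀

/-- the Lojasiewicz inequality -/
def Loj : Prop := ∃ (K : ℝ) (j : ℕ), ∃ η > 0, ∀ a, Fo D β a → (∀ k, D.F.CB j (a k) η) →
  ∫ y, ∑ i, ∑ k, ‖By D β a i k y‖ ^ 2 ∂D.F.μ ≤ K * ∫ y, ∑ k, ‖Ly D β a k y‖ ^ 2 ∂D.F.μ

/-- the configuration `β + (a, φ)` on `Y` -/
def bh (a : κ → Y → β.m.A) (φ : Y → β.m.V) : YC Y κ lam :=
  vr β (fun y => WithLp.toLp 2 fun o => o.elim 0 fun k => a k y) φ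

/-- the configuration `β + (α, Φ)` on the cylinder -/
abbrev zc (α : Y × ℝ → Fm (Option κ) β.m.A) (Φ : Y × ℝ → β.m.V) :
    Cfg (Y × ℝ) (Option κ) lam 0 := vr (cy β) α Φ

/-- smooth variations on the cylinder -/
structure Sv (α : Y × ℝ → Fm (Option κ) β.m.A) (Φ : Y × ℝ → β.m.V) : Prop where
  sα : Sm (IC I3) α
  p1 : ∀ x, (cy β).m.p1 D.B x (α x) = α x
  sΦ : Sm (IC I3) Φ
  pos : ∀ x, (cy β).m.pp D.B x (Φ x) = Φ x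

/-- the slice of a variation -/
def sl (α : Y × ℝ → Fm (Option κ) β.m.A) (t : ℝ) : κ → Y → β.m.A := fun k y => α (y, t) (some k)

variable {r : ℕ} (c : Cfg (Y × ℝ) (Option κ) lam r)

/-- the unperturbed equations over `O` -/
def Eqs (O : Set (Y × ℝ)) : Prop := ∀ x ∈ O, dir (IC I3) D.Z.e c.m.ρ c.W c.Φ x = 0 ∧
  c.m.p2 D.B x (c.m.Fg D.Z c.W x) = c.m.mu D.B x (c.Φ x) (c.Φ x)

/-- the window at `s` is a solution which is `η`-close to `β` -/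
def Nw (s η : ℝ) : Prop := AdmOn c D.B D.G (win Y s η⁻¹) ∧ Eqs D c (win Y s η⁻¹) ∧
  ∃ u ζ, D.Cls c β u ζ (Ioo (s - η⁻¹) (s + η⁻¹)) ⌈η⁻¹⌉₊ η

/-- `∫ |Φ|²` on a slice -/
def GP (t : ℝ) : ℝ := ∫ y, ‖c.Φ (y, t)‖ ^ 2 ∂D.F.μ

/-- `∫ |∇Φ|²` on a slice -/
def NP (t : ℝ) : ℝ := ∫ y, ∑ a, ‖nab (IC I3) D.Z.e c.W a c.Φ (y, t)‖ ^ 2 ∂D.F.μ

/-- `∫ |F|²` on a slice -/
def GF (t : ℝ) : ℝ := ∫ y, ‖c.m.Fg D.Z c.W (y, t)‖ ^ 2 ∂D.F.μ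

end

variable (I3 Y κ lam)

/-- LEAF LOJ (90) -/
def LojStmt : Prop := ∀ (D : YD I3 Y κ lam) (β : YC Y κ lam), Bs D β → HC D β → Loj D β

/-- LEAF NEAR (90): the distance to the flat connections is bounded by the curvature -/
def NearStmt : Prop := ∀ (D : YD I3 Y κ lam) (β : YC Y κ lam), Bs D β → HC D β → ∀ j : ℕ,
  ∃ (j' : ℕ) (K : ℝ), 0 ≤ K ∧ ∀ ε > 0, ∃ η > 0, ∀ a, Fo D β a → (∀ k, D.F.CB j' (a k) η) →
    ∀ b > 0, (∀ i k, D.F.CB j' (By D β a i k) b) →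
    ∃ (h : κ → Y → β.m.A) (n : Y → En (Fin β.m.N)), Har D β h ∧ (∀ k, D.F.CB j (h k) ε) ∧
      D.F.CB j n K ∧
      Cl D.Z (cy (bh β a 0)) (cy (bh β h 0)) (fun x => n x.1) (fun _ => 1) univ j (K * b)

/-- LEAF BAS: admissibility, curvature and slices of variations -/
def BasStmt : Prop := ∀ (D : YD I3 Y κ lam) (β : YC Y κ lam), D.OK → D.Adm β →
  bh β 0 0 = β ∧ (∀ a φ, Fo D β a → So D β φ → D.Adm (bh β a φ)) ∧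
  (∀ α Φ, Sv D β α Φ → (zc β α Φ).Adm D.B D.G ∧ (∀ t, Fo D β (sl β α t)) ∧
    (Flt D β → ∀ y t j k,
      (zc β α Φ).m.Fg D.Z (zc β α Φ).W (y, t) (some j, some k) = By D β (sl β α t) j k y)) ∧
  (Flt D β → ∀ a φ, Fo D β a → (∀ j k y, By D β a j k y = 0) → Flt D (bh β a φ)) ∧
  (Flt D β → ∀ j : ℕ, ∃ C, ∀ α Φ, Sv D β α Φ → ∀ (O : Set (Y × ℝ)) (ε : ℝ), IsOpen O → ε ≤ 1 →
    Lb D.Z.toPre O (j + 1) α ε → Lb D.Z.toPre O j ((zc β α Φ).m.Fg D.Z (zc β α Φ).W) (C * ε)) ∧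
  ∀ (N : Type) [NormedAddCommGroup N] [NormedSpace ℝ N] (j : ℕ) (C : ℝ),
    (∀ (f : Y × ℝ → N) (O : Set (Y × ℝ)) (t : ℝ), Sm (IC I3) f → (∀ y, (y, t) ∈ O) →
      Lb D.Z.toPre O j f C → D.F.CB j (fun y => f (y, t)) C) ∧
    ∀ f : Y → N, Sm I3 f → D.F.CB j f C → Lb D.Z.toPre univ j (fun x => f x.1) |C|

/-- LEAF IPL: interpolation on windows -/
def IplStmt : Prop := ∀ (F : Fr I3 Y κ), Module.finrank ℝ E3 ≤ 3 → ∀ (V : Type)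
  [NormedAddCommGroup V] [InnerProductSpace ℝ V] [FiniteDimensional ℝ V] (j : ℕ),
  ∃ (j' : ℕ) (K : ℝ), 0 ≤ K ∧ ∀ (f : Y × ℝ → V) (s ε b : ℝ), 0 ≤ ε → 0 ≤ b →
    Lb (cyl F).toPre (win Y s 2) j' f b →
    (∀ t ∈ Ioo (s - 2) (s + 2), ∫ y, ‖f (y, t)‖ ^ 2 ∂F.μ ≤ ε ^ 2) →
    Lb (cyl F).toPre (win Y s 1) j f (K * √(ε * b))

/-- LEAF WIN: one global small configuration -/
def WinStmt : Prop := ∀ (D : YD I3 Y κ lam) (β : YC Y κ lam), D.OK → D.Adm β →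
  (∀ y, β.Φ y = 0) → ∀ (j : ℕ), ∀ ε > 0, ∃ η > 0,
    ∀ r (c : Cfg (Y × ℝ) (Option κ) lam r) (p q : ℝ), p ≤ q → (∀ s ∈ Icc p q, Nw D β c s η) →
    ∃ (α : Y × ℝ → Fm (Option κ) β.m.A) (Φ : Y × ℝ → β.m.V) (u : Y × ℝ → CL c.m.V β.m.V),
      Sv D β α Φ ∧ Eqs D (zc β α Φ) (univ ×ˢ Ioo (p - 4) (q + 4)) ∧
      Lb D.Z.toPre (univ ×ˢ Ioo (p - 4) (q + 4)) j α ε ∧
      Lb D.Z.toPre (univ ×ˢ Ioo (p - 4) (q + 4)) j Φ ε ∧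
      AdmOn c D.B D.G (univ ×ˢ Ioo (p - 4) (q + 4)) ∧
      Eq0 D.Z (noz c) (zc β α Φ) (univ ×ˢ Ioo (p - 4) (q + 4)) u

/-- LEAF CVP: the spinor part of the convexity -/
def CvpStmt : Prop := ∀ (D : YD I3 Y κ lam) (c₀ : ℝ), D.OK → PS D c₀ →
  ∀ (c : Cfg (Y × ℝ) (Option κ) lam 0), c.Adm D.B D.G →
    Differentiable ℝ (GP D c) ∧ Differentiable ℝ (deriv (GP D c)) ∧ ∀ J : Set ℝ, IsOpen J →
      Eqs D c (univ ×ˢ J) → ∀ t ∈ J, 2 * NP D c t + 2 * c₀ * GP D c t ≤ deriv (deriv (GP D c)) t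

/-- LEAF CVB: the curvature part of the convexity -/
def CvbStmt : Prop := ∀ (D : YD I3 Y κ lam) (β : YC Y κ lam), Bs D β → ∃ C, 0 ≤ C ∧
  ∀ α Φ, Sv D β α Φ → ∀ GB : ℝ → ℝ,
    (GB = fun t => ∫ y, ∑ i, ∑ k, ‖By D β (sl β α t) i k y‖ ^ 2 ∂D.F.μ) →
    Differentiable ℝ GB ∧ Differentiable ℝ (deriv GB) ∧ ∀ (J : Set ℝ) (ε : ℝ), IsOpen J → ε ≤ 1 →
      Eqs D (zc β α Φ) (univ ×ˢ J) → Lb D.Z.toPre (univ ×ˢ J) 1 α ε →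
      Lb D.Z.toPre (univ ×ˢ J) 0 Φ ε → ∀ t ∈ J,
        GF D (zc β α Φ) t ≤ C * (GB t + GP D (zc β α Φ) t) ∧
        2 * ∫ y, ∑ k, ‖Ly D β (sl β α t) k y‖ ^ 2 ∂D.F.μ -
          C * ε * (GB t + GP D (zc β α Φ) t + NP D (zc β α Φ) t) ≤ deriv (deriv GB) t

/-- LEAF CVX (from BAS, CVP, CVB): decay of the slice integrals -/
def CvxStmt : Prop := ∀ (D : YD I3 Y κ lam) (β : YC Y κ lam), Bs D β → (∃ c₀ > 0, PS D c₀) →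
  Loj D β → ∃ l > 0, ∃ η > 0, ∃ (j : ℕ) (C : ℝ), 0 ≤ C ∧ ∀ α Φ, Sv D β α Φ →
    ∀ (J : Set ℝ) (ε p q : ℝ), IsOpen J → Icc p q ⊆ J → 0 ≤ ε → ε ≤ η →
      Eqs D (zc β α Φ) (univ ×ˢ J) → Lb D.Z.toPre (univ ×ˢ J) j α ε →
      Lb D.Z.toPre (univ ×ˢ J) j Φ ε → ∀ t ∈ Icc p q, GF D (zc β α Φ) t + GP D (zc β α Φ) t ≤
        C * ε ^ 2 * (exp (-l * (t - p)) + exp (-l * (q - t)))

/-- LEAF TMP: the temporal gauge with bounds -/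
def TmpStmt : Prop := ∀ (D : YD I3 Y κ lam) (β : YC Y κ lam), D.OK → D.Adm β →
  (∀ y, β.Φ y = 0) → ∀ j : ℕ, ∃ (j' : ℕ) (K : ℝ), 0 ≤ K ∧ ∀ α Φ, Sv D β α Φ →
    ∀ (p q t₀ : ℝ) (f : ℝ → ℝ), t₀ ∈ Icc p q → Continuous f →
      (∀ s ∈ Icc p q, 0 ≤ f s ∧ f s ≤ 1 ∧ |∫ t in t₀..s, f t| ≤ 1 ∧
        Lb D.Z.toPre (win Y s 1) j' α 1 ∧ Lb D.Z.toPre (win Y s 1) j' Φ (f s) ∧
        Lb D.Z.toPre (win Y s 1) j' ((zc β α Φ).m.Fg D.Z (zc β α Φ).W) (f s)) →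
      ∃ g : Y × ℝ → En (Fin β.m.N), ∀ s ∈ Icc p q,
        Cl D.Z (zc β α Φ) (cy (bh β (sl β α t₀) 0)) g (fun _ => 1) (win Y s 1) j
          (K * (f s + |∫ t in t₀..s, f t|))

/-- LEAF HC: one parallel form -/
def HcStmt : Prop := ∀ (D : YD I3 Y κ lam) (β : YC Y κ lam), Bs D β → ∀ (η : Type) [Fintype η]
  [DecidableEq η] [Subsingleton η] (ν : η → κ → Y → ℝ) (r : ℝ), Rf65.Psc D.F ν r → HC D β

/-- **RDEC on bounded gaps** (LEAF MAIN, from BAS LOJ NEAR IPL WIN CVX TMP) -/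
def DeceStmt : Prop := ∀ (D : YD I3 Y κ lam) (β : YC Y κ lam), Bs D β → HC D β →
  (∃ c₀ > 0, PS D c₀) → ∃ d > 0, ∀ (k : ℕ), ∀ B > 0, ∃ η > 0,
    ∀ r (c : Cfg (Y × ℝ) (Option κ) lam r) (p q : ℝ), p ≤ q → (∀ s ∈ Icc p q, Nw D β c s η) →
    ∃ h, Har D β h ∧ (∀ i, D.F.CB k (h i) B) ∧ D.Adm (bh β h 0) ∧ Flt D (bh β h 0) ∧
      ∃ u, ∀ s ∈ Icc p q, Cl D.Z c (cy (bh β h 0)) u (fun _ => 1) (win Y s 1) k
        (B * exp (-d * min (s - p) (q - s)))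

/-- LEAF OUTG: `Dec35.OutStmt` with moving reference configurations -/
def OutgStmt : Prop := ∀ (D : YD I3 Y κ lam) (β : YC Y κ lam), D.OK → D.Adm β →
  ∀ r (c : Cfg (Y × ℝ) (Option κ) lam r) (σ d T : ℝ) (ζ : Circle), (σ = 1 ∨ σ = -1) → 0 < d →
    AdmOn c D.B D.G (univ ×ˢ {s | T < σ * s}) →
    (∀ k, ∃ C T', ∀ s, T' ≤ σ * s → ∃ a φ u ζ', Fo D β a ∧ So D β φ ∧ (∀ i, D.F.CB k (a i) C) ∧
      D.F.CB k φ C ∧ Cl D.Z c (cy (bh β a φ)) u (fun _ => ζ') (win Y s 1) k (C * exp (-d * |s|))) →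
    (∃ u, ∀ k, ∀ η > 0, ∃ T', Cl D.Z c (cy β) u (fun _ => ζ) (univ ×ˢ {s | T' < σ * s}) k η) →
    ∃ u, ∀ k, ∃ C, ∀ s, T + 2 ≤ σ * s →
      Cl D.Z c (cy β) u (fun _ => ζ) (win Y s 1) k (C * exp (-d * |s|))

/-- **RDEC on ends** (LEAF END, from `DeceStmt` and `OutgStmt`) -/
def EndStmt : Prop := ∀ (D : YD I3 Y κ lam) (β : YC Y κ lam), Bs D β → HC D β →
  (∃ c₀ > 0, PS D c₀) → ∃ d > 0, ∀ r (c : Cfg (Y × ℝ) (Option κ) lam r) (σ T : ℝ) (ζ : Circle),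
    (σ = 1 ∨ σ = -1) → AdmOn c D.B D.G (univ ×ˢ {s | T < σ * s}) →
    Eqs D c (univ ×ˢ {s | T < σ * s}) →
    (∃ u, ∀ k, ∀ η > 0, ∃ T', Cl D.Z c (cy β) u (fun _ => ζ) (univ ×ˢ {s | T' < σ * s}) k η) →
    ∃ u, ∀ k, ∃ C, ∀ s, T + 2 ≤ σ * s →
      Cl D.Z c (cy β) u (fun _ => ζ) (win Y s 1) k (C * exp (-d * |s|))

end Crest.Agent.X212.Rdc90
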