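import Crest.Agent.X212.Rdc90.Near
import Crest.Agent.X212.Rd3.Main
import Crest.Agent.X212.Rd3.Win
import Crest.Agent.X212.Rd78.Bas
import Crest.Agent.X212.Rd78.Cvx
import Crest.Agent.X212.Rd78.Hc
import Crest.Agent.X212.Cvb14.Main
import Crest.Agent.X212.Ipl9.Main
import Crest.Agent.X212.Cay24.Outg
import Crest.Agent.X212.Cay24.Tmp

/-! Exponential decay on necks of positive scalar curvature. -/

set_option autoImplicit false
noncomputable section
open scoped Manifold ContDiff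

namespace Crest.Agent.X212.Rdc90

variable {E3 : Type} [NormedAddCommGroup E3] [NormedSpace ℝ E3] [FiniteDimensional ℝ E3]
  [MeasurableSpace E3] [BorelSpace E3]
  {H3 : Type} [TopologicalSpace H3] {I3 : ModelWithCorners ℝ E3 H3} [I3.Boundaryless]
  {Y : Type} [TopologicalSpace Y] [ChartedSpace H3 Y] [IsManifold I3 ∞ Y] [T2Space Y]
  [MeasurableSpace Y] [BorelSpace Y] [SecondCountableTopology Y] [CompactSpace Y]
  {κ : Type} [Fintype κ] {lam : Type} [Fintype lam]

theorem dece : DeceStmt I3 Y κ lam :=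
  Rd3.dece (Rd78.bas _ _ _ _) (loj (Rd78.bas _ _ _ _)) (near (Rd78.bas _ _ _ _)) Ipl9.ipl
    Rd3.winStmt (Rd78.cvx _ _ _ _ (Cvb14.cvb _ _ _ _ (Rd78.bas _ _ _ _))) Cay24.tmp

theorem ends : EndStmt I3 Y κ lam := Rd3.ends dece Cay24.outg

end Crest.Agent.X212.Rdc90
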