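import Crest.Agent.X212.Wz78.Par
import Crest.Agent.X212.Idg99.Lc

/-! Forms with values in a bundle in a spanning frame; three elementary lemmas. -/

set_option autoImplicit false
set_option linter.unusedSectionVars false
open scoped Manifold ContDiff Topology InnerProductSpace
open Finset Filter

noncomputable section
namespace Crest.Agent.X212.Rdc90
open Wz78 Sob92
open Map77 (Vol)

section forms
variable {E H : Type*} [NormedAddCommGroup E] [NormedSpace ℝ E] [TopologicalSpace H]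
  {I : ModelWithCorners ℝ E H} {M : Type*} [TopologicalSpace M] [ChartedSpace H M]
  {V : Type*} [NormedAddCommGroup V] [InnerProductSpace ℝ V]
  {ι : Type} [Fintype ι] [IsManifold I 1 M]

variable (I) (e : ι → (x : M) → TangentSpace I x) (c : ι → ι → ι → M → ℝ) (g : ι → M → ℝ)
  (A : ι → M → V →L[ℝ] V)

/-- exterior derivative of a one-form -/
def ed (α : ι → M → V) (j k : ι) (x : M) : V :=
  nab I e A j (α k) x - nab I e A k (α j) x - ∑ l, c j k l x • α l x

/-- divergence of a one-form -/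
def dv1 (α : ι → M → V) (x : M) : V := ∑ j, (nab I e A j (α j) x + g j x • α j x)

/-- the formal adjoint of `ed` (up to the factor two) -/
def dl (β : ι → ι → M → V) (k : ι) (x : M) : V :=
  -∑ j, (nab I e A j (β j k) x + g j x • β j k x) - (1 / 2 : ℝ) • ∑ j, ∑ l, c j l k x • β j l x

variable {I e c g A} {P : ι → ι → M → ℝ} {Γ : ι → ι → ι → M → ℝ} {x : M}

theorem sa_ed (F : Frm I e P c) (hA : ∀ a, SA I (A a) x) {α : ι → M → V} (h : ∀ k, SA I (α k) x)
    (j k : ι) : SA I (ed I e c A α j k) x :=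
  ((F.sN hA j (h k)).sub (F.sN hA k (h j))).sub (SA.sum _ fun l _ => (F.sc j k l x).smul (h l))

theorem sa_dv1 (F : Frm I e P c) (hA : ∀ a, SA I (A a) x) (hg : ∀ a, SA I (g a) x)
    {α : ι → M → V} (h : ∀ k, SA I (α k) x) : SA I (dv1 I e g A α) x :=
  SA.sum _ fun j _ => (F.sN hA j (h j)).add ((hg j).smul (h j))

theorem sa_dl (F : Frm I e P c) (hA : ∀ a, SA I (A a) x) (hg : ∀ a, SA I (g a) x)
    {β : ι → ι → M → V} (h : ∀ j k, SA I (β j k) x) (k : ι) : SA I (dl I e c g A β k) x :=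
  (SA.sum _ fun j _ => (F.sN hA j (h j k)).add ((hg j).smul (h j k))).neg.sub
    (SA.smul contMDiffAt_const (SA.sum _ fun j _ => SA.sum _ fun l _ =>
      (F.sc j l k x).smul (h j l)))

theorem ed_sub {α α' : ι → M → V} (h : ∀ k, SA I (α k) x) (h' : ∀ k, SA I (α' k) x) (j k : ι) :
    ed I e c A (fun k y => α k y - α' k y) j k x = ed I e c A α j k x - ed I e c A α' j k x := by
  simp only [ed, nab_sub _ (h _) (h' _), smul_sub, sum_sub_distrib]; abel

theorem dv1_sub {α α' : ι → M → V} (h : ∀ k, SA I (α k) x) (h' : ∀ k, SA I (α' k) x) :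
    dv1 I e g A (fun k y => α k y - α' k y) x = dv1 I e g A α x - dv1 I e g A α' x := by
  simp only [dv1, nab_sub _ (h _) (h' _), smul_sub, ← sum_sub_distrib]
  exact sum_congr rfl fun j _ => by abel

theorem dv1_add {α α' : ι → M → V} (h : ∀ k, SA I (α k) x) (h' : ∀ k, SA I (α' k) x) :
    dv1 I e g A (fun k y => α k y + α' k y) x = dv1 I e g A α x + dv1 I e g A α' x := by
  simp only [dv1, nab_add _ (h _) (h' _), smul_add, ← sum_add_distrib]
  exact sum_congr rfl fun j _ => by abel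

/-- Green's formula for `ed` -/
theorem adj_ed (hA : ∀ a, Skew (A a x)) {α : ι → M → V} {β : ι → ι → M → V}
    (hα : ∀ k, SA I (α k) x) (hβ : ∀ j k, SA I (β j k) x) (h : ∀ j k, β j k x = -β k j x) :
    ∑ j, ∑ k, ⟪β j k x, ed I e c A α j k x⟫_ℝ = 2 * ∑ k, ⟪dl I e c g A β k x, α k x⟫_ℝ
      + 2 * dvg I e g (fun j y => ∑ k, ⟪β j k y, α k y⟫_ℝ) x := by
  have h1 : ∀ j, dv I (e j) (fun y => ∑ k, ⟪β j k y, α k y⟫_ℝ) x
      = ∑ k, (⟪nab I e A j (β j k) x, α k x⟫_ℝ + ⟪β j k x, nab I e A j (α k) x⟫_ℝ) := fun j => by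
    rw [dv_sum' _ fun k => (hβ j k).inner (hα k)]
    exact sum_congr rfl fun k _ => dv_inner j (hA j) (hβ j k) (hα k)
  have h2 : ∑ j, ∑ k, ⟪β j k x, nab I e A k (α j) x⟫_ℝ
      = -∑ j, ∑ k, ⟪β j k x, nab I e A j (α k) x⟫_ℝ := by
    rw [sum_comm]
    simp only [← sum_neg_distrib]
    exact sum_congr rfl fun j _ => sum_congr rfl fun k _ => by rw [h k j, inner_neg_left]
  have h3 : ∑ k, ∑ j, ∑ l, c j l k x * ⟪β j l x, α k x⟫_ℝ
      = ∑ j, ∑ k, ∑ l, c j k l x * ⟪β j k x, α l x⟫_ℝ := by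
    rw [sum_comm]; exact sum_congr rfl fun j _ => sum_comm
  have h4 : ∑ k, ∑ j, ⟪nab I e A j (β j k) x, α k x⟫_ℝ
      = ∑ j, ∑ k, ⟪nab I e A j (β j k) x, α k x⟫_ℝ := sum_comm
  have h5 : ∑ k, ∑ j, g j x * ⟪β j k x, α k x⟫_ℝ = ∑ j, g j x * ∑ k, ⟪β j k x, α k x⟫_ℝ := by
    simp only [mul_sum]; exact sum_comm
  simp only [ed, dl, dvg, h1, inner_sub_right, inner_sub_left, inner_neg_left, inner_sum, sum_inner,
    real_inner_smul_left, real_inner_smul_right, inner_add_left, sum_sub_distrib, sum_add_distrib,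
    sum_neg_distrib, ← mul_sum (a := (1 / 2 : ℝ)), h2, h3, h4, h5]
  ring

theorem o_D (L : LC I e P c Γ) (F : Frm I e P c) {o : ι → ι → ι → ι → M → ℝ}
    (so : ∀ a b c d x, SA I (o a b c d) x)
    (ho : ∀ x, Vol (fun a b => P a b x) fun a b c d => o a b c d x) (a b k l m : ι) (x : M) :
    dv I (e a) (o b k l m) x = ∑ i, (Γ a b i x * o i k l m x + Γ a k i x * o b i l m x
      + Γ a l i x * o b k i m x + Γ a m i x * o b k l i x) := by
  classical
  have h := ho x
  have h0 : ∀ (b : ι) (w : ι → ℝ), (∀ i, ∑ k, P i k x * w k = w i) →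
      ∑ k, Idg99.Om P Γ a x b k * w k = -∑ k, Γ a b k x * w k := fun b w hw => by
    rw [sum_congr rfl fun k _ => congrArg (Idg99.Om P Γ a x b k * ·) (hw k).symm]
    simp only [mul_sum, ← mul_assoc]
    rw [sum_comm]
    simp only [← sum_mul, ← sum_neg_distrib, ← neg_mul]
    exact sum_congr rfl fun k _ => congrArg (· * _) (congrFun (congrFun (Idg99.Om_Pm L F a x) b) k)
  have h1 := Idg99.o_par L F so ho a x b k l m
  simp only [sum_add_distrib] at h1 ⊢
  rw [h0 b _ fun i => h.po i k l m,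
    h0 k _ fun i => by simp only [h.a1 b, mul_neg, sum_neg_distrib, h.po],
    h0 l _ fun i => by simp only [h.a2 b k, h.a1 b, neg_neg, h.po],
    h0 m _ fun i => by
      simp only [h.a3 b k l, h.a2 b k, h.a1 b, neg_neg, mul_neg, sum_neg_distrib, h.po]] at h1
  linarith

theorem star_alg (L : LC I e P c Γ) (F : Frm I e P c) {o : ι → ι → ι → ι → ℝ}
    (h : Vol (fun a b => P a b x) o) {t : ι → ι → ℝ} (h1 : ∀ a b, t a b = -t b a)
    (h2 : ∀ a b, ∑ k, P a k x * t k b = t a b) (m : ι) :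
    ∑ a, ∑ k, ∑ l, ((∑ i, (Γ a k i x * o a m i l + Γ a l i x * o a m k i)) * t k l
      + o a m k l * ∑ j, c k l j x * t j a) = 0 := by
  have hc : ∀ k l a, ∑ j, c k l j x * t j a = ∑ j, Γ k l j x * t j a - ∑ j, Γ l k j x * t j a :=
    fun k l a => by
      simp only [← sum_sub_distrib, ← sub_mul, L.tors, sum_mul, mul_assoc]
      rw [sum_comm]
      exact sum_congr rfl fun j _ => by rw [← mul_sum]; congr 1; simp only [← h2 j a]
  have e4 : ∑ a, ∑ k, ∑ l, ∑ i, Γ a l i x * o a m k i * t k l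
      = ∑ a, ∑ k, ∑ l, ∑ i, Γ a k i x * o a m i l * t k l := sum_congr rfl fun a _ => by
    rw [sum_comm]
    exact sum_congr rfl fun k _ => sum_congr rfl fun l _ => sum_congr rfl fun i _ => by
      rw [h.a3 a m l i, h1 l k]; ring
  have e5 : ∑ a, ∑ k, ∑ l, ∑ j, o a m k l * (Γ l k j x * t j a)
      = -∑ a, ∑ k, ∑ l, ∑ j, o a m k l * (Γ k l j x * t j a) := by
    simp only [← sum_neg_distrib]
    refine sum_congr rfl fun a _ => ?_
    rw [sum_comm]
    exact sum_congr rfl fun k _ => sum_congr rfl fun l _ => sum_congr rfl fun i _ => by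
      rw [h.a3 a m l k]; ring
  have e6 : ∑ a, ∑ k, ∑ l, ∑ j, o a m k l * (Γ k l j x * t j a)
      = ∑ a, ∑ k, ∑ l, ∑ i, Γ a i k x * o a m i l * t k l := by
    rw [sum_comm]
    refine sum_congr rfl fun k _ => ?_
    calc _ = ∑ a, ∑ j, ∑ l, o a m k l * (Γ k l j x * t j a) := sum_congr rfl fun a _ => sum_comm
      _ = ∑ j, ∑ a, ∑ l, o a m k l * (Γ k l j x * t j a) := sum_comm
      _ = _ := sum_congr rfl fun j _ => sum_congr rfl fun a _ => sum_congr rfl fun l _ => by
        rw [h.a3 k m l a, h.a1 k m, h.a2 m k, h.a1 m a]; ring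
  have e7 : ∑ a, ∑ k, ∑ l, ∑ i, Γ a k i x * o a m i l * t k l
      + ∑ a, ∑ k, ∑ l, ∑ i, Γ a i k x * o a m i l * t k l = 0 := by
    simp only [← sum_add_distrib, ← add_mul, ← L.met]
    refine sum_eq_zero fun a _ => ?_
    rw [sum_comm]
    refine sum_eq_zero fun l _ => ?_
    have := F.dP_zero a x (T := fun k i => o a m i l * t k l)
      (fun b k => by
        simp only [smul_eq_mul, mul_left_comm (P _ _ x), ← mul_sum, h2])
      fun b k => by
        simp only [smul_eq_mul, ← mul_assoc, ← sum_mul, h.a2 a m, h.a1 a, neg_neg, h.po]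
    simpa only [smul_eq_mul, mul_assoc] using this
  simp only [hc, mul_sub, mul_sum, sum_mul, add_mul, sum_add_distrib, sum_sub_distrib, e4, e5, e6]
  linarith

/-- the dual of a closed two-form is coclosed -/
theorem dl_star (L : LC I e P c Γ) (F : Frm I e P c) (hg : ∀ k, g k x = ∑ a, Γ a k a x)
    {o : ι → ι → ι → ι → M → ℝ} (so : ∀ a b c d x, SA I (o a b c d) x)
    (ho : ∀ x, Vol (fun a b => P a b x) fun a b c d => o a b c d x) {θ : ι → ι → M → V}
    (hs : ∀ a b, SA I (θ a b) x) (h1 : ∀ a b, θ a b x = -θ b a x)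
    (h2 : ∀ a b, ∑ k, P a k x • θ k b x = θ a b x) (h3 : ∀ a b m, d2 I e c A θ a b m x = 0) (n : ι) :
    ∑ m, P n m x • dl I e c g A (fun a b y => ∑ k, ∑ l, o a b k l y • θ k l y) m x = 0 := by
  have h := ho x
  have hd := fun m => dv2_star hs (fun a b k l => so a b k l x) h.a1 h.a2 h.a3 h3 m
  simp only [dv2] at hd
  simp only [dl, sum_add_distrib, hd, o_D L F so ho]
  refine ext_inner_left ℝ fun v => ?_
  simp only [inner_sum, inner_sub_right, inner_neg_right, inner_add_right, real_inner_smul_right,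
    inner_zero_right]
  set t : ι → ι → ℝ := fun k l => ⟪v, θ k l x⟫_ℝ with ht
  have t1 : ∀ a b, t a b = -t b a := fun a b => by simp only [ht]; rw [h1, inner_neg_right]
  have t2 : ∀ a b, ∑ k, P a k x * t k b = t a b := fun a b => by
    simp only [ht]; rw [← h2 a b, inner_sum]; simp only [real_inner_smul_right]
  set S : ι → ι → ℝ := fun a b => ∑ k, ∑ l, o a b k l x * t k l with hS
  have S1 : ∀ a b, S a b = -S b a := fun a b => by
    simp only [hS, h.a1 a b, neg_mul, sum_neg_distrib]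
  have S2 : ∀ a b, ∑ k, P a k x * S k b = S a b := fun a b => by
    simp only [hS, mul_sum, ← mul_assoc]
    rw [sum_comm]
    refine sum_congr rfl fun k _ => ?_
    rw [sum_comm]
    exact sum_congr rfl fun l _ => by rw [← sum_mul, h.po]
  have S3 : ∀ a b, ∑ k, P b k x * S a k = S a b := fun a b => by
    simp only [S1 a, mul_neg, sum_neg_distrib, S2]
  have p1 : ∀ (G : ι → ι → ℝ) (f h' : ι → ι → ι), ∑ a, ∑ k, ∑ l,
      (∑ i, G a i * o (f a i) (h' a i) k l x) * t k l = ∑ a, ∑ i, G a i * S (f a i) (h' a i) :=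
    fun G f h' => sum_congr rfl fun a _ => by
      simp only [hS, sum_mul, mul_sum, mul_assoc]
      exact (sum_congr rfl fun k _ => sum_comm).trans sum_comm
  have q : ∀ m, ∑ a, ∑ k, ∑ l, (∑ i, Γ a a i x * o i m k l x + ∑ i, Γ a m i x * o a i k l x
      + ∑ i, Γ a k i x * o a m i l x + ∑ i, Γ a l i x * o a m k i x) * t k l
      + ∑ a, ∑ k, ∑ l, o a m k l x * ∑ j, c k l j x * t j a
      = -∑ a, g a x * S a m + ∑ a, ∑ i, Γ a m i x * S a i := fun m => by
    have a1 := star_alg L F h t1 t2 m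
    have a2 := L.div_sum F hg (T := fun i => S i m) fun k => S2 k m
    have a3 := p1 (fun a i => Γ a a i x) (fun _ i => i) fun _ _ => m
    have a4 := p1 (fun a i => Γ a m i x) (fun a _ => a) fun _ i => i
    simp only [smul_eq_mul, add_mul, sum_add_distrib] at a1 a2 a3 a4 ⊢
    linarith
  have r : ∀ m, (-(∑ a, ∑ k, ∑ l, (∑ i, Γ a a i x * o i m k l x + ∑ i, Γ a m i x * o a i k l x
      + ∑ i, Γ a k i x * o a m i l x + ∑ i, Γ a l i x * o a m k i x) * t k l
      + ∑ a, ∑ k, ∑ l, o a m k l x * ∑ j, c k l j x * t j a + ∑ a, g a x * S a m)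
      - 1 / 2 * ∑ a, ∑ l, c a l m x * S a l)
      = -(∑ a, ∑ i, (Γ a m i x + 1 / 2 * c a i m x) * S a i) := fun m => by
    rw [q]; simp only [add_mul, sum_add_distrib, mul_assoc, ← mul_sum]; ring
  refine (sum_congr rfl fun m _ => congrArg (P n m x * ·) (r m)).trans ?_
  have u : ∀ a i, ∑ m, P n m x * (Γ a m i x + 1 / 2 * c a i m x) = Γ a n i x
      - ∑ m, dv I (e a) (P n m) x * P m i x + 1 / 2 * (Γ a i n x - Γ i a n x) := fun a i => by
    rw [← L.proj2 F, L.tors, mul_sum, ← sum_add_distrib]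
    exact sum_congr rfl fun m _ => by rw [(F.pr x).symm m n]; ring
  have w1 : ∑ a, ∑ i, Γ i a n x * S a i = -∑ a, ∑ i, Γ a i n x * S a i := by
    rw [sum_comm]; simp only [← sum_neg_distrib]
    exact sum_congr rfl fun a _ => sum_congr rfl fun i _ => by rw [S1 i a]; ring
  have w2 : ∀ a, ∑ i, (∑ m, dv I (e a) (P n m) x * P m i x) * S a i
      = ∑ i, (Γ a n i x + Γ a i n x) * S a i := fun a => by
    simp only [sum_mul, mul_assoc, ← L.met]
    rw [sum_comm]
    exact sum_congr rfl fun m _ => by rw [← mul_sum, S3]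
  have w3 : ∑ m, P n m x * ∑ a, ∑ i, (Γ a m i x + 1 / 2 * c a i m x) * S a i
      = ∑ a, ∑ i, (∑ m, P n m x * (Γ a m i x + 1 / 2 * c a i m x)) * S a i := by
    simp only [mul_sum, sum_mul, mul_assoc]
    exact sum_comm.trans (sum_congr rfl fun a _ => sum_comm)
  simp only [mul_neg, sum_neg_distrib, w3, u]
  simp only [add_mul, sub_mul, sum_add_distrib, sum_sub_distrib, w2, mul_assoc, ← mul_sum, w1]
  ring

end forms

/-! ### elementary lemmas -/

/-- comparison for `G'' ≥ l² G` -/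
theorem cvx_le {G G' G'' : ℝ → ℝ} {l p q : ℝ}
    (h1 : ∀ t ∈ Set.Icc p q, HasDerivAt G (G' t) t) (h2 : ∀ t ∈ Set.Icc p q, HasDerivAt G' (G'' t) t)
    (h : ∀ t ∈ Set.Icc p q, l ^ 2 * G t ≤ G'' t) (hp : 0 ≤ G p) (hq : 0 ≤ G q) {t : ℝ}
    (ht : t ∈ Set.Icc p q) :
    G t ≤ G p * Real.exp (-l * (t - p)) + G q * Real.exp (-l * (q - t)) := by
  -- `u = G - comparison`, `w = e^{-l s} (u' + l u)` is increasing
  set a := G p * Real.exp (l * p)
  set b := G q * Real.exp (-l * q)
  set u : ℝ → ℝ := fun s => G s - (a * Real.exp (-l * s) + b * Real.exp (l * s)) with hu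
  set w : ℝ → ℝ := fun s => Real.exp (-l * s) * (G' s + l * G s) - 2 * l * b with hw
  have e1 : ∀ s, HasDerivAt (fun s => Real.exp (l * s)) (Real.exp (l * s) * l) s := fun s => by
    simpa using ((hasDerivAt_id s).const_mul l).exp
  have e2 : ∀ s, HasDerivAt (fun s => Real.exp (-l * s)) (Real.exp (-l * s) * -l) s := fun s => by
    simpa using ((hasDerivAt_id s).const_mul (-l)).exp
  have e3 : ∀ s, Real.exp (l * s) * Real.exp (-l * s) = 1 := fun s => by
    rw [← Real.exp_add]; simp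
  have dw : ∀ s ∈ Set.Icc p q, HasDerivAt w (Real.exp (-l * s) * (G'' s - l ^ 2 * G s)) s :=
    fun s hs => (((e2 s).mul ((h2 s hs).add ((h1 s hs).const_mul l))).sub_const _).congr_deriv
      (by simp only [Pi.add_apply]; ring)
  have dv' : ∀ s ∈ Set.Icc p q, HasDerivAt (fun s => Real.exp (l * s) * u s)
      (Real.exp (l * s) ^ 2 * w s) s := fun s hs =>
    ((e1 s).mul ((h1 s hs).sub (((e2 s).const_mul a).add ((e1 s).const_mul b)))).congr_deriv (by
      simp only [hw, hu, Pi.add_apply, Pi.sub_apply]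
      linear_combination (-(Real.exp (l * s) * (G' s + l * G s))) * e3 s)
  have mono : ∀ {f f' : ℝ → ℝ} {r s : ℝ}, r ≤ s → (∀ y ∈ Set.Icc r s, HasDerivAt f (f' y) y) →
      (∀ y ∈ Set.Icc r s, 0 ≤ f' y) → f r ≤ f s := fun {f f' r s} hrs hf hf' =>
    monotoneOn_of_deriv_nonneg (convex_Icc r s)
      (fun y hy => (hf y hy).continuousAt.continuousWithinAt)
      (fun y hy => (hf y (interior_subset hy)).differentiableAt.differentiableWithinAt)
      (fun y hy => by rw [(hf y (interior_subset hy)).deriv]; exact hf' y (interior_subset hy))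
      (Set.left_mem_Icc.2 hrs) (Set.right_mem_Icc.2 hrs) hrs
  have wm : ∀ r ∈ Set.Icc p q, ∀ s ∈ Set.Icc p q, r ≤ s → w r ≤ w s := fun r hr s hs hrs =>
    mono hrs (fun y hy => dw y ⟨hr.1.trans hy.1, hy.2.trans hs.2⟩) fun y hy =>
      mul_nonneg (Real.exp_pos _).le (sub_nonneg.2 (h y ⟨hr.1.trans hy.1, hy.2.trans hs.2⟩))
  have ha : 0 ≤ a := by positivity
  have hb : 0 ≤ b := by positivity
  have up : u p ≤ 0 := by
    have : a * Real.exp (-l * p) = G p := by rw [mul_assoc, e3, mul_one]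
    have : 0 ≤ b * Real.exp (l * p) := by positivity
    simp only [hu]; linarith
  have uq : u q ≤ 0 := by
    have : b * Real.exp (l * q) = G q := by rw [mul_assoc, mul_comm (Real.exp _), e3, mul_one]
    have : 0 ≤ a * Real.exp (-l * q) := by positivity
    simp only [hu]; linarith
  have ut : Real.exp (l * t) * u t ≤ 0 := by
    rcases le_total (w t) 0 with h0 | h0
    · have := mono (f := fun s => -(Real.exp (l * s) * u s)) ht.1
        (fun y hy => (dv' y ⟨hy.1, hy.2.trans ht.2⟩).neg) fun y hy => neg_nonneg.2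
          (mul_nonpos_of_nonneg_of_nonpos (sq_nonneg _)
            ((wm y ⟨hy.1, hy.2.trans ht.2⟩ t ht hy.2).trans h0))
      have := mul_nonpos_of_nonneg_of_nonpos (Real.exp_pos (l * p)).le up
      linarith
    · have := mono ht.2 (fun y hy => dv' y ⟨ht.1.trans hy.1, hy.2⟩) fun y hy =>
        mul_nonneg (sq_nonneg _) (h0.trans (wm t ht y ⟨ht.1.trans hy.1, hy.2⟩ hy.1))
      have := mul_nonpos_of_nonneg_of_nonpos (Real.exp_pos (l * q)).le uq
      linarith
  have : u t ≤ 0 := by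
    by_contra hn
    exact absurd ut (not_le.2 (mul_pos (Real.exp_pos _) (not_le.1 hn)))
  have f1 : a * Real.exp (-l * t) = G p * Real.exp (-l * (t - p)) := by
    rw [mul_assoc, ← Real.exp_add]; congr 2; ring
  have f2 : b * Real.exp (l * t) = G q * Real.exp (-l * (q - t)) := by
    rw [mul_assoc, ← Real.exp_add]; congr 2; ring
  simp only [hu] at this; linarith

/-- one improving step gives almost solutions -/
theorem halving {X : Type*} {R : X → X → Prop} (h0 : ∀ x, R x x)
    (ht : ∀ x y z, R x y → R y z → R x z) {n d : X → ℝ} (hd : ∀ x, 0 ≤ d x)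
    {r C : ℝ} (hC : 0 ≤ C)
    (hs : ∀ x, n x ≤ r → ∀ δ > 0, ∃ y, R x y ∧ d y ≤ d x / 2 + δ ∧ n y ≤ n x + C * d x + δ)
    {x : X} (hx : n x + 2 * C * d x < r) {δ : ℝ} (hδ : 0 < δ) :
    ∃ y, R x y ∧ d y ≤ δ ∧ n y ≤ n x + 2 * C * d x + δ := by
  have key : ∀ k : ℕ, ∀ ε > 0, ∃ y, R x y ∧ d y ≤ d x / 2 ^ k + ε ∧
      n y + 2 * C * d y ≤ n x + 2 * C * d x + ε := fun k => by
    induction k with
    | zero => exact fun ε hε => ⟨x, h0 x, by simp [hε.le], by linarith⟩
    | succ k ih =>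
      intro ε hε
      obtain ⟨y, h1, h2, h3⟩ := ih (min (ε / 2) (r - (n x + 2 * C * d x))) (lt_min (by linarith)
        (by linarith))
      have m1 := min_le_left (ε / 2) (r - (n x + 2 * C * d x))
      have m2 := min_le_right (ε / 2) (r - (n x + 2 * C * d x))
      have := mul_nonneg hC (hd y)
      have hε' : 0 < ε / (2 * (2 * C + 1)) := by positivity
      obtain ⟨z, k1, k2, k3⟩ := hs y (by linarith) _ hε'
      have e : (2 * C + 1) * (ε / (2 * (2 * C + 1))) = ε / 2 := by field_simp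
      have := mul_nonneg hC hε'.le
      refine ⟨z, ht _ _ _ h1 k1, ?_, ?_⟩
      · rw [pow_succ, ← div_div]; linarith
      · nlinarith
  obtain ⟨k, hk⟩ := pow_unbounded_of_one_lt (d x / (δ / 2)) (one_lt_two (α := ℝ))
  obtain ⟨y, h1, h2, h3⟩ := key k (δ / 2) (by linarith)
  have : d x / 2 ^ k ≤ δ / 2 := by
    rw [div_lt_iff₀ (by linarith)] at hk
    rw [div_le_iff₀ (by positivity)]; linarith
  have := mul_nonneg hC (hd y)
  exact ⟨y, h1, by linarith, by linarith⟩

/-- logarithmic convexity -/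
theorem logcvx {x : ℕ → ℝ} {b : ℝ} (hb : 0 ≤ b) (h0 : ∀ j, 0 < x j)
    (h : ∀ j, x (j + 1) ^ 2 ≤ b * x j * x (j + 2)) (k : ℕ) : x k ^ 2 ≤ b ^ (k * k) * x 0 * x (2 * k) := by
  have r1 : ∀ m j, x (j + 1) / x j ≤ b ^ m * (x (j + m + 1) / x (j + m)) := fun m j => by
    induction m with
    | zero => simp
    | succ m ih =>
      refine ih.trans ?_
      rw [pow_succ, mul_assoc]
      refine mul_le_mul_of_nonneg_left ?_ (by positivity)
      rw [← mul_div_assoc, div_le_div_iff₀ (h0 _) (h0 _)]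
      have := h (j + m)
      simp only [← add_assoc] at this ⊢
      nlinarith
  have r2 : ∀ j, x j / x 0 ≤ b ^ (k * j) * (x (k + j) / x k) := fun j => by
    induction j with
    | zero => simp [(h0 _).ne']
    | succ j ih =>
      have e1 : x (j + 1) / x 0 = x j / x 0 * (x (j + 1) / x j) := by
        have := h0 j; field_simp
      have e2 : b ^ (k * (j + 1)) * (x (k + (j + 1)) / x k)
          = b ^ (k * j) * (x (k + j) / x k) * (b ^ k * (x (j + k + 1) / x (j + k))) := by
        have := h0 (j + k)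
        rw [mul_add, pow_add, add_comm k j, show k + (j + 1) = j + k + 1 by ring, mul_one]
        field_simp
      rw [e1, e2]
      have := h0 j; have := h0 (j + 1); have := h0 (k + j); have := h0 k
      exact mul_le_mul ih (r1 k j) (by positivity) (by positivity)
  have := r2 k
  rw [← mul_div_assoc, div_le_div_iff₀ (h0 _) (h0 _), ← two_mul] at this
  nlinarith

end Crest.Agent.X212.Rdc90
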