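import Crest.Agent.X212.Rdc90.Nf
import Crest.Agent.X212.Ell97.Loc
import Crest.Agent.X212.Cht98.Br
import Crest.Agent.X212.Map77.Cls
import Crest.Agent.X212.Map77.Sym
import Crest.Agent.X212.Wz78.Int

/-! Elliptic estimates on closed manifolds: distance to an integrable kernel; `d` and `d + d*`. -/

set_option autoImplicit false
set_option linter.unusedSectionVars false
noncomputable section
open scoped Manifold ContDiff Topology InnerProductSpace
open MeasureTheory Set Function Filter Module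

namespace Crest.Agent.X212.Rdc90
open An An.Pre Sob92 Ell97
open Wz78 (nab Skew SA dvg)
open Map77 (P2 f2 s2 i1 i2 pr2 tp wd2 cut Prj Alg)

variable {E : Type} [NormedAddCommGroup E] [NormedSpace ℝ E] [FiniteDimensional ℝ E]
  [MeasurableSpace E] [BorelSpace E]
  {HM : Type} [TopologicalSpace HM] {I : ModelWithCorners ℝ E HM} [I.Boundaryless]
  {M : Type} [TopologicalSpace M] [ChartedSpace HM M] [IsManifold I ∞ M]
  [MeasurableSpace M] {ι : Type} [Fintype ι]
  {V W : Type} [NormedAddCommGroup V] [InnerProductSpace ℝ V] [FiniteDimensional ℝ V]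
  [NormedAddCommGroup W] [InnerProductSpace ℝ W] [FiniteDimensional ℝ W]
  [T2Space M] [BorelSpace M] [SecondCountableTopology M] [CompactSpace M]

section nrm
variable {F : Pre I M ι} {k : ℕ} {N : Type} [NormedAddCommGroup N] [NormedSpace ℝ N]

theorem nadd {u v : M → V} (hu : Sm I u) (hv : Sm I v) :
    F.nrm k (fun x => u x + v x) ≤ F.nrm k u + F.nrm k v :=
  nrm_add_le k hu (.of_compactSpace _) hv (.of_compactSpace _)

theorem nmul (B : N →L[ℝ] V →L[ℝ] W) {f : M → N} {u : M → V} {C : ℝ} (hf : Sm I f) (hu : Sm I u)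
    (hC : F.CB k f C) : F.nrm k (fun x => B (f x) (u x)) ≤ cK ι k * ‖B‖ * |C| * F.nrm k u :=
  nrm_mul B hf hu hC (FL_of_hcs k hu (.of_compactSpace _))

theorem nclm (F : Pre I M ι) (k : ℕ) (L : V →L[ℝ] W) : ∃ K, 0 ≤ K ∧ ∀ u : M → V, Sm I u →
    F.nrm k (fun x => L (u x)) ≤ K * F.nrm k u :=
  ⟨_, by have := cK_nonneg (ι := ι) k; positivity, fun _ hu =>
    nmul (ContinuousLinearMap.id ℝ _) contMDiff_const hu (CB_const k L)⟩

theorem ncb (F : Pre I M ι) (k : ℕ) (V : Type) [NormedAddCommGroup V] [InnerProductSpace ℝ V]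
    [FiniteDimensional ℝ V] : ∃ K, 0 ≤ K ∧ ∀ (u : M → V) (C : ℝ), Sm I u → F.CB k u C →
      F.nrm k u ≤ K * |C| := by
  refine ⟨cK ι k * ‖(ContinuousLinearMap.lsmul ℝ ℝ : ℝ →L[ℝ] V →L[ℝ] V).flip‖ *
    F.nrm k fun _ => (1 : ℝ), by
      have := cK_nonneg (ι := ι) k; have := nrm_nonneg (F := F) k fun _ => (1 : ℝ); positivity,
    fun u C hu h => ?_⟩
  have := nmul (ContinuousLinearMap.lsmul ℝ ℝ : ℝ →L[ℝ] V →L[ℝ] V).flip hu
    (contMDiff_const (c := (1 : ℝ))) h
  simp only [ContinuousLinearMap.flip_apply, ContinuousLinearMap.lsmul_apply, one_smul] at this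
  exact this.trans_eq (by ring)

theorem cbn {S : ℝ} (hS : Sup F S) {u : M → V} (hu : Sm I u) (n : ℕ) :
    F.CB n u (√|S| * F.nrm (n + 4) u) := by
  have := CB_val hS n le_rfl (F.toH (n + 4) (triv M V) (tst u hu (.of_compactSpace _)))
  rwa [val_toH hS (by omega), norm_toH] at this

end nrm

section abs
variable {F : Fr I M ι} {A : Op M ι V W} {C C' : ℕ → ℝ} (hF : F.Tame C) (hA : A.Good F C')
  (hc : A.CliffL F)
include hF hA hc

/-- the distance to the kernel -/
theorem hod (j : ℕ) : ∃ K, 0 ≤ K ∧ ∀ u : Sec I A.p, ∃ h : Sec I A.p, A.app F h.1 = 0 ∧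
    F.nrm (j + 1) (u - h).1 ≤ K * F.nrm j (A.app F u.1) := by
  have : CompleteSpace (A.H F j).range := (closed_range hF hA hc j).completeSpace_coe
  obtain ⟨K, h0, hK⟩ := (A.H F j).rangeRestrict.exists_preimage_norm_le
    fun ⟨_, x, hx⟩ => ⟨x, Subtype.ext hx⟩
  refine ⟨K, h0.le, fun u => ?_⟩
  obtain ⟨x, h1, h2⟩ := hK ⟨_, F.toH _ _ u, rfl⟩
  have h3 : A.H F j x = A.H F j (F.toH _ _ u) := congrArg Subtype.val h1
  obtain ⟨h, e1, e2⟩ := sec_of_eq hF hA hc (x := F.toH _ _ u - x) (w := 0)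
    (by rw [map_sub, h3, sub_self, map_zero])
  refine ⟨h, e2, ?_⟩
  rw [← norm_toH, map_sub, e1, sub_sub_cancel]
  exact h2.trans_eq (congrArg (K * ·) ((congrArg norm (H_toH hA j u)).trans (norm_toH _ _ _ _)))

/-- **The distance to an integrable kernel.** -/
theorem key (Q : V →L[ℝ] V →L[ℝ] W)
    (hQ : ∀ h : Sec I A.p, A.app F h.1 = 0 → ∀ x, Q (h.1 x) (h.1 x) = 0) (j m : ℕ) :
    ∃ K, 0 ≤ K ∧ ∃ ε₀ > 0, ∀ (a : Sec I A.p) (ε : ℝ), 0 ≤ ε → ε ≤ ε₀ → F.CB (j + 1) a.1 ε →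
      ∃ h : Sec I A.p, A.app F h.1 = 0 ∧ F.CB m h.1 (K * ε) ∧
        F.nrm (j + 1) (a - h).1 ≤ K * F.nrm j fun x => A.app F a.1 x + Q (a.1 x) (a.1 x) := by
  obtain ⟨K₁, p1, H1⟩ := hod hF hA hc j
  obtain ⟨K₂, p2, H2⟩ := ncb F.toPre (j + 1) V
  obtain ⟨K₃, H3⟩ := gard hF hA hc (max j m + 3)
  have hk := cK_nonneg (ι := ι) j
  set K₄ := √|C 0| * (|K₃| * ((1 + (1 + K₁ * ‖A.H F j‖)) * K₂)) with hK₄
  have p4 : 0 ≤ K₄ := by positivity
  set K₅ := K₁ * (cK ι j * ‖Q‖ * (1 + K₄)) with hK₅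
  have p5 : 0 ≤ K₅ := by positivity
  refine ⟨K₄ + 2 * K₁, by positivity, 1 / (2 * K₅ + 1), by positivity, fun a ε h0 h1 ha => ?_⟩
  obtain ⟨h, e1, e2⟩ := H1 a
  have n1 : F.nrm (j + 1) a.1 ≤ K₂ * ε := (H2 _ _ a.2.1 ha).trans_eq (by rw [abs_of_nonneg h0])
  have n2 : F.nrm j (A.app F a.1) ≤ ‖A.H F j‖ * F.nrm (j + 1) a.1 := by
    have := (A.H F j).le_opNorm (F.toH _ _ a)
    rwa [H_toH hA, norm_toH, norm_toH] at this
  have n3 : F.nrm 0 h.1 ≤ (1 + (1 + K₁ * ‖A.H F j‖)) * K₂ * ε := by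
    have := norm_sub_le (F.toH (j + 1) _ a) (F.toH (j + 1) _ (a - h))
    rw [← map_sub, sub_sub_cancel, norm_toH, norm_toH, norm_toH] at this
    have := nrm_mono (F := F.toPre) (j + 1).zero_le h.1
    have := mul_le_mul_of_nonneg_left (n2.trans (mul_le_mul_of_nonneg_left n1 (norm_nonneg _))) p1
    have := mul_nonneg p2 h0
    linarith
  have n4 : F.CB (max j m) h.1 (K₄ * ε) := by
    have h2 := H3 (F.toH _ _ h)
    rw [H_toH hA, show LS hA h = 0 from Subtype.ext e1, map_zero, norm_zero, zero_add,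
      incl_toH (Nat.zero_le _), norm_toH, norm_toH] at h2
    refine CB_mono (cbn (Sup.of_tame hF) h.2.1 _) ?_
    rw [hK₄, mul_assoc, mul_assoc]
    exact mul_le_mul_of_nonneg_left (h2.trans ((mul_le_mul_of_nonneg_right (le_abs_self _)
      (nrm_nonneg _ _)).trans (mul_le_mul_of_nonneg_left n3 (abs_nonneg _)))) (Real.sqrt_nonneg _)
  refine ⟨h, e1, CB_mono (CB_of_le n4 (le_max_right _ _)) (by nlinarith), ?_⟩
  have su := (a - h).2.1
  have sN : Sm I fun x => A.app F a.1 x + Q (a.1 x) (a.1 x) :=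
    (sm_app hA a.2.1).add ((Q.contMDiff.comp a.2.1).clm_apply a.2.1)
  have e3 : A.app F a.1 = fun x => (A.app F a.1 x + Q (a.1 x) (a.1 x)) +
      ((-Q) (a.1 x) ((a - h).1 x) + (-Q).flip (h.1 x) ((a - h).1 x)) := funext fun x => by
    simp [hQ h e1 x]; abel
  have m1 := nmul (-Q) a.2.1 su (CB_of_le ha j.le_succ)
  have m2 := nmul (-Q).flip h.2.1 su (CB_of_le n4 (le_max_left _ _))
  have s1 : Sm I fun x => (-Q) (a.1 x) ((a - h).1 x) := ((-Q).contMDiff.comp a.2.1).clm_apply su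
  have s2 : Sm I fun x => (-Q).flip (h.1 x) ((a - h).1 x) :=
    ((-Q).flip.contMDiff.comp h.2.1).clm_apply su
  have m3 := nadd (F := F.toPre) (k := j) sN (show Sm I fun x => _ + _ from s1.add s2)
  have m4 := nadd (F := F.toPre) (k := j) s1 s2
  rw [← e3] at m3
  rw [ContinuousLinearMap.opNorm_neg, abs_of_nonneg h0] at m1
  rw [ContinuousLinearMap.opNorm_flip, ContinuousLinearMap.opNorm_neg, abs_of_nonneg (mul_nonneg p4 h0)] at m2
  have m5 := nrm_mono (F := F.toPre) j.le_succ (a - h).1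
  have m6 := nrm_nonneg (F := F.toPre) j (a - h).1
  have m7 := nrm_nonneg (F := F.toPre) j fun x => A.app F a.1 x + Q (a.1 x) (a.1 x)
  have m8 : K₅ * ε ≤ 1 / 2 := by
    rw [le_div_iff₀ (by positivity)] at h1; nlinarith
  have m9 := mul_le_mul_of_nonneg_left (m3.trans (add_le_add le_rfl (m4.trans (add_le_add m1 m2)))) p1
  have : K₅ * ε * F.nrm j (a - h).1 ≤ 1 / 2 * F.nrm (j + 1) (a - h).1 :=
    mul_le_mul m8 m5 m6 (by norm_num)
  rw [hK₅] at this
  nlinarith [mul_nonneg p4 m7]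

end abs

section ops
variable (F : Fr I M ι) (A : ι → M → V →L[ℝ] V) (q : M → V →L[ℝ] V)
  (p : M → Fm ι V →L[ℝ] Fm ι V)

/-- the covariant derivative -/
def d0 : Op M ι V (Fm ι V) :=
  cut F.toPre q p (fun a x => tp fun b => F.P b a x • ContinuousLinearMap.id ℝ V)
    fun x => tp fun b => A b x

/-- divergence and exterior derivative -/
def d1 : Op M ι (Fm ι V) (P2 V (Fm (ι × ι) V)) :=
  cut F.toPre p (triv M _)
    (fun a x => pr2 (∑ b, F.P a b x • Map77.pj V b) ((√2)⁻¹ • wd2 V (fun a b => F.P a b x) a))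
    fun x => pr2 (∑ b, (A b x ∘L Map77.pj V b + F.dv b x • Map77.pj V b))
      ((√2)⁻¹ • tp fun s => A s.1 x ∘L Map77.pj V s.2 - A s.2 x ∘L Map77.pj V s.1 -
        ∑ l, F.c s.1 s.2 l x • Map77.pj V l)

/-- the hypotheses -/
structure Hq : Prop where
  sA : ∀ a, Sm I (A a)
  sk : ∀ a x, Skew (A a x)
  sq : Sm I q
  sp : Sm I p
  prj : Prj q
  p : ∀ x, p x = idx (fun a b => F.P a b x) (q x)

variable {F A q p}

theorem P_D' {N : Type} [NormedAddCommGroup N] [NormedSpace ℝ N] (u : M → N) (a : ι) (x : M) :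
    ∑ b, F.P a b x • F.D b u x = F.D a u x := by
  simp only [Pre.D_def, Sob92.dv]
  rw [← F.P_e a x, map_sum]
  simp only [map_smul]
  rfl

theorem sm_comp {u : M → Fm ι V} (hu : Sm I u) (a : ι) : Sm I fun x => u x a :=
  (Map77.pj V a).contMDiff.comp hu

theorem D_comp {u : M → Fm ι V} (hu : Sm I u) (a b : ι) (x : M) :
    F.D a u x b = F.D a (fun y => u y b) x :=
  (dv_clm (Map77.pj V b) (hu.mdifferentiableAt (by simp))).symm

namespace Hq
variable (H : Hq F A q p)
include H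

theorem prjp : Prj p :=
  ⟨fun x v => by rw [H.p]; exact Map77.idx_idem (Wz78.frPr F x).idem (H.prj.idem x) v,
    fun x v w => by rw [H.p]; exact Map77.idx_symm (fun a b => F.P_symm a b x) (H.prj.symm x) v w⟩

theorem Pp (x : M) (v : Fm ι V) (a : ι) : ∑ b, F.P a b x • p x v b = p x v a := by
  simp only [H.p, Map77.idx_apply, Finset.smul_sum, smul_smul]
  rw [Finset.sum_comm]
  simp only [← Finset.sum_smul, (Wz78.frPr F x).idem]

theorem qp (x : M) (v : Fm ι V) (a : ι) : q x (p x v a) = p x v a := by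
  rw [H.p]; exact Map77.T_idx (H.prj.idem x) v a

theorem good0 {C : ℕ → ℝ} (hF : F.Tame C) : ∃ C', (d0 F A q p).Good F C' := by
  have h := Map77.Cls.op.cut (K := Map77.cb (fun _ : Unit => F.toPre) univ) (p := fun _ => q)
    (q := fun _ => p)
    (σ := fun _ a x => tp fun b => F.P b a x • ContinuousLinearMap.id ℝ V)
    (B := fun _ x => tp fun b => A b x) (fun _ _ => Cb_of_compact H.sq)
    (fun _ _ => Cb_of_compact H.sp)
    (fun a => Map77.Cls.tp fun b _ _ => Cb_smul (Cb_of_compact (F.P_sm b a)) (Cb_const _))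
    (Map77.Cls.tp fun b _ _ => Cb_of_compact (H.sA b))
  obtain ⟨C', -, h⟩ := Map77.good_of (A := d0 F A q p) hF (h.p () trivial) (h.q () trivial)
    (fun a => h.σ a () trivial) (h.B () trivial) (Alg.cut _ H.prj H.prjp fun a x => by
      ext v b : 2
      simp only [_root_.sum_apply, _root_.smul_apply, PiLp.smul_apply, WithLp.ofLp_sum,
        Finset.sum_apply, Map77.tp_apply, smul_smul, ← Finset.sum_smul, F.P_symm b,
        (Wz78.frPr F x).idem])
  exact ⟨C', h⟩

theorem σ0 (a : ι) (x : M) (v : V) (b : ι) : (d0 F A q p).σ a x v b = F.P b a x • q x v := by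
  show p x (tp (fun b => F.P b a x • ContinuousLinearMap.id ℝ V) (q x v)) b = _
  simp only [H.p, Map77.idx_apply, Map77.tp_apply, _root_.smul_apply, map_smul, smul_smul,
    ContinuousLinearMap.id_apply, H.prj.idem, ← Finset.sum_smul, (Wz78.frPr F x).idem]

theorem cliff0 : (d0 F A q p).CliffL F := fun a b x v w => by
  have e : ∀ a b, ∑ c, F.P c b x * (F.P c a x * ⟪q x v, q x w⟫_ℝ) = F.P a b x * ⟪q x v, w⟫_ℝ :=
    fun a b => by
      simp only [← mul_assoc, ← Finset.sum_mul, ← H.prj.symm, H.prj.idem, F.P_symm _ b,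
        (Wz78.frPr F x).idem]
  simp only [Map77.inner_fm, H.σ0, real_inner_smul_left, real_inner_smul_right, e, F.P_symm b a]
  show _ = _ * ⟪q x v, w⟫_ℝ
  ring

theorem app0 {u : M → V} (hu : Sm I u) (h : ∀ x, q x (u x) = u x) (x : M) :
    (d0 F A q p).app F u x = p x (WithLp.toLp 2 fun a => nab I F.e A a u x) := by
  refine (Map77.op_cut _ H.sq hu h x).trans (congrArg (p x) (Map77.fm_ext fun b => ?_))
  simp only [Pre.op, PiLp.add_apply, WithLp.ofLp_sum, Finset.sum_apply, Map77.tp_apply,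
    _root_.smul_apply, ContinuousLinearMap.id_apply, P_D']
  rfl

/-- the adjoint is minus the divergence -/
theorem adj0 {C : ℕ → ℝ} (hF : F.Tame C)
    (hq : ∀ u, Sm I u → (∀ x, q x (u x) = u x) → ∀ a x, q x (nab I F.e A a u x) = nab I F.e A a u x)
    (a : Sec I p) (x : M) :
    ((d0 F A q p).adj F).app F a.1 x = -dv1 I F.e F.dv A (fun b y => a.1 y b) x := by
  obtain ⟨C', hA⟩ := H.good0 hF
  obtain ⟨C'', hA'⟩ := good_adj hF hA
  have sa := sm_comp a.2.1
  have qa : ∀ b x, q x (a.1 x b) = a.1 x b := fun b x => a.2.2.2 x ▸ H.qp x _ b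
  have sd : Sm I (dv1 I F.e F.dv A fun b y => a.1 y b) := fun x =>
    sa_dv1 (Wz78.frm F) (fun b => H.sA b x) (fun b => F.dv_sm b x) fun b => sa b x
  let w : Sec I q := (show Sec I q from LS hA' a) + ⟨_, sd, .of_compactSpace _, fun x => by
    simp only [dv1, map_sum, map_add, map_smul, hq _ (sa _) (qa _), qa]⟩
  have h1 := adj_ip hA w (toT _ a)
  have h2 := Wz78.integral_dvg (F := F) (f := fun b y => ⟪w.1 y, a.1 y b⟫_ℝ)
    (fun b => sm_inner w.2.1 (sa b)) fun _ => .of_compactSpace _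
  have h3 : ∀ x, dvg I F.e F.dv (fun b y => ⟪w.1 y, a.1 y b⟫_ℝ) x =
      ⟪(d0 F A q p).app F w.1 x, a.1 x⟫_ℝ + ⟪w.1 x, dv1 I F.e F.dv A (fun b y => a.1 y b) x⟫_ℝ :=
    fun x => by
      rw [H.app0 w.2.1 w.2.2.2, H.prjp.symm, a.2.2.2, Map77.inner_fm, dv1, inner_sum, dvg,
        ← Finset.sum_add_distrib]
      refine Finset.sum_congr rfl fun b _ => ?_
      rw [Wz78.dv_inner b (H.sk b x) (w.2.1 x) (sa b x), inner_add_right, real_inner_smul_right,
        add_assoc]
  have i1 := fun {u v : M → V} (hu : Sm I u) (hv : Sm I v) =>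
    F.integrable_inner hu.continuous (.of_compactSpace _) hv.continuous
  simp only [h3] at h2
  rw [integral_add (F.integrable_inner (sm_app hA w.2.1).continuous (.of_compactSpace _)
    a.2.1.continuous) (i1 w.2.1 sd)] at h2
  have h4 : F.toH 0 q w = 0 := by
    rw [← inner_self_eq_zero (𝕜 := ℝ), inner_toH, ← h2]
    refine Eq.trans ?_ (congrArg (· + _) h1.symm)
    exact (integral_congr_ae (Eventually.of_forall fun x => inner_add_right _ _ _)).trans
      (integral_add (i1 w.2.1 (LS hA' a).2.1) (i1 w.2.1 sd))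
  exact eq_neg_of_add_eq_zero_left
    (congrFun (congrArg Subtype.val (toH_inj F 0 q (h4.trans (map_zero _).symm))) x)

theorem good1 {C : ℕ → ℝ} (hF : F.Tame C) : ∃ C', (d1 F A p).Good F C' := by
  let K := Map77.cb (fun _ : Unit => F.toPre) univ
  have e : ∀ {N : Type} [NormedAddCommGroup N] [NormedSpace ℝ N] {f : M → N}, Sm I f →
      K.mem fun _ => f := fun hf _ _ => Cb_of_compact hf
  have hP := fun a b => e (F.P_sm a b)
  have h := Map77.Cls.op.cut (K := K) (p := fun _ => p) (q := fun _ => triv M _)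
    (σ := fun _ a x => pr2 (∑ b, F.P a b x • Map77.pj V b)
      ((√2)⁻¹ • wd2 V (fun a b => F.P a b x) a))
    (B := fun _ x => pr2 (∑ b, (A b x ∘L Map77.pj V b + F.dv b x • Map77.pj V b))
      ((√2)⁻¹ • tp fun s : ι × ι => A s.1 x ∘L Map77.pj V s.2 - A s.2 x ∘L Map77.pj V s.1 -
        ∑ l, F.c s.1 s.2 l x • Map77.pj V l)) (e H.sp) (K.const _)
    (fun a => Map77.Cls.pr2 (Map77.Cls.sum fun b => Map77.Cls.smul (hP a b) (K.const _))
      (Map77.Cls.smul (K.const _) (Map77.Cls.tp fun s =>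
        Map77.Cls.sub (Map77.Cls.smul (hP _ _) (K.const _)) (Map77.Cls.smul (hP _ _) (K.const _)))))
    (Map77.Cls.pr2 (Map77.Cls.sum fun b => K.add (Map77.Cls.comp (e (H.sA b)) (K.const _))
      (Map77.Cls.smul (e (F.dv_sm b)) (K.const _)))
      (Map77.Cls.smul (K.const _) (Map77.Cls.tp fun s => Map77.Cls.sub (Map77.Cls.sub
        (Map77.Cls.comp (e (H.sA _)) (K.const _)) (Map77.Cls.comp (e (H.sA _)) (K.const _)))
        (Map77.Cls.sum fun l => Map77.Cls.smul (e (F.c_sm _ _ l)) (K.const _)))))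
  obtain ⟨C', -, h⟩ := Map77.good_of (A := d1 F A p) hF (h.p () trivial) (h.q () trivial)
    (fun a => h.σ a () trivial) (h.B () trivial) (Alg.cut _ H.prjp ⟨fun _ _ => rfl, fun _ _ _ => rfl⟩
      fun a x => ContinuousLinearMap.ext fun v => Map77.ext2 (by
        simp only [_root_.sum_apply, _root_.smul_apply, map_sum, map_smul, Map77.f2_pr2,
          Finset.smul_sum, smul_smul]
        rw [Finset.sum_comm]
        simp only [← Finset.sum_smul, (Wz78.frPr F x).idem]) (Map77.fm_ext fun s => by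
        simp only [_root_.sum_apply, _root_.smul_apply, map_sum, map_smul, Map77.s2_pr2,
          WithLp.ofLp_sum, Finset.sum_apply, PiLp.smul_apply, Map77.wd2_apply, smul_comm _ (√2)⁻¹,
          ← Finset.smul_sum, smul_sub, Finset.sum_sub_distrib, smul_smul (F.P a _ x),
          ← Finset.sum_smul, F.P_symm s.1, F.P_symm s.2, (Wz78.frPr F x).idem]))
  exact ⟨C', h⟩

theorem σ1 (a : ι) (x : M) (v : Fm ι V) : (d1 F A p).σ a x v =
    i1 _ _ (p x v a) + i2 _ _ ((√2)⁻¹ • wd2 V (fun a b => F.P a b x) a (p x v)) := by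
  rw [← H.Pp x v a]
  simp only [d1, Map77.cut, ContinuousLinearMap.comp_apply, ContinuousLinearMap.id_apply,
    Map77.pr2_apply, _root_.sum_apply, _root_.smul_apply, Map77.pj_apply]

theorem cliff1 : (d1 F A p).CliffL F := fun a b x v w => by
  have e : ∀ a b, ⟪(d1 F A p).σ a x v, (d1 F A p).σ b x w⟫_ℝ = ⟪p x v a, p x w b⟫_ℝ +
      (F.P a b x * ⟪p x v, p x w⟫_ℝ - ⟪p x v b, p x w a⟫_ℝ) := fun a b => by
    have h1 : ∀ (u : Fm ι V) c, ∑ s, F.P s c x • p x u s = p x u c := fun u c => by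
      simp only [F.P_symm _ c, H.Pp]
    have h2 : ∑ s, F.P s b x * F.P s a x = F.P a b x := by
      simp only [F.P_symm _ b]
      rw [(Wz78.frPr F x).idem, F.P_symm]
    have h3 : (√2)⁻¹ * (√2)⁻¹ = (2 : ℝ)⁻¹ := by
      rw [← mul_inv, Real.mul_self_sqrt zero_le_two]
    have h4 : ∑ s, ∑ t, F.P s b x * F.P s a x * ⟪p x v t, p x w t⟫_ℝ =
        F.P a b x * ⟪p x v, p x w⟫_ℝ := by
      simp only [← Finset.mul_sum, ← Finset.sum_mul, h2, Map77.inner_fm]
    have h5 : ∑ s, ∑ t, F.P s b x * F.P t a x * ⟪p x v s, p x w t⟫_ℝ = ⟪p x v b, p x w a⟫_ℝ := by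
      rw [← h1 v b, ← h1 w a]
      simp only [sum_inner, inner_sum, real_inner_smul_left, real_inner_smul_right, Finset.mul_sum]
      rw [Finset.sum_comm]
      exact Finset.sum_congr rfl fun _ _ => Finset.sum_congr rfl fun _ _ => by ring
    have h6 := h4
    have h7 := h5
    rw [Finset.sum_comm] at h6 h7
    rw [H.σ1, H.σ1, Map77.inner2]
    simp only [map_add, Map77.f2_i1, Map77.f2_i2, Map77.s2_i1, Map77.s2_i2, add_zero, zero_add,
      real_inner_smul_left, real_inner_smul_right, ← mul_assoc, h3]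
    rw [Map77.inner_fm (wd2 _ _ _ _), Fintype.sum_prod_type]
    simp only [Map77.wd2_apply, inner_sub_left, inner_sub_right, real_inner_smul_left,
      real_inner_smul_right, Finset.sum_sub_distrib, ← mul_assoc]
    linarith
  rw [e, e, F.P_symm b a, ← H.prjp.symm, H.prjp.idem]
  show _ = _ * ⟪p x v, w⟫_ℝ
  ring

theorem app1 (u : Sec I p) (x : M) : (d1 F A p).app F u.1 x =
    i1 _ _ (dv1 I F.e F.dv A (fun b y => u.1 y b) x) + i2 _ _ ((√2)⁻¹ • WithLp.toLp 2
      fun s : ι × ι => ed I F.e F.c A (fun b y => u.1 y b) s.1 s.2 x) := by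
  have h1 : ∀ b c, ∑ a, F.P b a x • F.D a u.1 x c = F.D b (fun y => u.1 y c) x := fun b c => by
    simp only [D_comp u.2.1, P_D']
  refine (Map77.op_cut _ H.sp u.2.1 u.2.2.2 x).trans (Map77.ext2 ?_ (Map77.fm_ext fun s => ?_))
  · simp only [Pre.op, ContinuousLinearMap.id_apply, map_add, map_sum, Map77.f2_pr2,
      _root_.sum_apply, _root_.smul_apply, Map77.pj_apply, Map77.f2_i1, Map77.f2_i2, add_zero,
      _root_.add_apply, ContinuousLinearMap.comp_apply]
    rw [Finset.sum_comm]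
    simp only [dv1, Finset.sum_add_distrib, nab, add_assoc]
    exact congrArg (· + _) (Finset.sum_congr rfl fun b _ => by simp only [F.P_symm _ b, h1]; rfl)
  · simp only [Pre.op, ContinuousLinearMap.id_apply, map_add, map_sum, Map77.s2_pr2,
      _root_.sum_apply, _root_.smul_apply, Map77.pj_apply, Map77.s2_i1, Map77.s2_i2, zero_add,
      PiLp.add_apply, WithLp.ofLp_sum, Finset.sum_apply, PiLp.smul_apply, Map77.wd2_apply,
      ← Finset.smul_sum, Finset.sum_sub_distrib, h1, Map77.tp_apply, _root_.sub_apply,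
      ContinuousLinearMap.comp_apply, ← smul_add, ed, nab]
    congr 1
    simp only [Pre.D_def]
    abel

end Hq
end ops

end Crest.Agent.X212.Rdc90
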