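import Crest.Agent.X212.Rdc90.Cor

/-!
# Row 212, RDEC (helper90), file 5: on `S¹ × S²` and on `S³` the Chern-Weil integral over a piece
of the neck is quadratic in the curvature on the two end slices
-/

set_option autoImplicit false
set_option linter.unusedSectionVars false
set_option linter.unusedVariables false
noncomputable section
open Set Function Filter Topology MeasureTheory Real
open scoped ContDiff

namespace Crest.Agent.X212.Rdc90

variable {A : Type} [NormedRing A] [NormedAlgebra ℝ A] [CompleteSpace A] [StarRing A]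
  [CStarRing A] [StarModule ℝ A] {L : ℝ} {B : Fin 4 → E4 → A} {p g : E4 → A}

theorem pi_sq_le : π * π ≤ 10 := by nlinarith [pi_lt_d2, pi_pos]

namespace Nor
variable (h : Nor L B p) (hg : Rad B g)
include h hg

theorem cw1 {τ : A →L[ℝ] ℝ} (hτ : ∀ a b, τ (a * b) = τ (b * a)) (x : E4) :
    cw τ (B1 B g) (p0 p) x = cw τ B p x := by
  have e : ∀ a b : A, τ (p0 p x * (star (g x) * a * g x * (star (g x) * b * g x))) =
      τ (p x * (a * b)) := fun a b => by
    calc _ = τ (p0 p x * (star (g x) * (a * (g x * star (g x)) * b) * g x)) := by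
          congr 1; noncomm_ring
      _ = _ := by
          rw [h.mul_star hg, mul_one, h.p0_conj hg, hτ, ← mul_assoc, h.mul_star hg, one_mul]
  simp only [cw, h.cur1 hg, e]

theorem B1_n3 {x : E4} (hx : x 2 = 0) : B1 B g 3 x = 0 := by
  have e1 : x = update x 2 0 := by rw [← hx, update_eq_self]
  rw [e1, h.B1_north hg (by decide), h.n3 _ (by simp)]

omit hg in
/-- a clutching function which is `1` at `ψ = 0` stays close to `1` -/
theorem est_k0 {κ : E4 → A} (hκ : ContDiff ℝ ∞ κ) (h0 : ∀ x, κ (update x 3 0) = 1) {x : E4} {m : ℝ}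
    (hm : 0 ≤ m) (hx : x 3 ∈ Icc 0 (2 * π))
    (hd : ∀ s, ‖p0 p (update x 3 s) * pd 3 κ (update x 3 s)‖ ≤ 2 * π * m) :
    ‖p0 p x * (κ x - 1)‖ ≤ 40 * m := by
  have hs := h.sm_p0.mul (hκ.sub (contDiff_const (c := (1 : A))))
  have := norm_sub_le_upd (i := 3) (x := x) (C := 2 * π * m) (hs.differentiable (by simp))
    (fun s hs' => by
      rw [pd_mul (h.sm_p0.differentiable (by simp) _)
        ((hκ.sub contDiff_const).differentiable (by simp) _),
        pd_sub (hκ.differentiable (by simp) _) (differentiableAt_const _), pd_const,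
        show pd 3 (p0 p) (update x 3 s) = 0 from pd_pl3 h.sp 0 _, zero_mul, zero_add, sub_zero]
      exact hd s) hx
  simp only [update_eq_self, h0, sub_self, mul_zero, sub_zero] at this
  refine this.trans ?_
  nlinarith [hx.2, mul_nonneg pi_pos.le hm, pi_sq_le]

theorem cs_of {β κ : E4 → A} {j : Fin 4} (c : Cor L (B1 B g) (p0 p) β κ j)
    (e : ∀ x m, x 2 ∈ Icc 0 π → x 3 ∈ Icc 0 (2 * π) → Sml B p (x 0) m → m ≤ 1 / 80 →
      Est (B1 B g) (p0 p) β κ x m)
    (hL : 0 ≤ L) {τ : A →L[ℝ] ℝ} (hτ : ∀ a b, τ (a * b) = τ (b * a)) {a b ma mb : ℝ}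
    (hab : a ≤ b) (hs : ∀ t ∈ Icc a b, Sml B p t (1 / 80)) (ha : Sml B p a ma) (hb : Sml B p b mb)
    (ha' : ma ≤ 1 / 80) (hb' : mb ≤ 1 / 80) :
    |∫ x in Icc (![a, 0, 0, 0] : E4) ![b, L, π, 2 * π], cw τ B p x| ≤
      19600 * ‖τ‖ * L * (ma ^ 2 + mb ^ 2) := by
  simpa only [h.cw1 hg hτ] using c.cs_bound hL hτ hab
    (fun x hx => e x _ ⟨hx.1 2, hx.2 2⟩ ⟨hx.1 3, hx.2 3⟩ (hs _ ⟨hx.1 0, hx.2 0⟩) le_rfl)
    (fun x hx h0 => e x _ ⟨hx.1 2, hx.2 2⟩ ⟨hx.1 3, hx.2 3⟩ (by rw [h0]; exact ha) ha')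
    (fun x hx h0 => e x _ ⟨hx.1 2, hx.2 2⟩ ⟨hx.1 3, hx.2 3⟩ (by rw [h0]; exact hb) hb')

theorem pd_S {i : Fin 4} (hi : i ≠ 2) (x : E4) :
    pd i (fun y => star (g (update y 2 π))) x = star (g (update x 2 π)) * B i (update x 2 π) -
      B1 B g i (update x 2 π) * star (g (update x 2 π)) := by
  rw [← h.pd_sg hg]
  exact pd_upd_ne (f := fun y => star (g y)) ((contDiff_star' hg.sm).differentiable (by simp) _) hi

end Nor

namespace Neck
variable (h : Neck L B p) (hg : Rad B g)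
include h hg

theorem sm_ka : ContDiff ℝ ∞ (ka g) :=
  (contDiff_star' (hg.sm.comp (contDiff_upd 2 π))).mul (hg.sm.comp (sm_pl π))

theorem ka_unit (x : E4) : ka g x ∈ unitary A :=
  mul_mem (Unitary.star_mem (h.unit hg _)) (h.unit hg _)

theorem ka_zero (x : E4) : ka g (update x 3 0) = 1 := by
  rw [ka, pl_upd3, update_comm (by decide : (3 : Fin 4) ≠ 2)]
  exact h.star_mul hg _

theorem ka_comm (x : E4) : p0 p x * ka g x = ka g x * p0 p x := by
  have := h.p0_tr hg (x := update x 2 π) (y := pl π x)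
    (h.p_pole (by decide) h.s3 (by simp) 0).symm
  rwa [p0, p0, pl_upd2, pl_pl] at this

theorem pd_ka {i : Fin 4} (hi : i ≠ 2) (x : E4) : pd i (ka g) x =
    (star (g (update x 2 π)) * B i (update x 2 π) -
      B1 B g i (update x 2 π) * star (g (update x 2 π))) * g (pl π x) +
      star (g (update x 2 π)) * pd i (fun y => g (pl π y)) x := by
  rw [← h.pd_S hg hi]
  exact pd_mul ((contDiff_star' (hg.sm.comp (contDiff_upd 2 π))).differentiable (by simp) _)
    ((hg.sm.comp (sm_pl π)).differentiable (by simp) _)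

theorem pd_ka3 (x : E4) : pd 3 (ka g) x = - (B1 B g 3 (update x 2 π) * ka g x) := by
  rw [h.pd_ka hg (by decide), pd_pl3 hg.sm, h.s3 _ (by simp), ka]; noncomm_ring

theorem pd_ka1 (x : E4) : pd 1 (ka g) x =
    ka g x * B1 B g 1 (pl π x) - B1 B g 1 (update x 2 π) * ka g x := by
  rw [h.pd_ka hg (by decide), pd_pl hg.sm π (by decide) (by decide), h.pd_g hg,
    show B 1 (pl π x) = B 1 (update x 2 π) from h.s1 _ (by simp) 0, ka]
  noncomm_ring

theorem cor : Cor L (B1 B g) (p0 p) (be B) (ka g) 3 where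
  sD := h.sm_B1 hg
  sq := h.sm_p0
  sβ := h.sm_be
  sκ := h.sm_ka hg
  idem := h.idem0
  par := h.par1 hg
  pq i hi := h.pd_p0 hi
  β2 := pd_pl2 (h.sB 1) 0
  β3 := pd_pl3 (h.sB 1) 0
  comm := h.ka_comm hg
  D2 := h.B1_two hg
  κ2 x := pd_eq_zero ((h.sm_ka hg).differentiable (by simp) _) fun r => by simp [ka, pl_upd2]
  hj := Or.inr rfl
  n3 x := h.B1_n3 hg
  nc x hx := by rw [h.cur1 hg, cur_pole h.sB h.n3 h.n0 hx]; simp
  sj x hx := by
    have e1 : update x 2 π = x := by rw [← hx, update_eq_self]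
    rw [h.pd_ka3 hg, e1]; simp [bs]
  sc x hx := by rw [h.cur1 hg, cur_pole h.sB h.s3 h.s0 hx]; simp
  per v hv := ⟨h.B1_per hg hv, h.pl_per hv (h.perp v hv) 0, h.pl_per hv (h.perB v hv 1) 0,
    fun x => by simp only [ka, h.upd2_per hv, h.g_per hg hv, h.pl_per hv (h.g_per hg hv)]⟩

theorem est (x : E4) (m : ℝ) (h2 : x 2 ∈ Icc 0 π) (h3 : x 3 ∈ Icc 0 (2 * π))
    (hm : Sml B p (x 0) m) (hm' : m ≤ 1 / 80) : Est (B1 B g) (p0 p) (be B) (ka g) x m := by
  have hm0 := hm.nonneg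
  have hπ : π * m ≤ 3.15 * m := mul_le_mul_of_nonneg_right pi_lt_d2.le hm0
  have k3 : ∀ y : E4, y 0 = x 0 → ‖p0 p y * pd 3 (ka g) y‖ ≤ π * m := fun y hy => by
    rw [h.pd_ka3 hg, mul_neg, norm_neg, ← mul_assoc,
      CStarRing.norm_mul_mem_unitary _ (h.ka_unit hg y)]
    exact h.est3 hg (by rwa [hy])
  refine ⟨h.est_k0 (h.sm_ka hg) (h.ka_zero hg) hm0 h3 fun s => (k3 _ (by simp)).trans
      (by nlinarith [pi_pos]), fun i hi => (h.est1' hg hi h2 hm).trans (by linarith),
    fun i hi => ?_, by rw [h.norm_cur1 hg]; exact (hm x rfl h2).1,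
    by rw [h.norm_cur1 hg]; exact (hm x rfl h2).2.1,
    by rw [h.norm_cur1 hg]; exact (hm x rfl h2).2.2, hm'⟩
  rcases hi with rfl | rfl
  · have hπ' : π ∈ Icc 0 π := ⟨pi_pos.le, le_rfl⟩
    have h1 := h.est1' hg (Or.inl rfl) (x := update x 2 π) (by simpa using hπ') (by simpa using hm)
    have h2 := h.est1' hg (Or.inl rfl) (x := pl π x) (by rwa [pl_two]) (by rwa [pl_zero])
    simp only [p0, bs, be, pl_upd2, pl_pl, Matrix.cons_val_one, Matrix.cons_val_zero] at h1 h2
    have e : p0 p x * (pd 1 (ka g) x + (be B x * ka g x - ka g x * be B x)) =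
        ka g x * (p0 p x * (B1 B g 1 (pl π x) - be B x)) -
          p0 p x * (B1 B g 1 (update x 2 π) - be B x) * ka g x := by
      rw [h.pd_ka1 hg, ← mul_assoc, ← h.ka_comm hg]; noncomm_ring
    show ‖p0 p x * (pd 1 (ka g) x + (be B x * ka g x - ka g x * be B x))‖ ≤ _
    rw [e]
    refine (norm_sub_le _ _).trans ?_
    rw [CStarRing.norm_mul_mem_unitary _ (h.ka_unit hg x),
      CStarRing.norm_mem_unitary_mul _ (h.ka_unit hg x)]
    simp only [p0, be]; linarith
  · show ‖p0 p x * (pd 3 (ka g) x + (0 * ka g x - ka g x * 0))‖ ≤ _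
    rw [zero_mul, mul_zero, sub_zero, add_zero]
    exact (k3 x rfl).trans (by linarith)

omit hg in
/-- **Chern-Simons bound on `S¹ × S²`** -/
theorem cs_bound (hL : 0 ≤ L) {τ : A →L[ℝ] ℝ} (hτ : ∀ a b, τ (a * b) = τ (b * a)) {a b ma mb : ℝ}
    (hab : a ≤ b) (hs : ∀ t ∈ Icc a b, Sml B p t (1 / 80)) (ha : Sml B p a ma) (hb : Sml B p b mb)
    (ha' : ma ≤ 1 / 80) (hb' : mb ≤ 1 / 80) :
    |∫ x in Icc (![a, 0, 0, 0] : E4) ![b, L, π, 2 * π], cw τ B p x| ≤
      19600 * ‖τ‖ * L * (ma ^ 2 + mb ^ 2) := by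
  obtain ⟨g, hg⟩ := h.exists_rad
  exact h.cs_of hg (h.cor hg) (h.est hg) hL hτ hab hs ha hb ha' hb'

end Neck

namespace Sph
variable (h : Sph L B p) (hg : Rad B g)
include h hg

theorem sm_b : ContDiff ℝ ∞ fun y : E4 => g (update (update y 1 0) 2 π) :=
  hg.sm.comp ((contDiff_upd 2 π).comp (contDiff_upd 1 0))

theorem sm_c : ContDiff ℝ ∞ fun y : E4 => star (g (pl π (update y 1 0))) :=
  contDiff_star' (hg.sm.comp ((sm_pl π).comp (contDiff_upd 1 0)))

theorem sm_ka : ContDiff ℝ ∞ (ka' g) :=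
  ((contDiff_star' (hg.sm.comp (contDiff_upd 2 π))).mul (h.sm_b hg)).mul
    ((h.sm_c hg).mul (hg.sm.comp (sm_pl π)))

theorem ka_unit (x : E4) : ka' g x ∈ unitary A :=
  mul_mem (mul_mem (Unitary.star_mem (h.unit hg _)) (h.unit hg _))
    (mul_mem (Unitary.star_mem (h.unit hg _)) (h.unit hg _))

theorem ka_zero (x : E4) : ka' g (update x 3 0) = 1 := by
  have e1 : update (update x 3 0) 2 π = pl π x := update_comm (by decide) _ _ _
  have e2 : update (update (update x 3 0) 1 0) 2 π = pl π (update x 1 0) := by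
    ext j; fin_cases j <;> simp [pl]
  have e3 : pl π (update (update x 3 0) 1 0) = pl π (update x 1 0) := by
    ext j; fin_cases j <;> simp [pl]
  rw [ka', e1, e2, e3, pl_upd3, mul_assoc, ← mul_assoc (g _), h.mul_star hg, one_mul, h.star_mul hg]

theorem tr1 (x : E4) : p0 p x * (star (g (update x 2 π)) * g (update (update x 1 0) 2 π)) =
    star (g (update x 2 π)) * g (update (update x 1 0) 2 π) * p0 p (update x 1 0) := by
  have := h.p0_tr hg (x := update x 2 π) (y := update (update x 1 0) 2 π) (by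
    rw [update_comm (by decide : (1 : Fin 4) ≠ 2)]
    exact (h.p_pole (by decide) h.s1 (by simp) 0).symm)
  rwa [p0, p0, pl_upd2, pl_upd2] at this

theorem ka_comm (x : E4) : p0 p x * ka' g x = ka' g x * p0 p x := by
  have e : pl π (update x 1 0) = update (pl π x) 1 0 := by ext j; fin_cases j <;> simp [pl]
  have h2 := h.p0_tr hg (x := pl π (update x 1 0)) (y := pl π x) (by
    rw [e]; exact h.p_pole (by decide) h.s1 (pl_two _ _) 0)
  rw [p0, p0, pl_pl, pl_pl] at h2
  rw [ka', ← mul_assoc, h.tr1 hg, mul_assoc, p0, h2, ← mul_assoc, p0]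

theorem pd_ka {i : Fin 4} (hi : i ≠ 2) (x : E4) : pd i (ka' g) x =
    ((star (g (update x 2 π)) * B i (update x 2 π) -
      B1 B g i (update x 2 π) * star (g (update x 2 π))) * g (update (update x 1 0) 2 π) +
      star (g (update x 2 π)) * pd i (fun y => g (update (update y 1 0) 2 π)) x) *
        (star (g (pl π (update x 1 0))) * g (pl π x)) +
      star (g (update x 2 π)) * g (update (update x 1 0) 2 π) *
        (pd i (fun y => star (g (pl π (update y 1 0)))) x * g (pl π x) +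
          star (g (pl π (update x 1 0))) * pd i (fun y => g (pl π y)) x) := by
  have a := contDiff_star' (f := fun y => g (update y 2 π)) (hg.sm.comp (contDiff_upd 2 π))
  have d : ContDiff ℝ ∞ fun y => g (pl π y) := hg.sm.comp (sm_pl π)
  rw [← h.pd_S hg hi, ← pd_mul (a.differentiable (by simp) _) ((h.sm_b hg).differentiable (by simp) _),
    ← pd_mul ((h.sm_c hg).differentiable (by simp) _) (d.differentiable (by simp) _)]
  exact pd_mul ((a.mul (h.sm_b hg)).differentiable (by simp) _)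
    (((h.sm_c hg).mul d).differentiable (by simp) _)

theorem pd_ka1 (x : E4) : pd 1 (ka' g) x =
    ka' g x * be' B g x - B1 B g 1 (update x 2 π) * ka' g x := by
  rw [h.pd_ka hg (by decide), pd_pl hg.sm π (by decide) (by decide), h.pd_g hg,
    pd_eq_zero ((h.sm_b hg).differentiable (by simp) _) fun r => by rw [update_idem],
    pd_eq_zero ((h.sm_c hg).differentiable (by simp) _) fun r => by rw [update_idem],
    h.s1 _ (by simp), h.s1 _ (pl_two _ _), ka', be']
  noncomm_ring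

theorem pd_ka3 (x : E4) : pd 3 (ka' g) x =
    star (g (update x 2 π)) * g (update (update x 1 0) 2 π) *
      B1 B g 3 (update (update x 1 0) 2 π) * (star (g (pl π (update x 1 0))) * g (pl π x)) -
        B1 B g 3 (update x 2 π) * ka' g x := by
  have e1 : pd 3 (fun y => g (update (update y 1 0) 2 π)) x =
      pd 3 g (update (update x 1 0) 2 π) := by
    rw [pd_upd_ne (f := fun y => g (update y 2 π))
      ((hg.sm.comp (contDiff_upd 2 π)).differentiable (by simp) _) (by decide),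
      pd_upd_ne (hg.sm.differentiable (by simp) _) (by decide)]
  have e2 : B 3 (update (update x 1 0) 2 π) = B 3 (update x 2 π) := by
    rw [update_comm (by decide : (1 : Fin 4) ≠ 2)]; exact h.s3 _ (by simp) 0
  rw [h.pd_ka hg (by decide), pd_pl3 hg.sm, e1, h.pd_g hg, e2,
    pd_eq_zero ((h.sm_c hg).differentiable (by simp) _) fun r => by
      rw [update_comm (by decide : (3 : Fin 4) ≠ 1), pl_upd3], ka']
  noncomm_ring

theorem cor : Cor L (B1 B g) (p0 p) (be' B g) (ka' g) 1 where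
  sD := h.sm_B1 hg
  sq := h.sm_p0
  sβ := (h.sm_B1 hg 1).comp (sm_pl π)
  sκ := h.sm_ka hg
  idem := h.idem0
  par := h.par1 hg
  pq i hi x := by
    by_cases h1 : i = 1
    · subst h1
      have e : p0 p = fun y => p0 p (pl π y) := funext fun y => by rw [p0, p0, pl_pl]
      have := h.par1 hg (pl π x) 1
      rw [← pd_pl h.sm_p0 π (by decide) (by decide), ← e, p0, pl_pl] at this
      exact this
    · rw [h.pd_p0 hi]
      fin_cases i
      exacts [rfl, absurd rfl h1, rfl, rfl]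
  β2 := pd_pl2 (h.sm_B1 hg 1) π
  β3 := pd_pl3 (h.sm_B1 hg 1) π
  comm := h.ka_comm hg
  D2 := h.B1_two hg
  κ2 x := pd_eq_zero ((h.sm_ka hg).differentiable (by simp) _) fun r => by
    simp only [ka', pl_upd2, update_idem, update_comm (by decide : (2 : Fin 4) ≠ 1)]
  hj := Or.inl rfl
  n3 x := h.B1_n3 hg
  nc x hx := by rw [h.cur1 hg, cur_pole h.sB h.n3 h.n0 hx]; simp
  sj x hx := by
    have e1 : update x 2 π = x := by rw [← hx, update_eq_self]
    rw [h.pd_ka1 hg, e1, show bs (be' B g) 1 x = be' B g x from rfl]; noncomm_ring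
  sc x hx := by rw [h.cur1 hg, cur_pole h.sB h.s1 h.s0 hx]; simp
  per v hv := ⟨h.B1_per hg hv, h.pl_per hv (h.perp v hv) 0, h.pl_per hv (h.B1_per hg hv 1) π,
    fun x => by
      have e : ∀ f : E4 → A, (∀ y, f (y + v) = f y) →
          f (update (x + v) 1 0) = f (update x 1 0) := fun f hf => by
        rcases hv with rfl | rfl
        · congr 1; ext j; fin_cases j <;> simp
        · rw [← hf (update x 1 0)]; congr 1; ext j; fin_cases j <;> simp
      rw [ka', ka', h.upd2_per hv, h.g_per hg hv, h.pl_per hv (h.g_per hg hv),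
        e (fun y => g (update y 2 π)) fun y => by rw [h.upd2_per hv, h.g_per hg hv],
        e (fun y => g (pl π y)) (h.pl_per hv (h.g_per hg hv) π)]⟩

theorem est (x : E4) (m : ℝ) (h2 : x 2 ∈ Icc 0 π) (h3 : x 3 ∈ Icc 0 (2 * π))
    (hm : Sml B p (x 0) m) (hm' : m ≤ 1 / 80) : Est (B1 B g) (p0 p) (be' B g) (ka' g) x m := by
  have hm0 := hm.nonneg
  have hπ : π * m ≤ 3.15 * m := mul_le_mul_of_nonneg_right pi_lt_d2.le hm0
  have hπ' : π ∈ Icc 0 π := ⟨pi_pos.le, le_rfl⟩
  have k3 : ∀ y : E4, y 0 = x 0 → ‖p0 p y * pd 3 (ka' g) y‖ ≤ 2 * π * m := fun y hy => by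
    have a1 := h.est3 hg (x := y) (by rwa [hy])
    have a2 := h.est3 hg (x := update y 1 0) (m := m) (by simpa [hy] using hm)
    rw [h.pd_ka3 hg, mul_sub, ← mul_assoc (p0 p y), ← mul_assoc (p0 p y), h.tr1 hg,
      mul_assoc _ (p0 p _), ← mul_assoc (p0 p y)]
    refine (norm_sub_le _ _).trans ?_
    rw [CStarRing.norm_mul_mem_unitary _ (h.ka_unit hg y),
      CStarRing.norm_mul_mem_unitary _ (mul_mem (Unitary.star_mem (h.unit hg _)) (h.unit hg _)),
      CStarRing.norm_mem_unitary_mul _ (mul_mem (Unitary.star_mem (h.unit hg _)) (h.unit hg _))]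
    linarith
  have d1 : ∀ y : E4, y 0 = x 0 → y 2 ∈ Icc 0 π → pl π y = pl π x →
      ‖p0 p x * (B1 B g 1 y - be' B g x)‖ ≤ 2 * π * m := fun y hy hy2 e => by
    have e0 : pl 0 y = pl 0 x := by rw [← pl_pl 0 π y, e, pl_pl]
    have a1 := h.est1' hg (Or.inl rfl) (x := y) (m := m) hy2 (by rwa [hy])
    have a2 := h.est1' hg (Or.inl rfl) (x := pl π x) (by rwa [pl_two]) (by rwa [pl_zero])
    simp only [p0, bs, be, e0, pl_pl, Matrix.cons_val_one, Matrix.cons_val_zero] at a1 a2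
    have e2 : p0 p x * (B1 B g 1 y - be' B g x) = p (pl 0 x) * (B1 B g 1 y - B 1 (pl 0 x)) -
        p (pl 0 x) * (B1 B g 1 (pl π x) - B 1 (pl 0 x)) := by rw [p0, be']; noncomm_ring
    rw [e2]
    exact (norm_sub_le _ _).trans (by linarith)
  refine ⟨h.est_k0 (h.sm_ka hg) (h.ka_zero hg) hm0 h3 fun s => k3 _ (by simp), fun i hi => ?_,
    fun i hi => ?_, by rw [h.norm_cur1 hg]; exact (hm x rfl h2).1,
    by rw [h.norm_cur1 hg]; exact (hm x rfl h2).2.1,
    by rw [h.norm_cur1 hg]; exact (hm x rfl h2).2.2, hm'⟩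
  · rcases hi with rfl | rfl
    · exact (d1 x rfl h2 rfl).trans (by linarith)
    · exact (h.est1' hg (Or.inr rfl) h2 hm).trans (by linarith)
  · rcases hi with rfl | rfl
    · have e : p0 p x * (pd 1 (ka' g) x + (be' B g x * ka' g x - ka' g x * be' B g x)) =
          - (p0 p x * (B1 B g 1 (update x 2 π) - be' B g x) * ka' g x) := by
        rw [h.pd_ka1 hg]; noncomm_ring
      show ‖p0 p x * (pd 1 (ka' g) x + (be' B g x * ka' g x - ka' g x * be' B g x))‖ ≤ _
      rw [e, norm_neg, CStarRing.norm_mul_mem_unitary _ (h.ka_unit hg x)]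
      exact (d1 _ (by simp) (by simpa using hπ') (pl_upd2 _ _ _)).trans (by linarith)
    · show ‖p0 p x * (pd 3 (ka' g) x + (0 * ka' g x - ka' g x * 0))‖ ≤ _
      rw [zero_mul, mul_zero, sub_zero, add_zero]
      exact (k3 x rfl).trans (by linarith)

omit hg in
/-- **Chern-Simons bound on `S³`** -/
theorem cs_bound (hL : 0 ≤ L) {τ : A →L[ℝ] ℝ} (hτ : ∀ a b, τ (a * b) = τ (b * a)) {a b ma mb : ℝ}
    (hab : a ≤ b) (hs : ∀ t ∈ Icc a b, Sml B p t (1 / 80)) (ha : Sml B p a ma) (hb : Sml B p b mb)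
    (ha' : ma ≤ 1 / 80) (hb' : mb ≤ 1 / 80) :
    |∫ x in Icc (![a, 0, 0, 0] : E4) ![b, L, π, 2 * π], cw τ B p x| ≤
      19600 * ‖τ‖ * L * (ma ^ 2 + mb ^ 2) := by
  obtain ⟨g, hg⟩ := h.exists_rad
  exact h.cs_of hg (h.cor hg) (h.est hg) hL hτ hab hs ha hb ha' hb'

end Sph

end Crest.Agent.X212.Rdc90
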