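import Crest.Agent.X212.Rdc90.Gr
import Crest.Agent.X212.Map77.Mono

/-! Coulomb gauge and harmonic part near a flat configuration. -/

set_option autoImplicit false
set_option linter.unusedSectionVars false
noncomputable section
open scoped Manifold ContDiff Topology InnerProductSpace
open MeasureTheory Set Function Filter

namespace Crest.Agent.X212.Rdc90
open An An.Pre Nd18 Cyf70 Sob92
open Wz78 (nab)
open Tmp64 (Eq0 AdmOn)
open Eqv71 (cj Itw)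
open Std94 (Itx)
open Cgr76 (qy ok3 mok)
open Crt72 (pc)
open Map77 (P2 i1 i2)

variable {E3 : Type} [NormedAddCommGroup E3] [NormedSpace ℝ E3] [FiniteDimensional ℝ E3]
  [MeasurableSpace E3] [BorelSpace E3]
  {H3 : Type} [TopologicalSpace H3] {I3 : ModelWithCorners ℝ E3 H3} [I3.Boundaryless]
  {Y : Type} [TopologicalSpace Y] [ChartedSpace H3 Y] [IsManifold I3 ∞ Y] [T2Space Y]
  [MeasurableSpace Y] [BorelSpace Y] [SecondCountableTopology Y] [CompactSpace Y]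
  {κ : Type} [Fintype κ] {lam : Type} [Fintype lam] {D : YD I3 Y κ lam} {β : YC Y κ lam}
  {a a' : κ → Y → β.m.A} {g : Y → En (Fin β.m.N)}

theorem nsum (F : Pre I3 Y κ) (j : ℕ) {α V W : Type} [Fintype α] [NormedAddCommGroup V]
    [InnerProductSpace ℝ V] [FiniteDimensional ℝ V] [NormedAddCommGroup W] [InnerProductSpace ℝ W]
    [FiniteDimensional ℝ W] (L : α → V →L[ℝ] W) : ∃ K, 0 ≤ K ∧ ∀ (u : α → Y → V) (b : ℝ),
      (∀ s, Sm I3 (u s)) → (∀ s, F.nrm j (u s) ≤ b) → 0 ≤ b →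
      F.nrm j (fun x => ∑ s, L s (u s x)) ≤ K * b := by
  choose K h0 hK using fun s => nclm F j (L s)
  refine ⟨∑ s, K s, Finset.sum_nonneg fun s _ => h0 s, fun u b hu hb _ => ?_⟩
  rw [Finset.sum_mul]
  exact (nrm_sum_le _ j (fun s _ => (L s).contMDiff.comp (hu s))
    fun _ _ => .of_compactSpace _).trans (Finset.sum_le_sum fun s _ =>
      (hK s _ (hu s)).trans (mul_le_mul_of_nonneg_left (hb s) (h0 s)))

theorem smL {V W : Type} [NormedAddCommGroup V] [NormedSpace ℝ V] [NormedAddCommGroup W]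
    [NormedSpace ℝ W] (L : V →L[ℝ] W) {u : Y → V} (hu : Sm I3 u) : Sm I3 fun y => L (u y) :=
  L.contMDiff.comp hu

/-- a form as a section -/
def Fo.sec (h : Fo D β a) : Sec I3 (pc D β) :=
  ⟨fun y => WithLp.toLp 2 fun k => a k y, sm_of_comp h.sm, .of_compactSpace _, fun y =>
    (Cgr76.pc_iff y _).2 ⟨fun k => Wz78.pg_of_mem (h.mem k y), fun k => h.P k y⟩⟩

theorem fo_sec (u : Sec I3 (pc D β)) : Fo D β fun k y => u.1 y k :=
  ⟨sm_comp u.2.1, fun k y => Cgr76.pc_mem (u.2.2.2 y) k,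
    fun k y => ((Cgr76.pc_iff y _).1 (u.2.2.2 y)).2 k⟩

variable (β) in
/-- the quadratic term -/
def Qb : Fm κ β.m.A →L[ℝ] Fm κ β.m.A →L[ℝ] P2 β.m.A (Fm (κ × κ) β.m.A) :=
  ∑ s : κ × κ, ContinuousLinearMap.compL ℝ _ _ _ (i2 _ _ ∘L ((√2)⁻¹ • Map77.ij _ s)) ∘L
    (Wz78.adcL ∘L opL).bilinearComp (Map77.pj _ s.1) (Map77.pj _ s.2)

theorem Qb_apply (v w : Fm κ β.m.A) : Qb β v w =
    ∑ s : κ × κ, (i2 _ _ ∘L ((√2)⁻¹ • Map77.ij _ s)) (adc (opL (v s.1)) (w s.2)) := by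
  simp only [Qb, _root_.sum_apply]; rfl

theorem Bs.hq (h : Bs D β) : Hq D.F (A0 β) β.m.pg (pc D β) :=
  ⟨smA0 h.adm, fun k y => Wz78.adc_skw (Cgr76.skw_cn h.adm k y), Cgr76.sm_pgY h.ok h.adm,
    Cgr76.sm_pc h.ok h.adm, ⟨Wz78.pg_pg, Wz78.inner_pg⟩, fun _ => rfl⟩

theorem Bs.app (h : Bs D β) (u : Sec I3 (pc D β)) (y : Y) :
    (d1 D.F (A0 β) (pc D β)).app D.F u.1 y = i1 _ _ (dv1 I3 D.F.e D.F.dv (A0 β) (fun b y => u.1 y b) y)
      + ∑ s : κ × κ, (i2 _ _ ∘L ((√2)⁻¹ • Map77.ij _ s))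
        (ed I3 D.F.e D.F.c (A0 β) (fun b y => u.1 y b) s.1 s.2 y) := by
  rw [h.hq.app1]
  simp only [ContinuousLinearMap.comp_apply, _root_.smul_apply, ← map_sum, ← Finset.smul_sum]
  congr 3
  exact Map77.fm_ext fun s => (Map77.sum_ij _ s).symm

theorem Bs.har (h : Bs D β) {u : Sec I3 (pc D β)} (e : (d1 D.F (A0 β) (pc D β)).app D.F u.1 = 0) :
    Har D β fun k y => u.1 y k := by
  have e1 := fun y => (h.hq.app1 u y).symm.trans (congrFun e y)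
  refine ⟨fo_sec u, fun j k y => ?_, fun y => by simpa using congrArg (Map77.f2 _ _) (e1 y)⟩
  simpa using congrArg (fun v : P2 β.m.A (Fm (κ × κ) β.m.A) => Map77.s2 _ _ v (j, k)) (e1 y)

theorem cp {n : ℕ} {u : Y → Fm κ β.m.A} {b : ℝ} (hu : Sm I3 u) (e : D.F.CB n u b) (hb : 0 ≤ b)
    (k : κ) : D.F.CB n (fun y => u y k) b :=
  CB_mono (CB_clm (Map77.pj β.m.A k) hu e) (mul_le_of_le_one_left hb
    (ContinuousLinearMap.opNorm_le_bound _ zero_le_one fun v => by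
      rw [one_mul]; exact PiLp.norm_apply_le v k))

/-- the harmonic part -/
theorem Bs.key (h : Bs D β) (hc : HC D β) (j m : ℕ) : ∃ K, 0 ≤ K ∧ ∃ ε₀ > 0,
    ∀ (a : Sec I3 (pc D β)) (ε : ℝ), 0 ≤ ε → ε ≤ ε₀ → D.F.CB (j + 1) a.1 ε →
      ∃ u, Har D β u ∧ (∀ k, D.F.CB m (u k) (K * ε)) ∧ ∀ b δ, 0 ≤ b → 0 ≤ δ →
        D.F.nrm j (dv1 I3 D.F.e D.F.dv (A0 β) fun b y => a.1 y b) ≤ δ →
        (∀ i k, D.F.nrm j (By D β (fun b y => a.1 y b) i k) ≤ b) →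
        ∀ k, D.F.nrm (j + 1) (fun y => a.1 y k - u k y) ≤ K * (b + δ) := by
  obtain ⟨C, hF⟩ := Cht98.exists_tame D.F (by rw [h.dim]; norm_num)
  obtain ⟨C', hA⟩ := h.hq.good1 hF
  obtain ⟨K₁, p1, ε₀, p0, H1⟩ := Rdc90.key hF hA h.hq.cliff1 (Qb β) (fun u e y => by
    rw [Qb_apply]
    exact Finset.sum_eq_zero fun s _ => by rw [hc _ (h.har e), map_zero]) j m
  obtain ⟨K₂, p2, H2⟩ := nsum D.F.toPre j fun s : κ × κ =>
    i2 β.m.A (Fm (κ × κ) β.m.A) ∘L ((√2)⁻¹ • Map77.ij β.m.A s)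
  obtain ⟨K₃, p3, H3⟩ := nclm D.F.toPre j (i1 β.m.A (Fm (κ × κ) β.m.A))
  choose K₆ p6 H6 using fun k : κ => nclm D.F.toPre (j + 1) (Map77.pj β.m.A k)
  have p7 := Finset.sum_nonneg fun k (_ : k ∈ Finset.univ) => p6 k
  have p8 : 0 ≤ (∑ k, K₆ k) * (K₁ * (K₂ + K₃)) := by positivity
  have ar : ∀ k b δ, 0 ≤ b → 0 ≤ δ → K₆ k * (K₁ * (K₃ * δ + K₂ * b)) ≤
      (K₁ + (∑ k, K₆ k) * (K₁ * (K₂ + K₃))) * (b + δ) := fun k b δ hb hδ => by
    refine le_trans ?_ (mul_le_mul_of_nonneg_right (le_add_of_nonneg_left p1) (by positivity))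
    rw [mul_assoc, mul_assoc]
    exact mul_le_mul (Finset.single_le_sum (fun k _ => p6 k) (Finset.mem_univ k))
      (mul_le_mul_of_nonneg_left (by linarith [mul_nonneg p2 hδ, mul_nonneg p3 hb]) p1)
      (by positivity) p7
  refine ⟨K₁ + (∑ k, K₆ k) * (K₁ * (K₂ + K₃)), by positivity, ε₀, p0, fun a ε h0 h1 ha => ?_⟩
  obtain ⟨u, e1, e2, e3⟩ : ∃ u : Sec I3 (pc D β), (d1 D.F (A0 β) (pc D β)).app D.F u.1 = 0 ∧
      D.F.CB m u.1 (K₁ * ε) ∧ D.F.nrm (j + 1) (a - u).1 ≤ K₁ * D.F.nrm j fun x =>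
        (d1 D.F (A0 β) (pc D β)).app D.F a.1 x + Qb β (a.1 x) (a.1 x) := H1 a ε h0 h1 ha
  refine ⟨_, h.har e1, fun k => CB_mono (cp u.2.1 e2 (by positivity) k) (by nlinarith),
    fun b δ hb hδ s7 e k => ?_⟩
  have e4 : D.F.nrm (j + 1) (fun y => a.1 y k - u.1 y k) ≤ K₆ k * D.F.nrm (j + 1) (a - u).1 :=
    H6 k _ (a - u).2.1
  have sd : Sm I3 (dv1 I3 D.F.e D.F.dv (A0 β) fun b y => a.1 y b) := fun y =>
    sa_dv1 (Wz78.frm D.F) (fun b => smA0 h.adm b y) (fun b => D.F.dv_sm b y)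
      fun b => (fo_sec a).sm b y
  have sB := fun s : κ × κ => (fo_sec a).smB h.adm s.1 s.2
  have e5 : (fun x => (d1 D.F (A0 β) (pc D β)).app D.F a.1 x + Qb β (a.1 x) (a.1 x)) =
      fun y => i1 _ _ (dv1 I3 D.F.e D.F.dv (A0 β) (fun b y => a.1 y b) y) +
        ∑ s : κ × κ, (i2 β.m.A (Fm (κ × κ) β.m.A) ∘L ((√2)⁻¹ • Map77.ij β.m.A s))
          (By D β (fun b y => a.1 y b) s.1 s.2 y) := funext fun y => by
    rw [h.app, Qb_apply, add_assoc, ← Finset.sum_add_distrib]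
    simp only [← map_add]; rfl
  have t1 : Sm I3 fun y => i1 β.m.A (Fm (κ × κ) β.m.A)
      (dv1 I3 D.F.e D.F.dv (A0 β) (fun b y => a.1 y b) y) := smL _ sd
  have t2 : Sm I3 fun y => ∑ s : κ × κ, (i2 β.m.A (Fm (κ × κ) β.m.A) ∘L
      ((√2)⁻¹ • Map77.ij β.m.A s)) (By D β (fun b y => a.1 y b) s.1 s.2 y) :=
    contMDiff_finsetSum fun s _ => smL _ (sB s)
  have t3 := nadd (F := D.F.toPre) (k := j) t1 t2
  have t4 := H2 _ b sB (fun s => e s.1 s.2) hb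
  have t5 := (H3 _ sd).trans (mul_le_mul_of_nonneg_left s7 p3)
  rw [← e5] at t3
  have e6 := e3.trans (mul_le_mul_of_nonneg_left (t3.trans (add_le_add t5 t4)) p1)
  exact e4.trans ((mul_le_mul_of_nonneg_left e6 (p6 k)).trans (ar k b δ hb hδ))

/-- the Coulomb gauge -/
theorem Bs.coul (h : Bs D β) (j : ℕ) {ε : ℝ} (hε : 0 < ε) : ∃ η > 0, ∀ a, Fo D β a →
    (∀ k, D.F.CB (j + 7) (a k) η) → ∀ δ > 0, ∃ (a' : Sec I3 (pc D β)) (g : Y → En (Fin β.m.N)),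
      Gr D β a (fun b y => a'.1 y b) g ∧ D.F.CB j (fun y => g y - 1) ε ∧ D.F.CB (j + 1) a'.1 ε ∧
      D.F.nrm j (dv1 I3 D.F.e D.F.dv (A0 β) fun b y => a'.1 y b) ≤ δ := by
  obtain ⟨C, hF⟩ := Cht98.exists_tame D.F (by rw [h.dim]; norm_num)
  obtain ⟨K₄, p4, H4⟩ := nsum D.F.toPre (j + 7) (Grp76.ij (ι := κ) β.m.A)
  obtain ⟨K₅, p5, H5⟩ := ncb D.F.toPre (j + 7) β.m.A
  have H : (qy D β 0).Hyp D.F (j + 6 + 1) :=
    ⟨Cgr76.qok h.ok h.adm contMDiff_const fun _ => map_zero _, ⟨_, Sup.of_tame hF⟩, by omega⟩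
  have n0 := norm_nonneg (opL : CL β.m.A _)
  set ε₁ := ε / (1 + ‖(opL : CL β.m.A _)‖) with hε₁
  have p9 : 0 < ε₁ := by positivity
  have q1 : (1 + ‖(opL : CL β.m.A _)‖) * ε₁ = ε := mul_div_cancel₀ _ (by positivity)
  obtain ⟨η, q0, H7⟩ := Rdc90.coul H hF h.hq (ε := ε₁ / (√|C 0| + 1)) (by positivity)
  refine ⟨η / (K₄ * K₅ + 1), by positivity, fun a ha hb δ hδ => ?_⟩
  obtain ⟨ξ, a', s1, s2, s3, s4, s5, s6, s7⟩ := H7 ha.sec (by
    have := H4 a _ ha.sm (fun k => H5 _ _ (ha.sm k) (hb k)) (by positivity)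
    rw [abs_of_pos (by positivity), ← mul_assoc, ← mul_div_assoc] at this
    refine lt_of_eq_of_lt ?_ (this.trans_lt ?_)
    · exact congrArg _ (funext fun y => PiLp.ext fun k => (Grp76.sum_ij _ k).symm)
    · rw [div_lt_iff₀ (by positivity)]; nlinarith) δ hδ
  have cb : ∀ {V : Type} [NormedAddCommGroup V] [InnerProductSpace ℝ V] [FiniteDimensional ℝ V]
      {u : Y → V}, Sm I3 u → D.F.nrm (j + 7) u < ε₁ / (√|C 0| + 1) → D.F.CB (j + 1) u ε₁ :=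
    fun {V} _ _ _ {u} hu e => CB_mono (CB_of_le (cbn (Sup.of_tame hF) hu (j + 3)) (by omega)) (by
      rw [lt_div_iff₀ (by positivity)] at e
      nlinarith [nrm_nonneg (F := D.F.toPre) (j + 7) u, e])
  refine ⟨a', fun y => 1 + opL (ξ y), ⟨ha, fo_sec a', contMDiff_const.add
    (opL.contMDiff.comp s1), s3, fun y => ?_, fun y b => ?_⟩, ?_,
    CB_mono (cb a'.2.1 s6) (by nlinarith), (nrm_mono (by omega) _).trans s7.le⟩
  · rw [add_sub_cancel_left]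
    exact (Grp76.ph_iff (ok3 h.ok) (mok h.adm) _).1 (s2 y)
  · have e4 : dv I3 (D.F.e b) (fun y => 1 + opL (ξ y)) y = opL (D.F.D b ξ y) :=
      (dv_add mdifferentiableAt_const ((opL.contMDiff.comp s1).mdifferentiableAt (by simp))).trans
        ((congrArg₂ (· + ·) (congrFun (dv_const _) _)
          (dv_clm opL (s1.mdifferentiableAt (by simp)))).trans (zero_add _))
    rw [e4]
    exact sub_eq_zero.1 (s4 y b)
  · simp only [add_sub_cancel_left]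
    exact CB_mono (CB_clm opL s1 (CB_of_le (cb s1 ((nrm_mono (by omega) _).trans_lt s5))
      j.le_succ)) (by nlinarith)

/-- Coulomb gauge and harmonic part -/
theorem cor (h : Bs D β) (hc : HC D β) (j m : ℕ) : ∃ K, 0 ≤ K ∧ ∀ ε > 0, ∃ η > 0, ∀ a, Fo D β a →
    (∀ k, D.F.CB (j + 7) (a k) η) → ∀ δ > 0, ∃ a' g u, Gr D β a a' g ∧ Har D β u ∧
      D.F.CB j (fun y => g y - 1) ε ∧ (∀ k, D.F.CB j (a' k) ε) ∧ (∀ k, D.F.CB m (u k) ε) ∧
      ∀ b, 0 ≤ b → (∀ i k, D.F.nrm j (By D β a' i k) ≤ b) →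
        ∀ k, D.F.nrm (j + 1) (fun y => a' k y - u k y) ≤ K * (b + δ) := by
  obtain ⟨K, p1, ε₀, p0, H1⟩ := h.key hc j m
  refine ⟨K, p1, fun ε hε => ?_⟩
  set ε₁ := min ε₀ (ε / (1 + K)) with hε₁
  have p9 : 0 < ε₁ := lt_min p0 (by positivity)
  have q1 : (1 + K) * ε₁ ≤ ε := by
    rw [mul_comm, ← le_div_iff₀ (by positivity)]; exact min_le_right _ _
  obtain ⟨η, q0, H7⟩ := h.coul j p9
  refine ⟨η, q0, fun a ha hb δ hδ => ?_⟩
  obtain ⟨a', g, s1, s2, s3, s4⟩ := H7 a ha hb δ hδ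
  obtain ⟨u, e1, e2, e3⟩ := H1 a' ε₁ p9.le (min_le_left _ _) s3
  exact ⟨_, g, u, s1, e1, CB_mono s2 (by nlinarith),
    fun k => CB_mono (CB_of_le (cp a'.2.1 s3 p9.le k) j.le_succ) (by nlinarith),
    fun k => CB_mono (e2 k) (by nlinarith), fun b hb e => e3 b δ hb hδ.le s4 e⟩

end Crest.Agent.X212.Rdc90
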