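import Crest.Agent.X212.Rdc90.Flat

/-!
# Row 212, RDEC (helper90), file 4: the correction at the south pole and the boundary terms
-/

set_option autoImplicit false
set_option linter.unusedSectionVars false
set_option linter.unusedVariables false
noncomputable section
open Set Function Filter Topology MeasureTheory Real
open scoped ContDiff

namespace Crest.Agent.X212.Rdc90

variable {A : Type} [NormedRing A] [NormedAlgebra ℝ A] [CompleteSpace A] [StarRing A]
  [CStarRing A] [StarModule ℝ A]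

theorem inv_comm {w q : A} (h : q * w = w * q) : q * Ring.inverse w = Ring.inverse w * q := by
  by_cases hw : IsUnit w
  · calc q * Ring.inverse w = Ring.inverse w * (w * q) * Ring.inverse w := by
          rw [← mul_assoc, Ring.inverse_mul_cancel _ hw, one_mul]
      _ = _ := by rw [← h, mul_assoc, mul_assoc, Ring.mul_inverse_cancel _ hw, mul_one]
  · simp [Ring.inverse_non_unit _ hw]

theorem norm_inv_mul {u : A} (hu : ‖u‖ ≤ 1 / 2) (a : A) :
    ‖Ring.inverse (1 + u) * a‖ ≤ 2 * ‖a‖ := by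
  have hw : IsUnit (1 + u) := by
    simpa using isUnit_one_sub_of_norm_lt_one (x := -u) (by rw [norm_neg]; linarith)
  have e : Ring.inverse (1 + u) * a = a - u * (Ring.inverse (1 + u) * a) := by
    rw [eq_sub_iff_add_eq]
    calc _ = (1 + u) * Ring.inverse (1 + u) * a := by noncomm_ring
      _ = a := by rw [Ring.mul_inverse_cancel _ hw, one_mul]
  have h1 := norm_sub_le a (u * (Ring.inverse (1 + u) * a))
  have h2 := norm_mul_le u (Ring.inverse (1 + u) * a)
  rw [← e] at h1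
  nlinarith [norm_nonneg (Ring.inverse (1 + u) * a)]

theorem norm_mul_one_add {u : A} (hu : ‖u‖ ≤ 1 / 2) (a : A) : ‖a * (1 + u)‖ ≤ 3 / 2 * ‖a‖ := by
  rw [mul_add, mul_one]
  have h1 := norm_add_le a (a * u)
  have h2 := norm_mul_le a u
  nlinarith [norm_nonneg a]

/-- cut off from the north to the south pole -/
def ch (x : E4) : ℝ := (1 - cos (x 2)) / 2
/-- the correction -/
def ww (q κ : E4 → A) (x : E4) : A := 1 + ch x • (q x * (κ x - 1))
/-- its inverse -/
def wi (q κ : E4 → A) (x : E4) : A := Ring.inverse (ww q κ x)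
/-- the connection in the final gauge -/
def B2 (D : Fin 4 → E4 → A) (q κ : E4 → A) : Fin 4 → E4 → A := gt (ww q κ) (wi q κ) D
/-- the slice-flat reference -/
def C2 (D : Fin 4 → E4 → A) (q β κ : E4 → A) : Fin 4 → E4 → A := ![B2 D q κ 0, β, 0, 0]

theorem sm_ch : ContDiff ℝ ∞ ch := by unfold ch; fun_prop
theorem ch_mem (x : E4) : ch x ∈ Icc (0 : ℝ) 1 :=
  ⟨by unfold ch; linarith [cos_le_one (x 2)], by unfold ch; linarith [neg_one_le_cos (x 2)]⟩
theorem pd_ch (i : Fin 4) (x : E4) : pd i ch x = if i = 2 then sin (x 2) / 2 else 0 :=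
  pd_coord (fun r => (1 - cos r) / 2) (by
    simpa using ((hasDerivAt_cos (x 2)).const_sub 1).div_const 2)

/-- a connection `D` in radial gauge, the model `β dφ`, the clutching function `κ`; the `j` circle
collapses at the south pole -/
structure Cor (L : ℝ) (D : Fin 4 → E4 → A) (q β κ : E4 → A) (j : Fin 4) : Prop where
  sD : ∀ i, ContDiff ℝ ∞ (D i)
  sq : ContDiff ℝ ∞ q
  sβ : ContDiff ℝ ∞ β
  sκ : ContDiff ℝ ∞ κ
  idem : ∀ x, q x * q x = q x
  par : ∀ x, Par D q x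
  pq : ∀ i, i ≠ 0 → ∀ x, pd i q x = q x * bs β i x - bs β i x * q x
  β2 : ∀ x, pd 2 β x = 0
  β3 : ∀ x, pd 3 β x = 0
  comm : ∀ x, q x * κ x = κ x * q x
  D2 : D 2 = 0
  κ2 : ∀ x, pd 2 κ x = 0
  hj : j = 1 ∨ j = 3
  n3 : ∀ x, x 2 = 0 → D 3 x = 0
  nc : ∀ x, x 2 = 0 → cur D 0 3 x = 0
  sj : ∀ x, x 2 = π → pd j κ x + (bs β j x * κ x - κ x * bs β j x) = - ((D j x - bs β j x) * κ x)
  sc : ∀ x, x 2 = π → cur D 0 j x = 0
  per : ∀ v : E4, v = Pi.single 1 L ∨ v = Pi.single 3 (2 * π) → (∀ i x, D i (x + v) = D i x) ∧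
    (∀ x, q (x + v) = q x) ∧ (∀ x, β (x + v) = β x) ∧ ∀ x, κ (x + v) = κ x

/-- smallness at a point -/
structure Est (D : Fin 4 → E4 → A) (q β κ : E4 → A) (x : E4) (m : ℝ) : Prop where
  k0 : ‖q x * (κ x - 1)‖ ≤ 40 * m
  d : ∀ i, i = 1 ∨ i = 3 → ‖q x * (D i x - bs β i x)‖ ≤ 7 * m
  k1 : ∀ i, i = 1 ∨ i = 3 → ‖q x * (pd i κ x + (bs β i x * κ x - κ x * bs β i x))‖ ≤ 7 * m
  f23 : ‖q x * cur D 2 3 x‖ ≤ m
  f31 : ‖q x * cur D 3 1 x‖ ≤ m
  f12 : ‖q x * cur D 1 2 x‖ ≤ m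
  le : m ≤ 1 / 80

namespace Cor
variable {L : ℝ} {D : Fin 4 → E4 → A} {q β κ : E4 → A} {j : Fin 4} (h : Cor L D q β κ j)
include h

theorem comm1 {i : Fin 4} (hi : i ≠ 0) (x : E4) :
    q x * (D i x - bs β i x) = (D i x - bs β i x) * q x := by
  have := (h.par x i).symm.trans (h.pq i hi x)
  rw [← sub_eq_zero] at this ⊢
  rw [← this]; noncomm_ring

omit h in
theorem est_u {x : E4} {m : ℝ} (e : Est D q β κ x m) : ‖ch x • (q x * (κ x - 1))‖ ≤ 1 / 2 := by
  rw [norm_smul, Real.norm_of_nonneg (ch_mem x).1]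
  nlinarith [e.k0, e.le, (ch_mem x).1, (ch_mem x).2, norm_nonneg (q x * (κ x - 1))]

omit h in
theorem isUnit_ww {x : E4} {m : ℝ} (e : Est D q β κ x m) : IsUnit (ww q κ x) := by
  simpa [ww] using isUnit_one_sub_of_norm_lt_one (x := -(ch x • (q x * (κ x - 1))))
    (by rw [norm_neg]; linarith [est_u e])

theorem sm_ww : ContDiff ℝ ∞ (ww q κ) :=
  contDiff_const.add (sm_ch.smul (h.sq.mul (h.sκ.sub contDiff_const)))

theorem ww_comm (x : E4) : q x * ww q κ x = ww q κ x * q x := by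
  simp only [ww, mul_add, add_mul, mul_one, one_mul, mul_smul_comm, smul_mul_assoc, mul_sub,
    sub_mul, mul_assoc, ← h.comm]

theorem wi_comm (x : E4) : q x * wi q κ x = wi q κ x * q x := inv_comm (h.ww_comm x)

theorem pd_ww {i : Fin 4} (hi : i ≠ 0) (x : E4) :
    pd i (ww q κ) x + (bs β i x * ww q κ x - ww q κ x * bs β i x) =
      pd i ch x • (q x * (κ x - 1)) +
        ch x • (q x * (pd i κ x + (bs β i x * κ x - κ x * bs β i x))) := by
  have h1 := h.sκ.sub (contDiff_const (c := (1 : A)))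
  have h2 := pd_add (i := i) (x := x) (differentiableAt_const (1 : A))
    (g := fun y => ch y • (q y * (κ y - 1))) ((sm_ch.smul (h.sq.mul h1)).differentiable (by simp) _)
  rw [pd_const, pd_smul (sm_ch.differentiable (by simp) _)
    ((h.sq.mul h1).differentiable (by simp) _), pd_mul (h.sq.differentiable (by simp) _)
    (h1.differentiable (by simp) _), pd_sub (h.sκ.differentiable (by simp) _)
    (differentiableAt_const _), pd_const, h.pq i hi] at h2
  rw [show pd i (ww q κ) x = _ from h2]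
  simp only [ww, mul_add, add_mul, mul_sub, sub_mul, mul_one, one_mul, mul_smul_comm,
    smul_mul_assoc, smul_add, smul_sub, mul_assoc, sub_zero, zero_add]
  abel

theorem ev_unit {x : E4} (hx : IsUnit (ww q κ x)) : ∀ᶠ y in 𝓝 x, IsUnit (ww q κ y) :=
  (h.sm_ww).continuous.continuousAt.eventually (Units.isOpen.mem_nhds hx)

theorem sa_wi {x : E4} (hx : IsUnit (ww q κ x)) : SA (wi q κ) x := by
  obtain ⟨u, hu⟩ := hx
  have := contDiffAt_ringInverse ℝ (n := ∞) u
  rw [hu] at this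
  exact this.comp x (h.sm_ww).contDiffAt

theorem sa_B2 {x : E4} (hx : IsUnit (ww q κ x)) (i : Fin 4) : SA (B2 D q κ i) x :=
  SA.gt (h.sD i).contDiffAt (h.sm_ww).contDiffAt (h.sa_wi hx)

theorem ev_inv {x : E4} (hx : IsUnit (ww q κ x)) : ∀ᶠ y in 𝓝 x, wi q κ y * ww q κ y = 1 :=
  (h.ev_unit hx).mono fun y hy => Ring.inverse_mul_cancel _ hy

theorem par2 {x : E4} (hx : IsUnit (ww q κ x)) : Par (B2 D q κ) q x :=
  par_gt h.sq.contDiffAt (h.sm_ww).contDiffAt (h.sa_wi hx) (h.ev_inv hx)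
    (Ring.mul_inverse_cancel _ hx) (h.par x) ((h.ev_inv hx).mono fun y hy => by
      rw [mul_assoc, h.ww_comm, ← mul_assoc, hy, one_mul])

theorem cur2 {x : E4} (hx : IsUnit (ww q κ x)) (i j : Fin 4) :
    cur (B2 D q κ) i j x = wi q κ x * cur D i j x * ww q κ x :=
  cur_gt (fun i => (h.sD i).contDiffAt) (h.sm_ww).contDiffAt (h.sa_wi hx)
    (h.ev_inv hx) (Ring.mul_inverse_cancel _ hx) i j

omit h in
theorem C2_eq {i : Fin 4} (hi : i ≠ 0) : C2 D q β κ i = bs β i := by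
  fin_cases i
  exacts [absurd rfl hi, rfl, rfl, rfl]

theorem ref {x : E4} (hx : IsUnit (ww q κ x)) : Ref (B2 D q κ) (C2 D q β κ) q x where
  sB := h.sa_B2 hx
  sC i := by
    by_cases hi : i = 0
    · subst hi; exact h.sa_B2 hx 0
    · rw [C2_eq hi]; exact (sm_bs h.sβ i).contDiffAt
  sp := h.sq.contDiffAt
  pB := (h.ev_unit hx).mono fun y hy => h.par2 hy
  pC i := by
    by_cases hi : i = 0
    · subst hi; exact h.par2 hx 0
    · rw [C2_eq hi]; exact h.pq i hi x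
  c0 := rfl
  f23 := Eventually.of_forall fun y => by
    show pd 2 (fun _ => (0 : A)) y - pd 3 (fun _ => (0 : A)) y + (0 * 0 - 0 * 0) = 0
    simp [pd_const]
  f31 := Eventually.of_forall fun y => by
    show pd 3 β y - pd 1 (fun _ => (0 : A)) y + (0 * β y - β y * 0) = 0
    simp [pd_const, h.β3]
  f12 := Eventually.of_forall fun y => by
    show pd 1 (fun _ => (0 : A)) y - pd 2 β y + (β y * 0 - 0 * β y) = 0
    simp [pd_const, h.β2]

theorem cw2 {τ : A →L[ℝ] ℝ} (hτ : ∀ a b, τ (a * b) = τ (b * a)) {x : E4}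
    (hx : IsUnit (ww q κ x)) : cw τ (B2 D q κ) q x = cw τ D q x := by
  have h1 : ww q κ x * wi q κ x = 1 := Ring.mul_inverse_cancel _ hx
  have e : ∀ a b : A, τ (q x * (wi q κ x * a * ww q κ x * (wi q κ x * b * ww q κ x))) =
      τ (q x * (a * b)) := fun a b => by
    calc _ = τ (q x * wi q κ x * (a * (ww q κ x * wi q κ x) * b) * ww q κ x) := by
          congr 1; noncomm_ring
      _ = τ (ww q κ x * wi q κ x * (q x * (a * b))) := by
          conv_lhs => rw [h1, mul_one, h.wi_comm, hτ]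
          congr 1; noncomm_ring
      _ = _ := by rw [h1, one_mul]
  simp only [cw, h.cur2 hx, e]

theorem est_cur2 {x : E4} {m : ℝ} (e : Est D q β κ x m) (i j : Fin 4) :
    ‖q x * cur (B2 D q κ) i j x‖ ≤ 3 * ‖q x * cur D i j x‖ := by
  have hu := est_u e
  have e1 : q x * cur (B2 D q κ) i j x = wi q κ x * (q x * cur D i j x * ww q κ x) := by
    rw [h.cur2 (isUnit_ww e), ← mul_assoc, ← mul_assoc, h.wi_comm]
    noncomm_ring
  rw [e1]
  have h1 : ‖_ * ww q κ x‖ ≤ _ := norm_mul_one_add hu (q x * cur D i j x)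
  exact (norm_inv_mul hu _).trans (by linarith)

theorem df2 {x : E4} (hx : IsUnit (ww q κ x)) {i : Fin 4} (hi : i ≠ 0) :
    q x * df (B2 D q κ) (C2 D q β κ) i x = wi q κ x * (q x * (D i x - bs β i x) * ww q κ x +
      (pd i ch x • (q x * (κ x - 1)) +
        ch x • (q x * (pd i κ x + (bs β i x * κ x - κ x * bs β i x))))) := by
  have h1 : wi q κ x * ww q κ x = 1 := Ring.inverse_mul_cancel _ hx
  have e : df (B2 D q κ) (C2 D q β κ) i x = wi q κ x * ((D i x - bs β i x) * ww q κ x +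
      (pd i (ww q κ) x + (bs β i x * ww q κ x - ww q κ x * bs β i x))) := by
    rw [df, C2_eq hi, B2, gt]
    calc _ = wi q κ x * (D i x * ww q κ x + pd i (ww q κ) x) - 1 * bs β i x := by rw [one_mul]
      _ = _ := by rw [← h1]; noncomm_ring
  rw [e, h.pd_ww hi, ← mul_assoc, h.wi_comm, mul_assoc]
  congr 1
  simp only [mul_add (q x), mul_smul_comm, ← mul_assoc, h.idem]

/-- the connection in the final gauge is close to the model -/
theorem est2 {x : E4} {m : ℝ} (e : Est D q β κ x m) {i : Fin 4} (hi : i ≠ 0) :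
    ‖q x * df (B2 D q κ) (C2 D q β κ) i x‖ ≤ 40 * m := by
  have hu := est_u e
  have hm0 : 0 ≤ m := (norm_nonneg _).trans e.f23
  rw [h.df2 (isUnit_ww e) hi]
  refine (norm_inv_mul hu _).trans ?_
  by_cases hi2 : i = 2
  · subst hi2
    have e1 : bs β 2 x = 0 := rfl
    have a7 : ‖pd 2 ch x‖ ≤ 1 / 2 := by
      rw [pd_ch, if_pos rfl, Real.norm_eq_abs, abs_div, abs_two]; linarith [abs_sin_le_one (x 2)]
    have a8 := mul_le_mul a7 e.k0 (norm_nonneg _) (by norm_num)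
    simp only [h.D2, h.κ2, e1, Pi.zero_apply, sub_zero, mul_zero, zero_mul, add_zero, smul_zero,
      zero_add, norm_smul]
    linarith
  · have a1 : ‖_ * ww q κ x‖ ≤ _ := norm_mul_one_add hu (q x * (D i x - bs β i x))
    have a2 := e.k1 i (by omega)
    have a7 := e.d i (by omega)
    have a6 := mul_le_of_le_one_left (norm_nonneg (q x * (pd i κ x +
      (bs β i x * κ x - κ x * bs β i x)))) (ch_mem x).2
    rw [pd_ch, if_neg hi2, zero_smul, zero_add]
    have a4 := norm_add_le (q x * (D i x - bs β i x) * ww q κ x)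
      (ch x • (q x * (pd i κ x + (bs β i x * κ x - κ x * bs β i x))))
    rw [norm_smul, Real.norm_of_nonneg (ch_mem x).1] at a4
    linarith

theorem north {x : E4} (hu : IsUnit (ww q κ x)) (hx : x 2 = 0) :
    q x * df (B2 D q κ) (C2 D q β κ) 3 x = 0 := by
  rw [h.df2 hu (by decide), pd_ch, if_neg (by decide), h.n3 x hx]
  simp [ch, hx, bs]

theorem south {x : E4} (hu : IsUnit (ww q κ x)) (hx : x 2 = π) :
    q x * df (B2 D q κ) (C2 D q β κ) j x = 0 := by
  have j0 : j ≠ 0 := by rcases h.hj with rfl | rfl <;> decide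
  have j2 : j ≠ 2 := by rcases h.hj with rfl | rfl <;> decide
  have e2 : ch x = 1 := by simp [ch, hx]
  have e3 := h.comm1 j0 x
  rw [h.df2 hu j0, pd_ch, if_neg j2, h.sj x hx, ww, e2, one_smul, one_smul, zero_smul, zero_add]
  generalize D j x - bs β j x = a at *
  have : q x * a * (1 + q x * (κ x - 1)) + q x * -(a * κ x) = 0 := by
    calc _ = q x * a + q x * (a * q x) * (κ x - 1) - q x * a * κ x := by noncomm_ring
      _ = 0 := by rw [← e3, ← mul_assoc, h.idem]; noncomm_ring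
  rw [this, mul_zero]

theorem pole_cur {x : E4} (hu : IsUnit (ww q κ x)) {k : Fin 4} {c : ℝ} (hx : x 2 = c)
    (h1 : ∀ y, IsUnit (ww q κ y) → y 2 = c → q y * df (B2 D q κ) (C2 D q β κ) k y = 0)
    (h2 : cur D 0 k x = 0) : q x * (cur (B2 D q κ) 0 k x + cur (C2 D q β κ) 0 k x) = 0 := by
  have r := h.ref hu
  have e1 : cur (B2 D q κ) 0 k x = 0 := by rw [h.cur2 hu, h2]; simp
  have hev : ∀ᶠ s in 𝓝 (x 0), IsUnit (ww q κ (update x 0 s)) := by
    have hc : Continuous fun s : ℝ => update x 0 s := continuous_const.update 0 continuous_id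
    have := hc.continuousAt (x := x 0)
    rw [ContinuousAt, update_eq_self] at this
    exact this.eventually (h.ev_unit hu)
  have h3 := pd_eq_of (i := 0) (SA.d (r.sp.mul (r.sd k)))
    ((hasDerivAt_const (x 0) (0 : A)).congr_of_eventuallyEq
      (hev.mono fun s hs => h1 _ hs (by simpa using hx)))
  rw [pd_mul r.sp.d (r.sd k).d, r.pB.self_of_nhds 0] at h3
  have h4 := r.cov0 k
  rw [e1, cov, zero_sub, eq_neg_iff_add_eq_zero] at h4
  have h5 := h1 x hu hx
  rw [e1, zero_add]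
  generalize df (B2 D q κ) (C2 D q β κ) k x = a at *
  generalize pd 0 (df (B2 D q κ) (C2 D q β κ) k) x = a' at *
  calc _ = q x * (a' + (B2 D q κ 0 x * a - a * B2 D q κ 0 x) + cur (C2 D q β κ) 0 k x) -
        ((q x * B2 D q κ 0 x - B2 D q κ 0 x * q x) * a + q x * a') - B2 D q κ 0 x * (q x * a) +
        q x * a * B2 D q κ 0 x := by noncomm_ring
    _ = 0 := by rw [h3, h4, h5]; simp

theorem pole_cs {τ : A →L[ℝ] ℝ} {x : E4} (hu : IsUnit (ww q κ x)) (hx : x 2 = 0 ∨ x 2 = π) :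
    cs τ (B2 D q κ) (C2 D q β κ) q 2 x = 0 := by
  have r := h.ref hu
  have e : ∀ k l, q x * df (B2 D q κ) (C2 D q β κ) k x = 0 →
      q x * (cur (B2 D q κ) 0 k x + cur (C2 D q β κ) 0 k x) = 0 →
      q x * (df (B2 D q κ) (C2 D q β κ) k x * (cur (B2 D q κ) 0 l x + cur (C2 D q β κ) 0 l x)) = 0 ∧
      q x * (df (B2 D q κ) (C2 D q β κ) l x * (cur (B2 D q κ) 0 k x + cur (C2 D q β κ) 0 k x)) = 0 :=
    fun k l h1 h2 => ⟨by rw [← mul_assoc, h1, zero_mul],
      by rw [← mul_assoc, r.comm l, mul_assoc, h2, mul_zero]⟩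
  show cs1 τ (B2 D q κ) (C2 D q β κ) q 3 1 x = 0
  rw [cs1, mul_sub]
  rcases hx with hx | hx
  · obtain ⟨a, b⟩ := e 3 1 (h.north hu hx) (h.pole_cur hu hx (fun y => h.north) (h.nc x hx))
    rw [a, b]; simp
  · have := fun l => e j l (h.south hu hx) (h.pole_cur hu hx (fun y => h.south) (h.sc x hx))
    rcases h.hj with rfl | rfl
    · rw [(this 3).1, (this 3).2]; simp
    · rw [(this 1).1, (this 1).2]; simp

theorem est_cs {τ : A →L[ℝ] ℝ} {x : E4} {m : ℝ} (e : Est D q β κ x m) :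
    |cs τ (B2 D q κ) (C2 D q β κ) q 0 x| ≤ 1960 * ‖τ‖ * m ^ 2 := by
  have r := h.ref (isUnit_ww e)
  have hm' := e.le
  have b1 := h.est2 e (i := 1) (by decide)
  have b2 := h.est2 e (i := 2) (by decide)
  have b3 := h.est2 e (i := 3) (by decide)
  have f1 := e.f23
  have f2 := e.f31
  have f3 := e.f12
  have g1 := h.est_cur2 e 2 3
  have g2 := h.est_cur2 e 3 1
  have g3 := h.est_cur2 e 1 2
  have sp : ∀ i, ∀ a : A, q x * (df (B2 D q κ) (C2 D q β κ) i x * a) =
      q x * df (B2 D q κ) (C2 D q β κ) i x * (q x * a) := fun i a => by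
    rw [mul_assoc, ← mul_assoc _ (q x) a, ← r.comm i, ← mul_assoc, ← mul_assoc, ← mul_assoc,
      h.idem]
  show |cs0 τ (B2 D q κ) (C2 D q β κ) q x| ≤ _
  rw [cs0, mul_sub, mul_add, mul_add, sp, sp, sp, sp, mul_sub (q x), sp 2, sp 3]
  generalize q x * df (B2 D q κ) (C2 D q β κ) 1 x = a1 at *
  generalize q x * df (B2 D q κ) (C2 D q β κ) 2 x = a2 at *
  generalize q x * df (B2 D q κ) (C2 D q β κ) 3 x = a3 at *
  generalize q x * cur (B2 D q κ) 2 3 x = c1 at *
  generalize q x * cur (B2 D q κ) 3 1 x = c2 at *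
  generalize q x * cur (B2 D q κ) 1 2 x = c3 at *
  have t : ∀ {a c : A} {s r : ℝ}, ‖a‖ ≤ s → ‖c‖ ≤ r → ‖a * c‖ ≤ s * r := fun h1 h2 =>
    (norm_mul_le _ _).trans (mul_le_mul h1 h2 (norm_nonneg _) ((norm_nonneg _).trans h1))
  have t1 := t b1 (g1.trans (mul_le_mul_of_nonneg_left f1 (by norm_num)))
  have t2 := t b2 (g2.trans (mul_le_mul_of_nonneg_left f2 (by norm_num)))
  have t3 := t b3 (g3.trans (mul_le_mul_of_nonneg_left f3 (by norm_num)))
  have t4 := t b1 ((norm_sub_le _ _).trans (add_le_add (t b2 b3) (t b3 b2)))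
  have t5 : ‖a1 * c1 + a2 * c2 + a3 * c3 - a1 * (a2 * a3 - a3 * a2)‖ ≤ 1960 * m ^ 2 := by
    refine (norm_sub_le _ _).trans ((add_le_add (norm_add₃_le) le_rfl).trans ?_)
    nlinarith [mul_le_mul_of_nonneg_left hm' (sq_nonneg m)]
  calc _ ≤ ‖τ‖ * ‖a1 * c1 + a2 * c2 + a3 * c3 - a1 * (a2 * a3 - a3 * a2)‖ := τ.le_opNorm _
    _ ≤ ‖τ‖ * (1960 * m ^ 2) := by gcongr
    _ = _ := by ring

theorem per_all {v : E4} (hv : v = Pi.single 1 L ∨ v = Pi.single 3 (2 * π)) :
    (∀ i x, B2 D q κ i (x + v) = B2 D q κ i x) ∧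
      ∀ i x, C2 D q β κ i (x + v) = C2 D q β κ i x := by
  obtain ⟨hD, hq, hβ, hκ⟩ := h.per v hv
  have e2 : ∀ x : E4, (x + v) 2 = x 2 := fun x => by rcases hv with rfl | rfl <;> simp
  have h2 : ∀ x, ww q κ (x + v) = ww q κ x := fun x => by simp only [ww, ch, e2, hq, hκ]
  have h3 : ∀ i x, B2 D q κ i (x + v) = B2 D q κ i x := fun i x => by
    simp only [B2, gt, wi, h2, hD, pd_transl h2]
  refine ⟨h3, fun i x => ?_⟩
  fin_cases i
  exacts [h3 0 x, hβ x, rfl, rfl]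

theorem per_cs {τ : A →L[ℝ] ℝ} {v : E4} (hv : v = Pi.single 1 L ∨ v = Pi.single 3 (2 * π))
    (l k : Fin 4) (x : E4) :
    cs1 τ (B2 D q κ) (C2 D q β κ) q l k (x + v) = cs1 τ (B2 D q κ) (C2 D q β κ) q l k x := by
  obtain ⟨h3, h4⟩ := h.per_all hv
  have h1 := (h.per v hv).2.1
  simp only [cs1, df, cur, h1, h3, h4, pd_transl (h3 _), pd_transl (h4 _)]

theorem cs_bound (hL : 0 ≤ L) {τ : A →L[ℝ] ℝ} (hτ : ∀ a b, τ (a * b) = τ (b * a)) {a b ma mb : ℝ}
    (hab : a ≤ b)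
    (hs : ∀ x ∈ Icc (![a, 0, 0, 0] : E4) ![b, L, π, 2 * π], Est D q β κ x (1 / 80))
    (ha : ∀ x ∈ Icc (![a, 0, 0, 0] : E4) ![b, L, π, 2 * π], x 0 = a → Est D q β κ x ma)
    (hb : ∀ x ∈ Icc (![a, 0, 0, 0] : E4) ![b, L, π, 2 * π], x 0 = b → Est D q β κ x mb) :
    |∫ x in Icc (![a, 0, 0, 0] : E4) ![b, L, π, 2 * π], cw τ D q x| ≤
      19600 * ‖τ‖ * L * (ma ^ 2 + mb ^ 2) := by
  have hle : (![a, 0, 0, 0] : E4) ≤ ![b, L, π, 2 * π] := fun i => by
    fin_cases i
    exacts [hab, hL, pi_pos.le, two_pi_pos.le]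
  have hu := fun x hx => isUnit_ww (hs x hx)
  have key := stokes4 (V := cs τ (B2 D q κ) (C2 D q β κ) q) hle
    (fun i x hx => (h.ref (hu x hx)).sa_cs τ i)
    (fun y => h.per_cs (Or.inl (by simp)) 2 3 y) (fun y => h.per_cs (Or.inr (by simp)) 1 2 y)
    (fun x hx h2 => h.pole_cs (hu x hx) h2)
    (fun x hx h0 => h.est_cs (ha x hx h0))
    (fun x hx h0 => h.est_cs (hb x hx h0))
  rw [setIntegral_congr_fun measurableSet_Icc (g := fun x => 2 * cw τ D q x) (fun x hx => by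
    beta_reduce; rw [← h.cw2 hτ (hu x hx)]; exact (h.ref (hu x hx)).div_cs hτ), integral_const_mul,
    abs_mul, abs_two] at key
  have e : (1960 * ‖τ‖ * ma ^ 2 + 1960 * ‖τ‖ * mb ^ 2) * ((L - 0) * (π - 0) * (2 * π - 0)) =
    2 * (1960 * ‖τ‖ * L * (ma ^ 2 + mb ^ 2) * (π * π)) := by ring
  have h2 : π * π ≤ 10 := by nlinarith [pi_lt_d2, pi_pos]
  have h3 := mul_le_mul_of_nonneg_left h2
    (show 0 ≤ 1960 * ‖τ‖ * L * (ma ^ 2 + mb ^ 2) by positivity)
  have k2 := key.trans e.le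
  linarith

end Cor

end Crest.Agent.X212.Rdc90
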