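import Crest.Agent.X212.Rdc90.El
import Crest.Agent.X212.Grp76.Dns

/-! The (approximate) Coulomb gauge near a connection on a closed manifold. -/

set_option autoImplicit false
set_option linter.unusedSectionVars false
noncomputable section
open scoped Manifold ContDiff Topology InnerProductSpace
open MeasureTheory Set Function Filter Module Metric

namespace Crest.Agent.X212.Rdc90
open An An.Pre Sob92 Ell97 Grp76
open Wz78 (nab Skew SA)

/-- the abstract slice without freeness -/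
theorem coul_abs {R B S C L X : Type*} [NormedAddCommGroup R] [NormedSpace ℝ R] [CompleteSpace R]
    [NormedAddCommGroup B] [NormedSpace ℝ B] [NormedAddCommGroup S] [NormedSpace ℝ S]
    [NormedAddCommGroup C] [NormedSpace ℝ C] [CompleteSpace C] [NormedAddCommGroup L]
    [NormedSpace ℝ L] [CompleteSpace L] [NormedAddCommGroup X] [NormedSpace ℝ X] [CompleteSpace X]
    (D : GA R B S C L) (σ : C →L[ℝ] X) (hc : IsClosed (range (σ ∘L D.d 0)))
    (hs : ∀ v, σ v ∈ range (σ ∘L D.d 0)) {G : Set D.Gr} (hG : Dense G) {ε : ℝ} (hε : 0 < ε) :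
    ∃ η > 0, ∀ v : C, ‖v‖ < η → ∀ δ > 0, ∃ g ∈ G, ‖g.v‖ < ε ∧ ‖g • v‖ < ε ∧ ‖σ (g • v)‖ < δ := by
  let T := (σ ∘L D.d 0).range
  have : CompleteSpace T := hc.completeSpace_coe
  let σ' : C →L[ℝ] T := σ.codRestrict T hs
  have h0 : D.e 0 • (0 : C) = 0 := by rw [D.e_zero, one_smul]
  have h1 : HasStrictFDerivAt (fun q : L × C => (σ' (D.e q.1 • q.2), q.2))
      ((σ' ∘L (D.d 0).coprod (.id ℝ C)).prod (.snd ℝ L C)) (0, 0) :=
    (σ'.hasStrictFDerivAt.comp _ (D.hasStrict_act 0)).prodMk hasStrictFDerivAt_snd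
  have h2 := h1.map_nhds_eq_of_surj (LinearMap.range_eq_top.2 fun ⟨y, v⟩ => by
    obtain ⟨ξ, hξ⟩ := (y - σ' v).2
    refine ⟨(ξ, v), Prod.ext (Subtype.ext ?_) rfl⟩
    show σ (D.d 0 ξ + v) = y
    rw [map_add]
    exact eq_sub_iff_add_eq.1 hξ)
  simp only [h0, map_zero] at h2
  have h3 : {q : L × C | ‖(D.e q.1).v‖ < ε ∧ ‖D.e q.1 • q.2‖ < ε} ∈ 𝓝 ((0, 0) : L × C) := by
    refine inter_mem ?_ ?_
    · have := (D.hasStrict_e.continuousAt.tendsto.comp (continuous_fst.tendsto ((0, 0) : L × C))).norm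
      rw [D.e_zero, show (1 : D.Gr).v = 0 from rfl, norm_zero] at this
      exact this.eventually (gt_mem_nhds hε)
    · have := (D.hasStrict_act 0).continuousAt.tendsto.norm
      rw [h0, norm_zero] at this
      exact this.eventually (gt_mem_nhds hε)
  obtain ⟨η, hη, h4⟩ := Metric.mem_nhds_iff.1 (h2 ▸ image_mem_map h3)
  refine ⟨η, hη, fun v hv δ hδ => ?_⟩
  obtain ⟨⟨ξ, w⟩, ⟨k1, k2⟩, k3⟩ := h4 (show ((0 : T), v) ∈ ball (0, 0) η by simpa using hv)
  obtain rfl : w = v := congrArg Prod.snd k3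
  have k4 : σ (D.e ξ • w) = 0 := congrArg Subtype.val (congrArg Prod.fst k3)
  have c1 : Continuous fun g : D.Gr => g • w := continuous_id.smul continuous_const
  obtain ⟨g, g1, g2⟩ := hG.inter_open_nonempty
    {g | ‖g.v‖ < ε ∧ ‖g • w‖ < ε ∧ ‖σ (g • w)‖ < δ}
    ((isOpen_lt GA.isEmbedding_v.continuous.norm continuous_const).inter
      ((isOpen_lt c1.norm continuous_const).inter
        (isOpen_lt (σ.continuous.comp c1).norm continuous_const)))
    ⟨D.e ξ, k1, k2, by rwa [k4, norm_zero]⟩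
  exact ⟨g, g2, g1⟩

variable {E : Type} [NormedAddCommGroup E] [NormedSpace ℝ E] [FiniteDimensional ℝ E]
  [MeasurableSpace E] [BorelSpace E]
  {HM : Type} [TopologicalSpace HM] {I : ModelWithCorners ℝ E HM} [I.Boundaryless]
  {M : Type} [TopologicalSpace M] [ChartedSpace HM M] [IsManifold I ∞ M]
  [MeasurableSpace M] {ι : Type} [Fintype ι]
  [T2Space M] [BorelSpace M] [SecondCountableTopology M] [CompactSpace M]
  {κ : Type} [Fintype κ] [DecidableEq κ] {Q : QB M ι κ} {F : Fr I M ι} {k : ℕ} {C : ℕ → ℝ}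

theorem g_nab (H : Q.Hyp F k) (u : M → HS κ) (hu : Sm I u) (h : ∀ x, Q.g x (u x) = u x) (a : ι)
    (x : M) : Q.g x (nab I F.e Q.ad a u x) = nab I F.e Q.ad a u x := by
  have hm : MDifferentiable I 𝓘(ℝ, HS κ) u := hu.mdifferentiable (by simp)
  refine (H.g_iff _ _).2 ⟨H.par u hm (fun x => ((H.g_iff _ _).1 (h x)).1) a x, ?_⟩
  rw [← H.nab_t (hm x), funext fun y => ((H.g_iff _ _).1 (h y)).2]
  simp only [nab, map_neg, neg_add]
  exact congrArg (· + _) (dv_neg u x)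

theorem sm_of_comp {α V : Type} [Fintype α] [NormedAddCommGroup V] [InnerProductSpace ℝ V]
    {f : M → Fm α V} (h : ∀ a, Sm I fun x => f x a) : Sm I f := by
  have : f = fun x => ∑ a, Grp76.ij V a (f x a) :=
    funext fun x => PiLp.ext fun a => (Grp76.sum_ij _ a).symm
  rw [this]
  exact contMDiff_finsetSum fun a _ => (Grp76.ij V a).contMDiff.comp (h a)

/-- **Coulomb gauge** -/
theorem coul (H : Q.Hyp F (k + 1)) (hF : F.Tame C) (hq : Hq F Q.ad Q.g Q.c) {ε : ℝ} (hε : 0 < ε) :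
    ∃ η > 0, ∀ a : Sec I Q.c, F.nrm (k + 1) a.1 < η → ∀ δ > 0, ∃ (ξ : M → HS κ) (a' : Sec I Q.c),
      Sm I ξ ∧ (∀ x, Q.h x (ξ x) = ξ x) ∧ (∀ x, trn (1 + opL (ξ x)) * (1 + opL (ξ x)) = 1) ∧
      (∀ x b, opL (F.D b ξ x) + (Q.W b x + opL (a'.1 x b)) * (1 + opL (ξ x)) -
        (1 + opL (ξ x)) * (Q.W b x + opL (a.1 x b)) = 0) ∧ F.nrm (k + 2) ξ < ε ∧
      F.nrm (k + 1) a'.1 < ε ∧ F.nrm k (dv1 I F.e F.dv Q.ad fun b y => a'.1 y b) < δ := by
  obtain ⟨C', hA⟩ := hq.good0 hF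
  obtain ⟨C'', hA'⟩ := good_adj hF hA
  let σ₀ : F.H (k + 1) Q.c →L[ℝ] F.H k Q.g := Hs F (d0 F Q.ad Q.g Q.c) k
  let d₀ : F.H (k + 2) Q.g →L[ℝ] F.H (k + 1) Q.c := (d0 F Q.ad Q.g Q.c).H F (k + 1)
  let σ : Q.C F (k + 1) Unit →L[ℝ] F.H k Q.g := σ₀ ∘L ContinuousLinearMap.fst ℝ _ _
  have e1 : ContinuousLinearMap.fst ℝ _ _ ∘L (H.ga Unit).d 0 = -d₀ :=
    clm_ext fun u => H.ext fun x => by
      have h1 : F.val _ _ ((H.ga Unit).d 0 (F.toH _ _ u)).1 x =
          -WithLp.toLp 2 fun a => nab I F.e Q.ad a u.1 x := PiLp.ext fun a => by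
        rw [H.val_d1, val_toH H.hS H.k5]
        simp only [QB.conn, Prod.fst_zero, val_zero, Pi.zero_apply, PiLp.zero_apply, map_zero,
          add_zero]
        rfl
      refine (H.proj _ x).symm.trans ((congrArg (Q.c x) h1).trans ?_)
      rw [map_neg, ← hq.app0 u.2.1 u.2.2.2]
      refine Eq.trans ?_ (congrFun (val_neg _) x).symm
      exact congrArg Neg.neg (congrFun ((congrArg (F.val _ _) (H_toH hA (k + 1) u)).trans
        (val_toH H.hS H.k4 _)) x).symm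
  have e2 : σ ∘L (H.ga Unit).d 0 = -(σ₀ ∘L d₀) := by
    rw [← ContinuousLinearMap.comp_neg, ← e1]; rfl
  have e3 : range (σ ∘L (H.ga Unit).d 0) = range (σ₀ ∘L d₀) := by
    rw [e2]
    exact Subset.antisymm (fun _ ⟨x, h⟩ => ⟨-x, (map_neg _ _).trans h⟩)
      fun _ ⟨x, h⟩ => ⟨-x, (map_neg _ _).trans ((neg_neg _).trans h)⟩
  obtain ⟨η, h0, h1⟩ := coul_abs (H.ga Unit) σ
    (e3 ▸ (fr_LL hF hA hq.cliff0 k).1.isClosed_range) (fun v => by
      obtain ⟨x, hx⟩ := hodge hF hA hq.cliff0 k v.1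
      exact e3 ▸ ⟨x, (sub_eq_zero.1 ((map_sub _ _ _).symm.trans hx)).symm⟩) H.dense_sm hε
  refine ⟨η, h0, fun a ha δ hδ => ?_⟩
  obtain ⟨g, ⟨g1, -⟩, g2, g3, g4⟩ := h1 (F.toH _ _ a, 0) (by
    rwa [Prod.norm_mk, norm_zero, norm_toH, max_eq_left (nrm_nonneg _ _)]) δ hδ
  have va : F.val (k + 1) Q.c (F.toH _ _ a) = a.1 := val_toH H.hS H.k4 a
  have s1 : Sm I (F.val _ _ (g • ((F.toH _ _ a, 0) : Q.C F (k + 1) Unit)).1) :=
    sm_of_comp fun b => by
      simp only [H.val_smul1, va, cnP]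
      have s2 : Sm I fun x => a.1 x b + mA (H.gv g x) (a.1 x b) - nab I F.e Q.ad b (H.gv g) x :=
        ((sm_comp a.2.1 b).add ((mA.contMDiff.comp g1).clm_apply (sm_comp a.2.1 b))).sub
          ((F.sm_D g1 b).add ((hq.sA b).clm_apply g1))
      exact s2.add ((mA.contMDiff.comp s2).clm_apply (tA.contMDiff.comp g1))
  let a' : Sec I Q.c := ⟨_, s1, .of_compactSpace _, H.proj _⟩
  have ea : F.toH _ _ a' = (g • ((F.toH _ _ a, 0) : Q.C F (k + 1) Unit)).1 :=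
    H.ext fun x => congrFun (val_toH H.hS H.k4 _) x
  refine ⟨H.gv g, a', g1, H.h_gv g, H.unit g, fun x b => ?_, ?_, ?_, ?_⟩
  · have := H.par_smul g (F.toH _ _ a, 0) x b
    rwa [QB.conn, QB.conn, va] at this
  · have : F.toH _ Q.h ⟨_, g1, .of_compactSpace _, H.h_gv g⟩ = g.v :=
      H.ext' fun x => congrFun (val_toH H.hS H.k5 _) x
    rwa [← this, norm_toH] at g2
  · rw [← norm_toH, ea]; exact (norm_fst_le _).trans_lt g3
  · have h3 : ‖σ (g • ((F.toH _ _ a, 0) : Q.C F (k + 1) Unit))‖ =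
        F.nrm k (((d0 F Q.ad Q.g Q.c).adj F).app F a'.1) :=
      (congrArg norm ((congrArg σ₀ ea.symm).trans (H_toH hA' k a'))).trans (norm_toH _ _ _ _)
    rw [h3, funext (hq.adj0 hF (g_nab H) a')] at g4
    have h2 := nrm_const_smul (F := F.toPre) k (-1) (u := dv1 I F.e F.dv Q.ad fun b y => a'.1 y b)
      fun x => sa_dv1 (Wz78.frm F) (fun b => hq.sA b x) (fun b => F.dv_sm b x)
        fun b => sm_comp a'.2.1 b x
    rw [neg_one_smul, abs_neg, abs_one, one_mul] at h2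
    exact h2.symm.trans_lt g4

end Crest.Agent.X212.Rdc90
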