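import Crest.Agent.X212.Rdc90.Gau

/-!
# Row 212, RDEC (helper90), file 3: almost flat connections on `S¹ × S²` in polar coordinates

`x = (t, φ, ϑ, ψ)`.  First the radial gauge `g` from the north pole, then the correction `w` that
removes the small holonomy at the south pole.
-/

set_option autoImplicit false
set_option linter.unusedSectionVars false
set_option linter.unusedVariables false
noncomputable section
open Set Function Filter Topology MeasureTheory Real
open scoped ContDiff

namespace Crest.Agent.X212.Rdc90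

variable {A : Type} [NormedRing A] [NormedAlgebra ℝ A] [CompleteSpace A] [StarRing A]
  [CStarRing A] [StarModule ℝ A]

theorem pd_star {f : E4 → A} {x : E4} (hf : DifferentiableAt ℝ f x) (i : Fin 4) :
    pd i (fun y => star (f y)) x = star (pd i f x) :=
  pd_clm ((starL' ℝ : A ≃L[ℝ] A) : A →L[ℝ] A) hf

theorem contDiff_star' {f : E4 → A} (hf : ContDiff ℝ ∞ f) : ContDiff ℝ ∞ fun y => star (f y) :=
  ((starL' ℝ : A ≃L[ℝ] A) : A →L[ℝ] A).contDiff.comp hf

/-- polar coordinates in which the `ψ` circle collapses at `ϑ = 0` -/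
structure Nor (L : ℝ) (B : Fin 4 → E4 → A) (p : E4 → A) : Prop where
  sB : ∀ i, ContDiff ℝ ∞ (B i)
  sp : ContDiff ℝ ∞ p
  idem : ∀ x, p x * p x = p x
  par : ∀ x, Par B p x
  skew : ∀ x, star (B 2 x) = - B 2 x
  perB : ∀ v : E4, v = Pi.single 1 L ∨ v = Pi.single 3 (2 * π) → ∀ i x, B i (x + v) = B i x
  perp : ∀ v : E4, v = Pi.single 1 L ∨ v = Pi.single 3 (2 * π) → ∀ x, p (x + v) = p x
  n3 : ∀ x, x 2 = 0 → B 3 x = 0
  n0 : ∀ x, x 2 = 0 → ∀ r, B 0 (update x 3 r) = B 0 x
  n1 : ∀ x, x 2 = 0 → ∀ r, B 1 (update x 3 r) = B 1 x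

/-- `ℝ × S¹ × S²`: the `ψ` circle collapses at `ϑ = π` too -/
structure Neck (L : ℝ) (B : Fin 4 → E4 → A) (p : E4 → A) : Prop extends Nor L B p where
  s3 : ∀ x, x 2 = π → B 3 x = 0
  s0 : ∀ x, x 2 = π → ∀ r, B 0 (update x 3 r) = B 0 x
  s1 : ∀ x, x 2 = π → ∀ r, B 1 (update x 3 r) = B 1 x

/-- `ℝ × S³`: the `φ` circle collapses at `ϑ = π` -/
structure Sph (L : ℝ) (B : Fin 4 → E4 → A) (p : E4 → A) : Prop extends Nor L B p where
  s1 : ∀ x, x 2 = π → B 1 x = 0
  s0 : ∀ x, x 2 = π → ∀ r, B 0 (update x 1 r) = B 0 x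
  s3 : ∀ x, x 2 = π → ∀ r, B 3 (update x 1 r) = B 3 x

/-- radial gauge from the north pole -/
structure Rad (B : Fin 4 → E4 → A) (g : E4 → A) : Prop where
  sm : ContDiff ℝ ∞ g
  one : ∀ x, g (update x 2 0) = 1
  ode : ∀ x, pd 2 g x = - (B 2 x * g x)

/-- the point of the pole `ϑ = c` with `ψ = 0` -/
def pl (c : ℝ) (x : E4) : E4 := update (update x 2 c) 3 0
/-- `p` at the north pole -/
def p0 (p : E4 → A) (x : E4) : A := p (pl 0 x)
/-- the `φ` component at the north pole -/
def be (B : Fin 4 → E4 → A) (x : E4) : A := B 1 (pl 0 x)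
/-- the connection in radial gauge -/
def B1 (B : Fin 4 → E4 → A) (g : E4 → A) : Fin 4 → E4 → A := gt g (fun y => star (g y)) B
/-- the clutching function at the south pole -/
def ka (g : E4 → A) (x : E4) : A := star (g (update x 2 π)) * g (pl π x)
/-- the `φ` component in radial gauge at the south pole -/
def be' (B : Fin 4 → E4 → A) (g : E4 → A) (x : E4) : A := B1 B g 1 (pl π x)
/-- the clutching function for the three-sphere -/
def ka' (g : E4 → A) (x : E4) : A := star (g (update x 2 π)) * g (update (update x 1 0) 2 π) *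
  (star (g (pl π (update x 1 0))) * g (pl π x))
/-- space components of the reference -/
def bs (β : E4 → A) : Fin 4 → E4 → A := ![0, β, 0, 0]

/-- the space components of the `p` part of the curvature are at most `m` on the slice `t` -/
def Sml (B : Fin 4 → E4 → A) (p : E4 → A) (t m : ℝ) : Prop :=
  ∀ x : E4, x 0 = t → x 2 ∈ Icc 0 π → ‖p x * cur B 2 3 x‖ ≤ m ∧ ‖p x * cur B 3 1 x‖ ≤ m ∧
    ‖p x * cur B 1 2 x‖ ≤ m

theorem Sml.mono {B : Fin 4 → E4 → A} {p : E4 → A} {t m m' : ℝ} (h : Sml B p t m) (hm : m ≤ m') :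
    Sml B p t m' := fun x h0 h2 =>
  ⟨(h x h0 h2).1.trans hm, (h x h0 h2).2.1.trans hm, (h x h0 h2).2.2.trans hm⟩

theorem Sml.nonneg {B : Fin 4 → E4 → A} {p : E4 → A} {t m : ℝ} (h : Sml B p t m) : 0 ≤ m :=
  (norm_nonneg _).trans (h ![t, 0, 0, 0] rfl ⟨le_rfl, pi_pos.le⟩).1

theorem sm_pl (c : ℝ) : ContDiff ℝ ∞ (pl c) := (contDiff_upd 3 0).comp (contDiff_upd 2 c)
theorem pl_upd2 (c r : ℝ) (x : E4) : pl c (update x 2 r) = pl c x := by simp [pl]
theorem pl_upd3 (c r : ℝ) (x : E4) : pl c (update x 3 r) = pl c x := by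
  simp only [pl]; rw [update_comm (by decide : (3 : Fin 4) ≠ 2), update_idem]
theorem pl_two (c : ℝ) (x : E4) : pl c x 2 = c := by simp [pl]
theorem pl_zero (c : ℝ) (x : E4) : pl c x 0 = x 0 := by simp [pl]
theorem pl_pl (c c' : ℝ) (x : E4) : pl c (pl c' x) = pl c x := by
  rw [pl.eq_def c', pl_upd3, pl_upd2]

theorem pd_pl {f : E4 → A} (hf : ContDiff ℝ ∞ f) (c : ℝ) {i : Fin 4} (h2 : i ≠ 2) (h3 : i ≠ 3)
    (x : E4) : pd i (fun y => f (pl c y)) x = pd i f (pl c x) := by
  have h1 := pd_upd_ne (f := fun y => f (update y 3 0)) (x := x) (c := c)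
    ((hf.comp (contDiff_upd 3 0)).differentiable (by simp) _) h2
  rw [pd_upd_ne (hf.differentiable (by simp) _) h3] at h1
  exact h1

theorem pd_pl2 {f : E4 → A} (hf : ContDiff ℝ ∞ f) (c : ℝ) (x : E4) :
    pd 2 (fun y => f (pl c y)) x = 0 :=
  pd_eq_zero ((hf.comp (sm_pl c)).differentiable (by simp) _) fun r => by rw [pl_upd2]

theorem pd_pl3 {f : E4 → A} (hf : ContDiff ℝ ∞ f) (c : ℝ) (x : E4) :
    pd 3 (fun y => f (pl c y)) x = 0 :=
  pd_eq_zero ((hf.comp (sm_pl c)).differentiable (by simp) _) fun r => by rw [pl_upd3]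

theorem line_const {f : E4 → A} (hf : ContDiff ℝ ∞ f) {i : Fin 4} {x : E4}
    (h : ∀ s, pd i f (update x i s) = 0) (s : ℝ) : f (update x i s) = f x := by
  have := is_const_of_deriv_eq_zero (f := fun r => f (update x i r))
    (fun r => (hasDerivAt_upd (hf.differentiable (by simp) _)).differentiableAt)
    (fun r => by rw [(hasDerivAt_upd (hf.differentiable (by simp) _)).deriv, h]) s (x i)
  simpa using this

theorem sm_bs {β : E4 → A} (h : ContDiff ℝ ∞ β) (i : Fin 4) : ContDiff ℝ ∞ (bs β i) := by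
  fin_cases i
  exacts [contDiff_const, h, contDiff_const, contDiff_const]

/-- the mixed curvature vanishes where the `j` circle collapses -/
theorem cur_pole {B : Fin 4 → E4 → A} (sB : ∀ i, ContDiff ℝ ∞ (B i)) {j : Fin 4} {c : ℝ}
    (h1 : ∀ x, x 2 = c → B j x = 0) (h0 : ∀ x, x 2 = c → ∀ r, B 0 (update x j r) = B 0 x) {x : E4}
    (hx : x 2 = c) : cur B 0 j x = 0 := by
  rw [cur, pd_eq_zero ((sB 0).differentiable (by simp) _) (h0 x hx),
    pd_eq_zero ((sB j).differentiable (by simp) _) fun r => by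
      rw [h1 x hx, h1 _ (by simpa using hx)], h1 x hx]
  simp

namespace Nor
variable {L : ℝ} {B : Fin 4 → E4 → A} {p g : E4 → A} (h : Nor L B p) (hg : Rad B g)
include h

theorem exists_rad : ∃ g, Rad B g := by
  obtain ⟨g, h1, h2, h3⟩ := exists_gauge 2 (h.sB 2)
  exact ⟨g, h1, h2, h3⟩

theorem p_pole {j : Fin 4} (hj : j ≠ 2) {c : ℝ} (h1 : ∀ x, x 2 = c → B j x = 0) {x : E4}
    (hx : x 2 = c) (r : ℝ) : p (update x j r) = p x :=
  line_const h.sp (fun s => by
    rw [h.par _ j, h1 _ (by rwa [update_of_ne hj.symm])]; simp) r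

theorem sm_p0 : ContDiff ℝ ∞ (p0 p) := h.sp.comp (sm_pl 0)
theorem sm_be : ContDiff ℝ ∞ (be B) := (h.sB 1).comp (sm_pl 0)
theorem idem0 (x : E4) : p0 p x * p0 p x = p0 p x := h.idem _

theorem pd_p0 {i : Fin 4} (hi : i ≠ 0) (x : E4) :
    pd i (p0 p) x = p0 p x * bs (be B) i x - bs (be B) i x * p0 p x := by
  fin_cases i
  · exact absurd rfl hi
  · exact (pd_pl h.sp 0 (by decide) (by decide) x).trans (h.par _ 1)
  · exact (pd_pl2 h.sp 0 x).trans (by simp [bs])
  · exact (pd_pl3 h.sp 0 x).trans (by simp [bs])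

include hg

theorem star_mul (x : E4) : star (g x) * g x = 1 := by
  have h1 := contDiff_star' hg.sm
  have := line_const (h1.mul hg.sm) (i := 2) (x := x) (fun s => by
    rw [pd_mul (h1.differentiable (by simp) _) (hg.sm.differentiable (by simp) _),
      pd_star (hg.sm.differentiable (by simp) _), hg.ode, star_neg, StarMul.star_mul, h.skew]
    noncomm_ring) 0
  rw [← this, hg.one]; simp

theorem mul_star (x : E4) : g x * star (g x) = 1 := by
  have h1 := contDiff_star' hg.sm
  have hc : Continuous fun r => B 2 (update x 2 r) :=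
    (h.sB 2).continuous.comp (continuous_const.update 2 continuous_id)
  have := ode_unique (B := fun r => (ContinuousLinearMap.mul ℝ A).flip (B 2 (update x 2 r)) -
      ContinuousLinearMap.mul ℝ A (B 2 (update x 2 r)))
    (((ContinuousLinearMap.mul ℝ A).flip.continuous.comp hc).sub
      ((ContinuousLinearMap.mul ℝ A).continuous.comp hc))
    (f := fun r => g (update x 2 r) * star (g (update x 2 r))) (g := fun _ => 1) (fun s => by
      have h2 := hasDerivAt_upd (x := x) (i := 2) (s := s)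
        ((hg.sm.mul h1).differentiable (by simp) _)
      rw [pd_mul (hg.sm.differentiable (by simp) _) (h1.differentiable (by simp) _),
        pd_star (hg.sm.differentiable (by simp) _), hg.ode, star_neg, StarMul.star_mul,
        h.skew] at h2
      convert h2 using 1
      simp only [sub_apply, ContinuousLinearMap.flip_apply, ContinuousLinearMap.mul_apply']
      noncomm_ring) (fun s => by simpa using hasDerivAt_const s (1 : A)) (a := 0)
    (by simp [hg.one]) (x 2)
  simpa using this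

theorem unit (x : E4) : g x ∈ unitary A := ⟨h.star_mul hg x, h.mul_star hg x⟩

theorem conj_p (x : E4) : p0 p x = star (g x) * p x * g x := by
  have h1 := contDiff_star' hg.sm
  have := line_const ((h1.mul h.sp).mul hg.sm) (i := 2) (x := x) (fun s => by
    rw [pd_mul ((h1.mul h.sp).differentiable (by simp) _) (hg.sm.differentiable (by simp) _),
      pd_mul (h1.differentiable (by simp) _) (h.sp.differentiable (by simp) _),
      pd_star (hg.sm.differentiable (by simp) _), hg.ode, star_neg, StarMul.star_mul, h.skew,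
      h.par _ 2]
    noncomm_ring) 0
  rw [← this, hg.one, p0, pl, h.p_pole (by decide) h.n3 (by simp)]; simp

theorem g_per {v : E4} (hv : v = Pi.single 1 L ∨ v = Pi.single 3 (2 * π)) (x : E4) :
    g (x + v) = g x := by
  have e : ∀ s, update (x + v) 2 s = update x 2 s + v := fun s => by
    rcases hv with rfl | rfl <;> ext j <;> fin_cases j <;> simp
  have := gauge_unique (x := x + v) (x' := x) (h.sB 2) hg.sm hg.sm hg.ode hg.ode
    (fun s => by rw [e, h.perB v hv]) (a := 0) (by rw [hg.one, hg.one]) (x 2)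
  rwa [e, update_eq_self] at this

theorem sm_B1 (i : Fin 4) : ContDiff ℝ ∞ (B1 B g i) := contDiff_iff_contDiffAt.2 fun x =>
  SA.gt (h.sB i).contDiffAt hg.sm.contDiffAt (contDiff_star' hg.sm).contDiffAt

theorem par1 (x : E4) : Par (B1 B g) (p0 p) x :=
  par_gt h.sp.contDiffAt hg.sm.contDiffAt (contDiff_star' hg.sm).contDiffAt
    (Eventually.of_forall (h.star_mul hg)) (h.mul_star hg x) (h.par x)
    (Eventually.of_forall (h.conj_p hg))

theorem cur1 (i j : Fin 4) (x : E4) : cur (B1 B g) i j x = star (g x) * cur B i j x * g x :=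
  cur_gt (fun i => (h.sB i).contDiffAt) hg.sm.contDiffAt (contDiff_star' hg.sm).contDiffAt
    (Eventually.of_forall (h.star_mul hg)) (h.mul_star hg x) i j

theorem p0_conj (x : E4) (a : A) :
    p0 p x * (star (g x) * a * g x) = star (g x) * (p x * a) * g x := by
  rw [h.conj_p hg]
  calc _ = star (g x) * p x * (g x * star (g x)) * a * g x := by noncomm_ring
    _ = _ := by rw [h.mul_star hg]; noncomm_ring

theorem norm_cur1 (i j : Fin 4) (x : E4) :
    ‖p0 p x * cur (B1 B g) i j x‖ = ‖p x * cur B i j x‖ := by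
  rw [h.cur1 hg, h.p0_conj hg, CStarRing.norm_mul_mem_unitary _ (h.unit hg x),
    CStarRing.norm_mem_unitary_mul _ (Unitary.star_mem (h.unit hg x))]

theorem B1_two : B1 B g 2 = 0 := by
  funext x; simp [B1, gt, hg.ode]

theorem B1_north {i : Fin 4} (hi : i ≠ 2) (x : E4) :
    B1 B g i (update x 2 0) = B i (update x 2 0) := by
  have : pd i g (update x 2 0) = 0 := by
    rw [← pd_upd_ne (hg.sm.differentiable (by simp) _) hi]
    simp only [hg.one, pd_const]
  simp [B1, gt, hg.one, this]

theorem comm1 {i : Fin 4} (hi : i ≠ 0) (x : E4) :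
    p0 p x * (B1 B g i x - bs (be B) i x) = (B1 B g i x - bs (be B) i x) * p0 p x := by
  have := (h.par1 hg x i).symm.trans (h.pd_p0 hi x)
  rw [← sub_eq_zero] at this ⊢
  rw [← this]; noncomm_ring

/-- first estimate -/
theorem est1 {i : Fin 4} (hi : i = 1 ∨ i = 3) {x : E4} {m : ℝ} (hx : x 2 ∈ Icc 0 π)
    (hm : ∀ s ∈ Icc 0 π, ‖p (update x 2 s) * cur B 2 i (update x 2 s)‖ ≤ m) :
    ‖p0 p x * (B1 B g i x - bs (be B) i x)‖ ≤ π * m := by
  have hs := h.sm_p0.mul ((h.sm_B1 hg i).sub (sm_bs h.sm_be i))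
  have hm0 : 0 ≤ m := (norm_nonneg _).trans (hm 0 ⟨le_rfl, pi_pos.le⟩)
  have hb : ∀ y, pd 2 (bs (be B) i) y = 0 := fun y => by
    rcases hi with rfl | rfl
    exacts [pd_pl2 (h.sB 1) 0 y, pd_const 0]
  have := norm_sub_le_upd (i := 2) (x := x) (C := m) (hs.differentiable (by simp)) (fun s hs' => by
    rw [pd_mul (h.sm_p0.differentiable (by simp) _)
      (((h.sm_B1 hg i).sub (sm_bs h.sm_be i)).differentiable (by simp) _),
      pd_sub ((h.sm_B1 hg i).differentiable (by simp) _) ((sm_bs h.sm_be i).differentiable (by simp) _),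
      hb, show pd 2 (p0 p) (update x 2 s) = 0 from pd_pl2 h.sp 0 _]
    have e : pd 2 (B1 B g i) (update x 2 s) = cur (B1 B g) 2 i (update x 2 s) := by
      rw [cur, h.B1_two hg, show pd i (0 : E4 → A) (update x 2 s) = 0 from pd_const 0]; simp
    rw [zero_mul, zero_add, sub_zero, e, h.norm_cur1 hg]
    exact hm s hs') hx
  have e0 : B1 B g i (update x 2 0) - bs (be B) i (update x 2 0) = 0 := by
    rcases hi with rfl | rfl
    · rw [h.B1_north hg (by decide), sub_eq_zero]
      show _ = B 1 (pl 0 (update x 2 0))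
      rw [pl_upd2, pl, h.n1 _ (by simp)]
    · rw [h.B1_north hg (by decide), h.n3 _ (by simp)]; simp [bs]
  simp only [update_eq_self, e0, mul_zero, sub_zero] at this
  exact this.trans (by nlinarith [hx.2])

theorem est1' {i : Fin 4} (hi : i = 1 ∨ i = 3) {x : E4} {m : ℝ} (hx : x 2 ∈ Icc 0 π)
    (hm : Sml B p (x 0) m) : ‖p0 p x * (B1 B g i x - bs (be B) i x)‖ ≤ π * m := by
  refine h.est1 hg hi hx fun s hs => ?_
  have := hm (update x 2 s) (by simp) (by simpa using hs)
  rcases hi with rfl | rfl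
  · rw [cur_anti, mul_neg, norm_neg]; exact this.2.2
  · exact this.1

theorem est3 {x : E4} {m : ℝ} (hm : Sml B p (x 0) m) :
    ‖p0 p x * B1 B g 3 (update x 2 π)‖ ≤ π * m := by
  have h1 := h.est1' hg (Or.inr rfl) (x := update x 2 π) (by simpa using pi_pos.le)
    (by simpa using hm)
  have e : bs (be B) 3 (update x 2 π) = 0 := rfl
  rwa [e, sub_zero, p0, pl_upd2] at h1

theorem pd_g (i : Fin 4) (x : E4) : pd i g x = g x * B1 B g i x - B i x * g x := by
  rw [B1, gt, ← mul_assoc, h.mul_star hg]; simp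

theorem pd_sg (i : Fin 4) (x : E4) :
    pd i (fun y => star (g y)) x = star (g x) * B i x - B1 B g i x * star (g x) := by
  rw [pd_inv hg.sm.contDiffAt (contDiff_star' hg.sm).contDiffAt
    (Eventually.of_forall (h.star_mul hg)) (h.mul_star hg x), h.pd_g hg]
  calc _ = star (g x) * B i x * (g x * star (g x)) - star (g x) * g x * B1 B g i x * star (g x) := by
        noncomm_ring
    _ = _ := by rw [h.star_mul hg, h.mul_star hg, mul_one, one_mul]

/-- transport between two points with the same projector -/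
theorem p0_tr {x y : E4} (e : p x = p y) :
    p0 p x * (star (g x) * g y) = star (g x) * g y * p0 p y := by
  rw [h.conj_p hg, h.conj_p hg, e]
  calc _ = star (g x) * p y * (g x * star (g x)) * g y := by noncomm_ring
    _ = star (g x) * (g y * star (g y)) * p y * g y := by rw [h.mul_star hg, h.mul_star hg]; simp
    _ = _ := by noncomm_ring

omit hg in
theorem pl_per {v : E4} (hv : v = Pi.single 1 L ∨ v = Pi.single 3 (2 * π)) {f : E4 → A}
    (hf : ∀ x, f (x + v) = f x) (c : ℝ) (x : E4) : f (pl c (x + v)) = f (pl c x) := by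
  rcases hv with rfl | rfl
  · rw [← hf (pl c x)]; congr 1; ext j; fin_cases j <;> simp [pl]
  · congr 1; ext j; fin_cases j <;> simp [pl]

omit hg in
theorem upd2_per {v : E4} (hv : v = Pi.single 1 L ∨ v = Pi.single 3 (2 * π)) (x : E4) (s : ℝ) :
    update (x + v) 2 s = update x 2 s + v := by
  rcases hv with rfl | rfl <;> ext j <;> fin_cases j <;> simp

theorem B1_per {v : E4} (hv : v = Pi.single 1 L ∨ v = Pi.single 3 (2 * π)) (i : Fin 4) (x : E4) :
    B1 B g i (x + v) = B1 B g i x := by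
  simp only [B1, gt, h.g_per hg hv, h.perB v hv, pd_transl (h.g_per hg hv)]

end Nor

end Crest.Agent.X212.Rdc90
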