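import Crest.Agent.X212.Rdc90.Pd

/-!
# Row 212, RDEC (helper90), file 2: connections in coordinates, Chern-Simons transgression, Stokes
-/

set_option autoImplicit false
set_option linter.unusedSectionVars false
set_option linter.unusedVariables false
noncomputable section
open Set Function Filter Topology MeasureTheory
open scoped ContDiff

namespace Crest.Agent.X212.Rdc90

variable {ι : Type} [Fintype ι] [DecidableEq ι] {A : Type} [NormedRing A] [NormedAlgebra ℝ A]

/-- curvature -/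
def cur (B : ι → (ι → ℝ) → A) (i j : ι) (x : ι → ℝ) : A :=
  pd i (B j) x - pd j (B i) x + (B i x * B j x - B j x * B i x)

/-- covariant derivative in the adjoint bundle -/
def cov (B : ι → (ι → ℝ) → A) (i : ι) (f : (ι → ℝ) → A) (x : ι → ℝ) : A :=
  pd i f x + (B i x * f x - f x * B i x)

/-- `p` is parallel at `x` -/
def Par (B : ι → (ι → ℝ) → A) (p : (ι → ℝ) → A) (x : ι → ℝ) : Prop :=
  ∀ i, pd i p x = p x * B i x - B i x * p x

/-- gauge transform by `g` with inverse `k` -/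
def gt (g k : (ι → ℝ) → A) (B : ι → (ι → ℝ) → A) (i : ι) (x : ι → ℝ) : A :=
  k x * (B i x * g x + pd i g x)

section
variable {B : ι → (ι → ℝ) → A} {p g k f f' : (ι → ℝ) → A} {x : ι → ℝ} {i j l : ι}

theorem cur_anti (B : ι → (ι → ℝ) → A) (i j : ι) (x : ι → ℝ) : cur B j i x = - cur B i j x := by
  simp only [cur]; abel

theorem SA.cur (hB : ∀ i, SA (B i) x) (i j : ι) : SA (cur B i j) x :=
  ((SA.pd (hB j) i).sub (SA.pd (hB i) j)).add (((hB i).mul (hB j)).sub ((hB j).mul (hB i)))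

theorem SA.gt (hB : SA (B i) x) (hg : SA g x) (hk : SA k x) : SA (gt g k B i) x :=
  hk.mul ((hB.mul hg).add (SA.pd hg i))

theorem pd_inv (hg : SA g x) (hk : SA k x) (h1 : ∀ᶠ y in 𝓝 x, k y * g y = 1)
    (h2 : g x * k x = 1) (i : ι) : pd i k x = - (k x * pd i g x * k x) := by
  have h := pd_mul (i := i) hk.d hg.d
  rw [pd_congr (g := fun _ => (1 : A)) h1, pd_const] at h
  calc pd i k x = pd i k x * (g x * k x) := by rw [h2, mul_one]
    _ = (pd i k x * g x + k x * pd i g x) * k x - k x * pd i g x * k x := by noncomm_ring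
    _ = _ := by rw [← h]; simp

theorem pd_gt (hB : SA (B j) x) (hg : SA g x) (hk : SA k x) (i : ι) :
    pd i (gt g k B j) x = pd i k x * (B j x * g x + pd j g x) +
      k x * (pd i (B j) x * g x + B j x * pd i g x + pd i (pd j g) x) := by
  have h1 := pd_mul (i := i) hk.d (SA.d ((hB.mul hg).add (SA.pd hg j)))
  rw [pd_add (SA.d (hB.mul hg)) (SA.d (SA.pd hg j)), pd_mul hB.d hg.d] at h1
  exact h1

theorem cur_gt (hB : ∀ i, SA (B i) x) (hg : SA g x) (hk : SA k x)
    (h1 : ∀ᶠ y in 𝓝 x, k y * g y = 1) (h2 : g x * k x = 1) (i j : ι) :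
    cur (gt g k B) i j x = k x * cur B i j x * g x := by
  have e : ∀ a b : ι, gt g k B a x * gt g k B b x = k x * B a x * (B b x * g x + pd b g x) +
      k x * pd a g x * k x * (B b x * g x + pd b g x) := fun a b => by
    have e1 : gt g k B a x * gt g k B b x = k x * B a x * (g x * k x) * (B b x * g x + pd b g x) +
      k x * pd a g x * k x * (B b x * g x + pd b g x) := by simp only [gt]; noncomm_ring
    rw [e1, h2, mul_one]
  simp only [cur]
  rw [pd_gt (hB j) hg hk, pd_gt (hB i) hg hk, e, e, pd_inv hg hk h1 h2, pd_inv hg hk h1 h2,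
    pd_comm (i := j) (j := i) hg]
  noncomm_ring

theorem par_gt (hp : SA p x) (hg : SA g x) (hk : SA k x) (h1 : ∀ᶠ y in 𝓝 x, k y * g y = 1)
    (h2 : g x * k x = 1) (h : Par B p x) {q : (ι → ℝ) → A}
    (hq : ∀ᶠ y in 𝓝 x, q y = k y * p y * g y) : Par (gt g k B) q x := fun i => by
  rw [pd_congr hq, pd_mul (SA.d (hk.mul hp)) hg.d, pd_mul hk.d hp.d, pd_inv hg hk h1 h2, h i,
    hq.self_of_nhds]
  calc _ = k x * p x * 1 * (B i x * g x + pd i g x) -
      (k x * B i x * 1 * p x * g x + k x * pd i g x * k x * p x * g x) := by noncomm_ring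
    _ = _ := by rw [← h2]; simp only [gt]; noncomm_ring

theorem cur_comm (hB : ∀ i, SA (B i) x) (hp : SA p x) (h : ∀ᶠ y in 𝓝 x, Par B p y) (i j : ι) :
    p x * cur B i j x = cur B i j x * p x := by
  have e : ∀ a b : ι, pd a (pd b p) x = (p x * B a x - B a x * p x) * B b x + p x * pd a (B b) x -
      (pd a (B b) x * p x + B b x * (p x * B a x - B a x * p x)) := fun a b => by
    rw [pd_congr (h.mono fun y hy => hy b), pd_sub (SA.d (hp.mul (hB b))) (SA.d ((hB b).mul hp)),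
      pd_mul hp.d (hB b).d, pd_mul (hB b).d hp.d, h.self_of_nhds a]
  have := pd_comm (i := i) (j := j) hp
  rw [e, e, ← sub_eq_zero] at this
  rw [← sub_eq_zero, ← this]
  simp only [cur]; noncomm_ring

theorem cov_mul (hf : SA f x) (hf' : SA f' x) :
    cov B i (fun y => f y * f' y) x = cov B i f x * f' x + f x * cov B i f' x := by
  simp only [cov, pd_mul hf.d hf'.d]; noncomm_ring

theorem cov_add (hf : SA f x) (hf' : SA f' x) :
    cov B i (fun y => f y + f' y) x = cov B i f x + cov B i f' x := by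
  simp only [cov, pd_add hf.d hf'.d]; noncomm_ring

theorem cov_sub (hf : SA f x) (hf' : SA f' x) :
    cov B i (fun y => f y - f' y) x = cov B i f x - cov B i f' x := by
  simp only [cov, pd_sub hf.d hf'.d]; noncomm_ring

theorem pd_cur (hB : ∀ i, SA (B i) x) (i j l : ι) :
    pd i (cur B j l) x = pd i (pd j (B l)) x - pd i (pd l (B j)) x +
      (pd i (B j) x * B l x + B j x * pd i (B l) x -
        (pd i (B l) x * B j x + B l x * pd i (B j) x)) := by
  have h1 := pd_add (i := i) (SA.d ((SA.pd (hB l) j).sub (SA.pd (hB j) l)))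
    (SA.d (((hB j).mul (hB l)).sub ((hB l).mul (hB j))))
  rw [pd_sub (SA.d (SA.pd (hB l) j)) (SA.d (SA.pd (hB j) l)),
    pd_sub (SA.d ((hB j).mul (hB l))) (SA.d ((hB l).mul (hB j))), pd_mul (hB j).d (hB l).d,
    pd_mul (hB l).d (hB j).d] at h1
  exact h1

theorem bianchi (hB : ∀ i, SA (B i) x) (i j l : ι) :
    cov B i (cur B j l) x = cov B j (cur B i l) x - cov B l (cur B i j) x := by
  simp only [cov, pd_cur hB]
  rw [pd_comm (i := j) (j := i) (hB l), pd_comm (i := l) (j := i) (hB j),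
    pd_comm (i := l) (j := j) (hB i)]
  simp only [cur]; noncomm_ring

theorem pd_tr {τ : A →L[ℝ] ℝ} (hτ : ∀ a b, τ (a * b) = τ (b * a)) (hp : SA p x) (hf : SA f x)
    (h : Par B p x) (i : ι) : pd i (fun y => τ (p y * f y)) x = τ (p x * cov B i f x) := by
  rw [pd_clm τ (SA.d (hp.mul hf)), pd_mul hp.d hf.d, h i]
  have h1 : τ (B i x * (p x * f x)) = τ (p x * f x * B i x) := hτ _ _
  have e1 : (p x * B i x - B i x * p x) * f x + p x * pd i f x =
      p x * cov B i f x + p x * f x * B i x - B i x * (p x * f x) := by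
    simp only [cov]; noncomm_ring
  rw [e1, map_sub, map_add, h1]; ring

theorem tr_symm {τ : A →L[ℝ] ℝ} (hτ : ∀ a b, τ (a * b) = τ (b * a)) {q a : A}
    (h : q * a = a * q) (b : A) : τ (q * (a * b)) = τ (q * (b * a)) := by
  rw [← mul_assoc, h, mul_assoc, hτ, mul_assoc]

end

/-- coordinates `(t, φ, ϑ, ψ)` -/
abbrev E4 : Type := Fin 4 → ℝ

/-- the Chern-Weil density of the `p` part -/
def cw (τ : A →L[ℝ] ℝ) (B : Fin 4 → E4 → A) (p : E4 → A) (x : E4) : ℝ :=
  τ (p x * (cur B 0 1 x * cur B 2 3 x)) + τ (p x * (cur B 0 2 x * cur B 3 1 x)) +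
    τ (p x * (cur B 0 3 x * cur B 1 2 x))

/-- difference of two connections -/
def df (B C : Fin 4 → E4 → A) (i : Fin 4) (x : E4) : A := B i x - C i x

/-- time component of the transgression form -/
def cs0 (τ : A →L[ℝ] ℝ) (B C : Fin 4 → E4 → A) (p : E4 → A) (x : E4) : ℝ :=
  τ (p x * (df B C 1 x * cur B 2 3 x + df B C 2 x * cur B 3 1 x + df B C 3 x * cur B 1 2 x -
    df B C 1 x * (df B C 2 x * df B C 3 x - df B C 3 x * df B C 2 x)))

/-- space components of the transgression form -/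
def cs1 (τ : A →L[ℝ] ℝ) (B C : Fin 4 → E4 → A) (p : E4 → A) (j k : Fin 4) (x : E4) : ℝ :=
  τ (p x * (df B C j x * (cur B 0 k x + cur C 0 k x) - df B C k x * (cur B 0 j x + cur C 0 j x)))

/-- the transgression form -/
def cs (τ : A →L[ℝ] ℝ) (B C : Fin 4 → E4 → A) (p : E4 → A) : Fin 4 → E4 → ℝ :=
  ![cs0 τ B C p, cs1 τ B C p 2 3, cs1 τ B C p 3 1, cs1 τ B C p 1 2]

/-- `C` is a reference for `B` at `x`: the same time component, flat on the slices -/
structure Ref (B C : Fin 4 → E4 → A) (p : E4 → A) (x : E4) : Prop where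
  sB : ∀ i, SA (B i) x
  sC : ∀ i, SA (C i) x
  sp : SA p x
  pB : ∀ᶠ y in 𝓝 x, Par B p y
  pC : Par C p x
  c0 : C 0 = B 0
  f23 : ∀ᶠ y in 𝓝 x, cur C 2 3 y = 0
  f31 : ∀ᶠ y in 𝓝 x, cur C 3 1 y = 0
  f12 : ∀ᶠ y in 𝓝 x, cur C 1 2 y = 0

namespace Ref
variable {τ : A →L[ℝ] ℝ} {B C : Fin 4 → E4 → A} {p : E4 → A} {x : E4}

theorem sd (h : Ref B C p x) (i : Fin 4) : SA (df B C i) x := (h.sB i).sub (h.sC i)

theorem comm (h : Ref B C p x) (i : Fin 4) : p x * df B C i x = df B C i x * p x := by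
  have := (h.pB.self_of_nhds i).symm.trans (h.pC i)
  rw [← sub_eq_zero] at this ⊢
  rw [← this]; simp only [df]; noncomm_ring

theorem pd_df (h : Ref B C p x) (i j : Fin 4) :
    pd i (df B C j) x = pd i (B j) x - pd i (C j) x := pd_sub (h.sB j).d (h.sC j).d

theorem cov0 (h : Ref B C p x) (j : Fin 4) :
    cov B 0 (df B C j) x = cur B 0 j x - cur C 0 j x := by
  simp only [cov, h.pd_df, cur, df, h.c0]; noncomm_ring

theorem covB (h : Ref B C p x) (i j : Fin 4) : cov B i (df B C j) x - cov B j (df B C i) x =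
    cur B i j x - cur C i j x + (df B C i x * df B C j x - df B C j x * df B C i x) := by
  simp only [cov, h.pd_df, cur, df]; noncomm_ring

theorem covC (h : Ref B C p x) (i j : Fin 4) : cov C i (df B C j) x - cov C j (df B C i) x =
    cur B i j x - cur C i j x - (df B C i x * df B C j x - df B C j x * df B C i x) := by
  simp only [cov, h.pd_df, cur, df]; noncomm_ring

theorem sa_cs (h : Ref B C p x) (τ : A →L[ℝ] ℝ) (i : Fin 4) : SA (cs τ B C p i) x := by
  have h1 := h.sd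
  have h2 := SA.cur h.sB
  have h3 := SA.cur h.sC
  have e : ∀ j k, SA (cs1 τ B C p j k) x := fun j k =>
    τ.contDiff.contDiffAt.comp x (h.sp.mul (((h1 j).mul ((h2 0 k).add (h3 0 k))).sub
      ((h1 k).mul ((h2 0 j).add (h3 0 j)))))
  fin_cases i
  · exact τ.contDiff.contDiffAt.comp x (h.sp.mul (((((h1 1).mul (h2 2 3)).add
      ((h1 2).mul (h2 3 1))).add ((h1 3).mul (h2 1 2))).sub
        ((h1 1).mul (((h1 2).mul (h1 3)).sub ((h1 3).mul (h1 2))))))
  all_goals exact e _ _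

theorem pd_cs1 (hτ : ∀ a b, τ (a * b) = τ (b * a)) (h : Ref B C p x) (i j k : Fin 4) :
    pd i (cs1 τ B C p j k) x =
      τ (p x * (cov B i (df B C j) x * cur B 0 k x + df B C j x * cov B i (cur B 0 k) x -
        (cov B i (df B C k) x * cur B 0 j x + df B C k x * cov B i (cur B 0 j) x))) +
      τ (p x * (cov C i (df B C j) x * cur C 0 k x + df B C j x * cov C i (cur C 0 k) x -
        (cov C i (df B C k) x * cur C 0 j x + df B C k x * cov C i (cur C 0 j) x))) := by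
  have h1 := h.sd
  have h2 := SA.cur h.sB
  have h3 := SA.cur h.sC
  have e : cs1 τ B C p j k = fun y =>
      τ (p y * (df B C j y * cur B 0 k y - df B C k y * cur B 0 j y)) +
      τ (p y * (df B C j y * cur C 0 k y - df B C k y * cur C 0 j y)) := by
    funext y; rw [← map_add]; simp only [cs1]; congr 1; noncomm_ring
  have s1 := ((h1 j).mul (h2 0 k)).sub ((h1 k).mul (h2 0 j))
  have s2 := ((h1 j).mul (h3 0 k)).sub ((h1 k).mul (h3 0 j))
  have t1 : SA (fun y => τ (p y * (df B C j y * cur B 0 k y - df B C k y * cur B 0 j y))) x :=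
    τ.contDiff.contDiffAt.comp x (h.sp.mul s1)
  have t2 : SA (fun y => τ (p y * (df B C j y * cur C 0 k y - df B C k y * cur C 0 j y))) x :=
    τ.contDiff.contDiffAt.comp x (h.sp.mul s2)
  rw [e, pd_add t1.d t2.d, pd_tr hτ h.sp s1 h.pB.self_of_nhds,
    pd_tr hτ h.sp s2 h.pC, cov_sub ((h1 j).mul (h2 0 k)) ((h1 k).mul (h2 0 j)),
    cov_sub ((h1 j).mul (h3 0 k)) ((h1 k).mul (h3 0 j)), cov_mul (h1 j) (h2 0 k),
    cov_mul (h1 k) (h2 0 j), cov_mul (h1 j) (h3 0 k), cov_mul (h1 k) (h3 0 j)]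

theorem cov_flat (h : Ref B C p x) {j k : Fin 4} (hf : ∀ᶠ y in 𝓝 x, cur C j k y = 0) :
    cov C j (cur C 0 k) x = cov C k (cur C 0 j) x := by
  rw [← sub_eq_zero, ← bianchi h.sC, cov, pd_congr (g := fun _ => (0 : A)) hf, pd_const,
    hf.self_of_nhds]
  simp

/-- **transgression**: `2 cw = div cs` -/
theorem div_cs (hτ : ∀ a b, τ (a * b) = τ (b * a)) (h : Ref B C p x) :
    ∑ i, pd i (cs τ B C p i) x = 2 * cw τ B p x := by
  have h1 := h.sd
  have h2 := SA.cur h.sB
  have s1 := (h1 1).mul (h2 2 3)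
  have s2 := (h1 2).mul (h2 3 1)
  have s3 := (h1 3).mul (h2 1 2)
  have s4 := (h1 2).mul (h1 3)
  have s5 := (h1 3).mul (h1 2)
  have e0 : pd 0 (cs0 τ B C p) x = _ :=
    pd_tr hτ h.sp (((s1.add s2).add s3).sub ((h1 1).mul (s4.sub s5))) h.pB.self_of_nhds 0
  rw [cov_sub ((s1.add s2).add s3) ((h1 1).mul (s4.sub s5)), cov_add (s1.add s2) s3,
    cov_add s1 s2, cov_mul (h1 1) (h2 2 3), cov_mul (h1 2) (h2 3 1), cov_mul (h1 3) (h2 1 2),
    cov_mul (h1 1) (s4.sub s5), cov_sub s4 s5, cov_mul (h1 2) (h1 3), cov_mul (h1 3) (h1 2),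
    bianchi h.sB 0 2 3, bianchi h.sB 0 3 1, bianchi h.sB 0 1 2, h.cov0, h.cov0, h.cov0] at e0
  rw [Fin.sum_univ_four]
  show pd 0 (cs0 τ B C p) x + pd 1 (cs1 τ B C p 2 3) x + pd 2 (cs1 τ B C p 3 1) x +
    pd 3 (cs1 τ B C p 1 2) x = _
  rw [e0, h.pd_cs1 hτ, h.pd_cs1 hτ, h.pd_cs1 hτ, h.cov_flat h.f23, h.cov_flat h.f31,
    ← h.cov_flat h.f12]
  have b23 := h.covB 2 3; have b31 := h.covB 3 1; have b12 := h.covB 1 2
  have c23 := h.covC 2 3; have c31 := h.covC 3 1; have c12 := h.covC 1 2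
  rw [h.f23.self_of_nhds, sub_eq_iff_eq_add] at b23 c23
  rw [h.f31.self_of_nhds, sub_eq_iff_eq_add] at b31 c31
  rw [h.f12.self_of_nhds, sub_eq_iff_eq_add] at b12 c12
  rw [b23, b31, b12, c23, c31, c12]
  have hF := fun i j => tr_symm hτ (cur_comm h.sB h.sp h.pB i j)
  have hb := fun i => tr_symm hτ (h.comm i)
  simp only [cw]
  have f23 := hF 2 3; have f31 := hF 3 1; have f12 := hF 1 2
  have b1 := hb 1; have b2 := hb 2; have b3 := hb 3
  generalize cur B 2 3 x = F1 at *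
  generalize cur B 3 1 x = F2 at *
  generalize cur B 1 2 x = F3 at *
  generalize cur B 0 1 x = E1
  generalize cur B 0 2 x = E2
  generalize cur B 0 3 x = E3
  generalize cur C 0 1 x = G1
  generalize cur C 0 2 x = G2
  generalize cur C 0 3 x = G3
  generalize df B C 1 x = a1 at *
  generalize df B C 2 x = a2 at *
  generalize df B C 3 x = a3 at *
  simp only [mul_add, mul_sub, add_mul, sub_mul, map_add, map_sub, mul_assoc, sub_zero]
  have := f23 E1; have := f31 E2; have := f12 E3; have := f23 G1; have := f31 G2; have := f12 G3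
  have := b2 (a3 * E1); have := b3 (E1 * a2); have := b3 (a2 * E1); have := b2 (E1 * a3)
  have := b2 (a3 * G1); have := b3 (G1 * a2); have := b3 (a2 * G1); have := b2 (G1 * a3)
  have := b1 (E2 * a3); have := b3 (a1 * E2); have := b1 (a3 * E2)
  have := b1 (G2 * a3); have := b3 (a1 * G2); have := b1 (a3 * G2)
  have := b1 (E3 * a2); have := b2 (a1 * E3); have := b1 (a2 * E3)
  have := b1 (G3 * a2); have := b2 (a1 * G3); have := b1 (a2 * G3)
  simp only [mul_assoc] at *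
  linarith

end Ref

/-- Stokes on a box: periodic in the directions 1 and 3, no flux through the faces 2 -/
theorem stokes4 {V : Fin 4 → E4 → ℝ} {a b : E4} (hab : a ≤ b)
    (hV : ∀ i, ∀ x ∈ Icc a b, SA (V i) x)
    (h1 : ∀ y, V 1 (y + Pi.single 1 (b 1 - a 1)) = V 1 y)
    (h3 : ∀ y, V 3 (y + Pi.single 3 (b 3 - a 3)) = V 3 y)
    (h2 : ∀ x ∈ Icc a b, x 2 = a 2 ∨ x 2 = b 2 → V 2 x = 0) {Ca Cb : ℝ}
    (ha : ∀ x ∈ Icc a b, x 0 = a 0 → |V 0 x| ≤ Ca) (hb : ∀ x ∈ Icc a b, x 0 = b 0 → |V 0 x| ≤ Cb) :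
    |∫ x in Icc a b, ∑ i, pd i (V i) x| ≤ (Ca + Cb) * ((b 1 - a 1) * (b 2 - a 2) * (b 3 - a 3)) := by
  have key := integral_divergence_of_hasFDerivAt_off_countable' a b hab V
    (fun i x => fderiv ℝ (V i) x) ∅ countable_empty
    (fun i x hx => (hV i x hx).continuousAt.continuousWithinAt)
    (fun x hx i => (hV i x ⟨fun j => (hx.1 j trivial).1.le, fun j => (hx.1 j trivial).2.le⟩).d.hasFDerivAt)
    (ContinuousOn.integrableOn_compact isCompact_Icc (continuousOn_finsetSum _ fun i _ x hx =>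
      (SA.pd (hV i x hx) i).continuousAt.continuousWithinAt))
  have mem : ∀ (i : Fin 4) (c : ℝ), c ∈ Icc (a i) (b i) →
      ∀ y ∈ Icc (a ∘ i.succAbove) (b ∘ i.succAbove), (i.insertNth c y : E4) ∈ Icc a b :=
    fun i c hc y hy => Fin.insertNth_mem_Icc.2 ⟨hc, hy⟩
  have per : ∀ (i : Fin 4) (y : Fin 3 → ℝ), (i.insertNth (b i) y : E4) =
      i.insertNth (a i) y + Pi.single i (b i - a i) := fun i y => by
    refine Fin.insertNth_eq_iff.2 ⟨by simp, funext fun j => ?_⟩
    simp [Fin.removeNth]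
  have z2 : ∀ c, c = a 2 ∨ c = b 2 → ∫ y in Icc (a ∘ (2 : Fin 4).succAbove)
      (b ∘ (2 : Fin 4).succAbove), V 2 ((2 : Fin 4).insertNth c y) = 0 := fun c hc => by
    refine setIntegral_eq_zero_of_forall_eq_zero fun y hy => h2 _ (mem 2 c ?_ y hy) (by simpa)
    rcases hc with rfl | rfl
    exacts [⟨le_rfl, hab 2⟩, ⟨hab 2, le_rfl⟩]
  have vol : (volume (Icc (a ∘ (0 : Fin 4).succAbove) (b ∘ (0 : Fin 4).succAbove))).toReal =
      (b 1 - a 1) * (b 2 - a 2) * (b 3 - a 3) := by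
    rw [Real.volume_Icc_pi_toReal (a := a ∘ (0 : Fin 4).succAbove) (b := b ∘ (0 : Fin 4).succAbove)
      fun j => hab _, Fin.prod_univ_three]; rfl
  have bd : ∀ c C, c ∈ Icc (a 0) (b 0) → (∀ x ∈ Icc a b, x 0 = c → |V 0 x| ≤ C) →
      |∫ y in Icc (a ∘ (0 : Fin 4).succAbove) (b ∘ (0 : Fin 4).succAbove),
        V 0 ((0 : Fin 4).insertNth c y)| ≤ C * ((b 1 - a 1) * (b 2 - a 2) * (b 3 - a 3)) := by
    intro c C hc hC
    rw [← vol]
    exact norm_setIntegral_le_of_norm_le_const (μ := volume)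
      (f := fun y => V 0 ((0 : Fin 4).insertNth c y)) (C := C) measure_Icc_lt_top
      fun y hy => hC _ (mem 0 c hc y hy) (by simp)
  have k2 : ∫ x in Icc a b, ∑ i, pd i (V i) x = _ := key
  rw [k2, Fin.sum_univ_four, z2 _ (Or.inl rfl), z2 _ (Or.inr rfl)]
  simp only [per 1, per 3, h1, h3, sub_self, add_zero]
  have t1 := bd _ _ ⟨le_rfl, hab 0⟩ ha
  have t2 := bd _ _ ⟨hab 0, le_rfl⟩ hb
  exact (abs_sub _ _).trans (by linarith)

end Crest.Agent.X212.Rdc90
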