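import Crest.Agent.X212.Rdc90.Defs
import Crest.Agent.X212.Rdc90.Coul
import Crest.Agent.X212.Cgr76.Y
import Crest.Agent.X212.Spn45.Aff
import Crest.Agent.X212.Tmp64.Cfg

/-! Gauge transformations on the cross-section; Coulomb gauge near a flat configuration. -/

set_option autoImplicit false
set_option linter.unusedSectionVars false
noncomputable section
open scoped Manifold ContDiff Topology InnerProductSpace
open MeasureTheory Set Function Filter

namespace Crest.Agent.X212.Rdc90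
open An An.Pre Nd18 Cyf70 Sob92
open Wz78 (nab)
open Tmp64 (Eq0 AdmOn)
open Eqv71 (cj Itw)
open Std94 (Itx)
open Cgr76 (qy ok3 mok)
open Crt72 (pc)
open Map77 (P2 i1 i2)

variable {E3 : Type} [NormedAddCommGroup E3] [NormedSpace ℝ E3] [FiniteDimensional ℝ E3]
  [MeasurableSpace E3] [BorelSpace E3]
  {H3 : Type} [TopologicalSpace H3] {I3 : ModelWithCorners ℝ E3 H3} [I3.Boundaryless]
  {Y : Type} [TopologicalSpace Y] [ChartedSpace H3 Y] [IsManifold I3 ∞ Y] [T2Space Y]
  [MeasurableSpace Y] [BorelSpace Y] [SecondCountableTopology Y] [CompactSpace Y]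
  {κ : Type} [Fintype κ] {lam : Type} [Fintype lam] {D : YD I3 Y κ lam} {β : YC Y κ lam}
  {a a' : κ → Y → β.m.A} {g : Y → En (Fin β.m.N)}

variable (β) in
/-- the connection `β + a` -/
def Wy (a : κ → Y → β.m.A) : κ → Y → En (Fin β.m.N) := fun k y => β.W (some k) y + opL (a k y)

theorem Fo.smW (h : Fo D β a) (hβ : D.Adm β) (k : κ) : Sm I3 (Wy β a k) :=
  (Cgr76.sm_cn hβ k).add (opL.contMDiff.comp (h.sm k))

theorem Fo.skW (h : Fo D β a) (hβ : D.Adm β) (k : κ) (y : Y) : Skw (Wy β a k y) := fun s t => by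
  have h1 := Cgr76.skw_cn hβ k y s t
  simp only [Crt72.cn] at h1
  simp only [Wy, _root_.add_apply, inner_add_left, inner_add_right, h1, (h.mem k y).1 s t]
  ring

theorem Fo.smA (h : Fo D β a) (hβ : D.Adm β) (k : κ) : Sm I3 (Ay β a k) :=
  Wz78.adcL.contMDiff.comp (h.smW hβ k)

theorem smA0 (hβ : D.Adm β) (k : κ) : Sm I3 (A0 β k) :=
  Wz78.adcL.contMDiff.comp (Cgr76.sm_cn hβ k)

theorem sm_br {u v : Y → β.m.A} (hu : Sm I3 u) (hv : Sm I3 v) :
    Sm I3 fun y => adc (opL (u y)) (v y) :=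
  ((Wz78.adcL ∘L opL).contMDiff.comp hu).clm_apply hv

theorem Fo.smB (h : Fo D β a) (hβ : D.Adm β) (i k : κ) : Sm I3 (By D β a i k) := fun y =>
  (sa_ed (Wz78.frm D.F) (fun b => smA0 hβ b y) (fun b => h.sm b y) i k).add
    (sm_br (h.sm i) (h.sm k) y)

theorem Fo.sv (h : Fo D β a) :
    Sv D β (fun x => WithLp.toLp 2 fun o => o.elim 0 fun k => a k x.1) 0 := by
  refine ⟨Cgr76.sm_fm fun o => ?_, fun x => Spn45.p1_iff.2 ⟨fun o => ?_, fun o => ?_⟩,
    contMDiff_const, fun _ => map_zero _⟩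
  · cases o with
    | none => exact contMDiff_const
    | some k => exact (h.sm k).comp contMDiff_fst
  · cases o with
    | none => exact zero_mem _
    | some k => exact h.mem k x.1
  · rw [Fintype.sum_option]
    cases o with
    | none => exact (congrArg₂ (fun u v : β.m.A => u + v) (smul_zero _)
        (Finset.sum_eq_zero fun k _ => zero_smul ℝ _)).trans (add_zero _)
    | some k =>
      exact (congrArg₂ (fun u v : β.m.A => u + v) (smul_zero _) (h.P k x.1)).trans (zero_add _)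

theorem so_zero : So D β 0 := ⟨contMDiff_const, fun _ => map_zero _⟩

theorem ciso {n : Type} [Fintype n] {g p : En n} (hg : trn g * g = 1) (hp : Pj41.CPrj p)
    (e1 : p ∘L g = g ∘L p) : Pj41.CIso (g ∘L p) p p := by
  have e2 : Pj41.ad g ∘L g = 1 := by rw [Pj41.ad_trn]; exact hg
  have e3 : g ∘L Pj41.ad g = 1 := ContinuousLinearMap.coe_injective
    ((LinearMap.comp_eq_id_comm ℝ _).1 (congrArg ContinuousLinearMap.toLinearMap e2))
  refine ⟨?_, ?_, by rw [ContinuousLinearMap.comp_assoc, hp.idem]⟩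
  · rw [Pj41.ad_comp, hp.herm, ContinuousLinearMap.comp_assoc,
      ← ContinuousLinearMap.comp_assoc _ g, e2]
    exact hp.idem
  · rw [← e1, Pj41.ad_comp, hp.herm, ContinuousLinearMap.comp_assoc,
      ← ContinuousLinearMap.comp_assoc g, e3]
    exact hp.idem

variable (D β a a' g) in
/-- `g` maps `β + a` to `β + a'` -/
structure Gr : Prop where
  fo : Fo D β a
  fo' : Fo D β a'
  sm : Sm I3 g
  un : ∀ y, trn (g y) * g y = 1
  itx : ∀ y, Itx β.m β.m y (g y - 1)
  itw : ∀ y, Itw I3 D.F.e (Wy β a) (Wy β a') g y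

namespace Gr
variable (G : Gr D β a a' g)
include G

theorem norm (y : Y) (ξ : β.m.A) : ‖cj (g y) ξ‖ = ‖ξ‖ := by
  rw [← sq_eq_sq₀ (norm_nonneg _) (norm_nonneg _), ← real_inner_self_eq_norm_sq,
    ← real_inner_self_eq_norm_sq, Eqv71.inner_cj, Eqv71.cj_cj,
    show trn (g y) ∘L g y = 1 from G.un y, Eqv71.cj_apply, Eqv71.trn_of_sym fun _ _ => rfl]
  exact congrArg _ (Wz78.hsL_opL ξ)

variable (hB : BasStmt I3 Y κ lam) (h : Bs D β)
include hB h

theorem eq0 : Eq0 D.Z (cy (bh β a 0)) (cy (bh β a' 0)) univ fun x => g x.1 ∘L β.m.p x.1 := by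
  have hA := (hB D β h.ok h.adm).2.1 a 0 G.fo so_zero
  have e0 := Eq0.refl (Tmp64.admOn_univ.2 hA.adm)
  have k : ∀ {y} {A : En (Fin β.m.N)}, (g y - 1) * A = A * (g y - 1) → A ∘L g y = g y ∘L A :=
    fun e => by
      rw [sub_mul, mul_sub, one_mul, mul_one, sub_left_inj] at e
      exact e.symm
  have k' : ∀ {y} {A : En (Fin β.m.N)}, (g y - 1) * A = A * (g y - 1) →
      A ∘L β.m.p y = β.m.p y ∘L A → A ∘L g y ∘L β.m.p y = (g y ∘L β.m.p y) ∘L A := fun e e' => by
    rw [← ContinuousLinearMap.comp_assoc, k e, ContinuousLinearMap.comp_assoc, e',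
      ContinuousLinearMap.comp_assoc]
  have sg : Sm (IC I3) fun x : Y × ℝ => g x.1 := G.sm.comp contMDiff_fst
  refine ⟨⟨fun x _ => (sg x).clm_comp (e0.iso.su x trivial), fun x _ => ?_,
    fun x _ => k' (Grp76.itx_eq (G.itx _)).2.2.2.1 (e0.iso.J x trivial),
    fun x _ b => k' ((Grp76.itx_eq (G.itx _)).2.2.1 b) (e0.iso.ρ x trivial b),
    fun x _ s => k' ((Grp76.itx_eq (G.itx _)).2.2.2.2 s) (e0.iso.j x trivial s)⟩,
    fun x _ o => ?_, fun x _ => ?_, rfl⟩
  · exact ciso (G.un _) ((Pj41.OK.on hA.adm.ok univ).prj (mem_univ x))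
      (k ((Grp76.itx_eq (G.itx _)).2.1.trans (Grp76.itx_eq (G.itx _)).1.symm))
  · let W : (κ → Y → β.m.A) → Option κ → Y × ℝ → En (Fin β.m.N) := fun b => (cy (bh β b 0)).W
    have h1 : Itw (IC I3) D.Z.e (W a) (W a') (fun x => g x.1) x := fun o => by
      cases o with
      | none =>
        have h2 : ∀ b, W b none x = 0 := fun b =>
          (congrArg₂ (· + ·) (h.adm.tmp _) (map_zero _)).trans (add_zero _)
        rw [h2, h2, show dv (IC I3) (D.Z.e none) _ x = _ from congrFun (D_none_fst D.F.toPre G.sm) x]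
        simp
      | some b =>
        rw [show dv (IC I3) (D.Z.e (some b)) _ x = _ from
          congrFun (D_some_fst D.F.toPre G.sm b) x]
        exact G.itw x.1 b
    have h2 : Itw (IC I3) D.Z.e (W a) (W a) (fun x => β.m.p x.1) x := e0.itw (G := D.G) trivial
    refine sub_eq_zero.2 (show dv (IC I3) _ (fun x => g x.1 ∘L β.m.p x.1) x +
      W a' o x ∘L g x.1 ∘L β.m.p x.1 = (g x.1 ∘L β.m.p x.1) ∘L W a o x from ?_)
    rw [Pj41.dv_cc (b := fun x : Y × ℝ => β.m.p x.1) (sg x) (e0.iso.su x trivial), ContinuousLinearMap.comp_assoc, ← h2 o,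
      ContinuousLinearMap.comp_add, ← ContinuousLinearMap.comp_assoc,
      ← ContinuousLinearMap.comp_assoc, ← h1 o, ContinuousLinearMap.add_comp]
    abel
  · show β.Φ x.1 + 0 = g x.1 (β.m.p x.1 (β.Φ x.1 + 0))
    simp [h.zr]

theorem By (i k : κ) (y : Y) : By D β a' i k y = cj (g y) (By D β a i k y) := by
  obtain ⟨-, h1, h2, -⟩ := hB D β h.ok h.adm
  have h3 := (G.eq0 hB h).Fg (G := D.G) isOpen_univ h.ok.B (h1 a 0 G.fo so_zero).adm
    (h1 a' 0 G.fo' so_zero).adm (mem_univ (y, 0)) (some i, some k)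
  have h4 := (h2 _ _ G.fo.sv).2.2 h.flat y 0 i k
  refine ((h2 _ _ G.fo'.sv).2.2 h.flat y 0 i k).symm.trans (h3.trans ?_)
  exact (Eqv71.cj_cj _ _ _).symm.trans
    (congrArg (cj (g y)) ((Eqv71.ME.cj_p (Wz78.pg_mem _ _)).trans h4))

theorem Ly (k : κ) (y : Y) : Ly D β a' k y = cj (g y) (Ly D β a k y) := by
  have h1 := (G.itw y).cj (G.sm y) (fun b => G.fo.skW h.adm b y) fun b => G.fo'.skW h.adm b y
  have h2 : ∀ b i k, nab I3 D.F.e (Ay β a') b (Rdc90.By D β a' i k) y =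
      cj (g y) (nab I3 D.F.e (Ay β a) b (Rdc90.By D β a i k) y) := fun b i k => by
    rw [funext (G.By hB h i k)]
    exact h1.nab (Eqv71.sa_cj (G.sm y)).md (Wz78.SA.md (G.fo.smB h.adm i k y)) b
  simp only [Rdc90.Ly, dl, h2, G.By hB h _ _ y, map_sum, map_smul, map_sub, map_neg, map_add]

end Gr

end Crest.Agent.X212.Rdc90
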