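import Crest.Agent.X212.Rdc90.Cg
import Crest.Agent.X212.Sob92.NemF
import Crest.Agent.X212.Wz78.Kos

/-! The leaves LOJ and NEAR. -/

set_option autoImplicit false
set_option linter.unusedSectionVars false
noncomputable section
open scoped Manifold ContDiff Topology InnerProductSpace
open MeasureTheory Set Function Filter

namespace Crest.Agent.X212.Rdc90
open An An.Pre Nd18 Cyf70 Sob92
open Wz78 (nab)
open Tmp64 (Eq0 AdmOn)
open Eqv71 (cj Itw)
open Std94 (Itx)
open Cgr76 (qy ok3 mok)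
open Crt72 (pc)
open Bki64 (Cl)
open Neck67 (Lb)

variable {E3 : Type} [NormedAddCommGroup E3] [NormedSpace ℝ E3] [FiniteDimensional ℝ E3]
  [MeasurableSpace E3] [BorelSpace E3]
  {H3 : Type} [TopologicalSpace H3] {I3 : ModelWithCorners ℝ E3 H3} [I3.Boundaryless]
  {Y : Type} [TopologicalSpace Y] [ChartedSpace H3 Y] [IsManifold I3 ∞ Y] [T2Space Y]
  [MeasurableSpace Y] [BorelSpace Y] [SecondCountableTopology Y] [CompactSpace Y]
  {κ : Type} [Fintype κ] {lam : Type} [Fintype lam] {D : YD I3 Y κ lam} {β : YC Y κ lam}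
  {a a' : κ → Y → β.m.A} {g : Y → En (Fin β.m.N)}

theorem br_anti (ξ η : β.m.A) : adc (opL ξ) η = -adc (opL η) ξ := by
  rw [Grp76.adc_opL, Grp76.adc_opL, neg_sub]

theorem By_anti (i k : κ) (y : Y) : By D β a i k y = -By D β a k i y := by
  simp only [By, ed, br_anti (a i y), Wz78.c_anti D.F i k, neg_smul, Finset.sum_neg_distrib]
  abel

theorem By_eq {u : κ → Y → β.m.A} (ha : Fo D β a) (hu : Har D β u) (hc : HC D β) (i k : κ) (y : Y) :
    By D β a i k y = ed I3 D.F.e D.F.c (Ay β a) (fun k y => a k y - u k y) i k y -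
      adc (opL (a i y - u i y)) (a k y - u k y) := by
  have e : ∀ w : κ → Y → β.m.A, ed I3 D.F.e D.F.c (Ay β a) w i k y = ed I3 D.F.e D.F.c (A0 β) w i k y
      + (adc (opL (a i y)) (w k y) - adc (opL (a k y)) (w i y)) := fun w => by
    simp only [ed, nab, Ay, A0, ← Wz78.adcL_apply, map_add, _root_.add_apply]
    abel
  have h0 := hc u hu i k y
  rw [e, ed_sub (fun k => ha.sm k y) (fun k => hu.sm k y), hu.ed, br_anti (a k y), By]
  simp only [← Wz78.adcL_apply, map_sub, _root_.sub_apply] at h0 ⊢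
  rw [h0]
  abel

/-- the pointwise inequality behind the Lojasiewicz inequality -/
theorem loj_pt {u : κ → Y → β.m.A} (hβ : D.Adm β) (ha : Fo D β a) (hu : Har D β u) (hc : HC D β)
    {t c : ℝ} (ht : 0 < t) (y : Y) (h : ∀ i, ‖adc (opL (a i y - u i y))‖ ≤ c) :
    ∑ i, ∑ k, ‖By D β a i k y‖ ^ 2 ≤ 2 * t * ∑ k, ‖Ly D β a k y‖ ^ 2 +
      (2 * t⁻¹ + Fintype.card κ * c ^ 2) * ∑ k, ‖a k y - u k y‖ ^ 2 + 4 * Wz78.dvg I3 D.F.e D.F.dv
        (fun j y => ∑ k, ⟪By D β a j k y, a k y - u k y⟫_ℝ) y := by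
  have h1 := adj_ed (e := D.F.e) (c := D.F.c) (g := D.F.dv) (A := Ay β a)
    (fun b => Wz78.adc_skw (ha.skW hβ b y)) (α := fun k y => a k y - u k y) (β := By D β a)
    (fun k => (ha.sm k y).sub (hu.sm k y)) (fun i k => ha.smB hβ i k y) fun i k => By_anti i k y
  have h2 : ∑ k, ⟪dl I3 D.F.e D.F.c D.F.dv (Ay β a) (By D β a) k y, a k y - u k y⟫_ℝ =
      ∑ k, ⟪Ly D β a k y, a k y - u k y⟫_ℝ := by
    simp only [Ly, sum_inner, real_inner_smul_left]
    rw [Finset.sum_comm]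
    refine Finset.sum_congr rfl fun k _ => ?_
    rw [← ha.P k y, ← hu.P k y]
    simp only [← Finset.sum_sub_distrib, ← smul_sub, inner_sum, real_inner_smul_right,
      D.F.P_symm _ k]
  have h3 : ∀ k, 2 * ⟪Ly D β a k y, a k y - u k y⟫_ℝ ≤
      t * ‖Ly D β a k y‖ ^ 2 + t⁻¹ * ‖a k y - u k y‖ ^ 2 := fun k => by
    have := real_inner_le_norm (Ly D β a k y) (a k y - u k y)
    have := mul_nonneg ht.le (sq_nonneg (‖Ly D β a k y‖ - t⁻¹ * ‖a k y - u k y‖))
    have e : ∀ p q : ℝ, t * (p - t⁻¹ * q) ^ 2 = t * p ^ 2 + t⁻¹ * q ^ 2 - 2 * (p * q) :=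
      fun p q => by field_simp; ring
    rw [e] at this
    linarith
  have h4 : ∀ i k, ‖By D β a i k y‖ ^ 2 ≤ 2 * ⟪By D β a i k y,
      ed I3 D.F.e D.F.c (Ay β a) (fun k y => a k y - u k y) i k y⟫_ℝ +
      c ^ 2 * ‖a k y - u k y‖ ^ 2 := fun i k => by
    rw [eq_add_of_sub_eq (By_eq ha hu hc i k y).symm, inner_add_right,
      real_inner_self_eq_norm_sq, ← mul_pow]
    have p1 := ((adc (opL (a i y - u i y))).le_opNorm (a k y - u k y)).trans
      (mul_le_mul_of_nonneg_right (h i) (norm_nonneg _))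
    have p2 := pow_le_pow_left₀ (norm_nonneg _) p1 2
    have p3 := norm_add_sq_real (By D β a i k y) (adc (opL (a i y - u i y)) (a k y - u k y))
    linarith [sq_nonneg ‖By D β a i k y + adc (opL (a i y - u i y)) (a k y - u k y)‖]
  have h5 := Finset.sum_le_sum fun i (_ : i ∈ Finset.univ) =>
    Finset.sum_le_sum fun k (_ : k ∈ Finset.univ) => h4 i k
  have h6 := Finset.sum_le_sum fun k (_ : k ∈ Finset.univ) => h3 k
  simp only [Finset.sum_add_distrib, ← Finset.mul_sum, Finset.sum_const, nsmul_eq_mul,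
    Finset.card_univ] at h5 h6
  rw [h1, h2] at h5
  nlinarith

theorem loj (hB : BasStmt I3 Y κ lam) : LojStmt I3 Y κ lam := fun D β h hc => by
  obtain ⟨K, p1, H⟩ := cor h hc 0 0
  set n : ℝ := (Fintype.card κ : ℝ) with hn
  have p2 : 0 ≤ n := by positivity
  set c := 2 * ‖(Wz78.adcL ∘L opL : CL β.m.A _)‖ with hc'
  have p3 : 0 ≤ c := by positivity
  set M := 2 * n * K ^ 2 + 1 with hM
  have p4 : 0 < M := by positivity
  set ε := 1 / (4 * n * c ^ 2 * M + 1) with hε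
  have p5 : 0 < ε := by positivity
  have p6 : (2 * (8 * M)⁻¹ + n * (c * ε) ^ 2) * M ≤ 1 / 2 := by
    have e1 : (4 * n * c ^ 2 * M + 1) * ε = 1 := mul_one_div_cancel (by positivity)
    have e2 : 2 * (8 * M)⁻¹ * M = 1 / 4 := by field_simp; norm_num
    have e3 : 0 ≤ n * c ^ 2 * M * ε := by positivity
    nlinarith
  obtain ⟨η, q0, H⟩ := H ε p5
  refine ⟨4 * (8 * M), 7, η, q0, fun a ha hb => le_of_forall_pos_le_add fun δ hδ => ?_⟩
  obtain ⟨a', g, u, G, hu, -, s1, s2, s3⟩ := H a ha hb √δ (Real.sqrt_pos.2 hδ)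
  have nB : ∀ i k y, ‖By D β a i k y‖ = ‖By D β a' i k y‖ := fun i k y => by
    rw [G.By hB h, G.norm]
  have nL : ∀ k y, ‖Ly D β a k y‖ = ‖Ly D β a' k y‖ := fun k y => by rw [G.Ly hB h, G.norm]
  simp only [nB, nL]
  have I : ∀ {f : Y → β.m.A}, Sm I3 f → Integrable (fun y => ‖f y‖ ^ 2) D.F.μ := fun hf =>
    (hf.continuous.norm.pow 2).integrable_of_hasCompactSupport (.of_compactSpace _)
  have sB := G.fo'.smB h.adm
  have sw : ∀ k, Sm I3 fun y => a' k y - u k y := fun k => (G.fo'.sm k).sub (hu.sm k)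
  have sL : ∀ k, Sm I3 (Ly D β a' k) := fun k y => Wz78.SA.sum _ fun m _ =>
    Wz78.SA.smul (D.F.P_sm k m y) (sa_dl (Wz78.frm D.F) (fun b => G.fo'.smA h.adm b y)
      (fun b => D.F.dv_sm b y) (fun i k => sB i k y) m)
  have iB := fun i => integrable_finsetSum Finset.univ fun k _ => I (sB i k)
  have iL := integrable_finsetSum Finset.univ fun k _ => I (sL k)
  have iw := integrable_finsetSum Finset.univ fun k _ => I (sw k)
  have sf : ∀ j, Sm I3 fun y => ∑ k, ⟪By D β a' j k y, a' k y - u k y⟫_ℝ := fun j =>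
    contMDiff_finsetSum fun k _ => Ell97.sm_inner (sB j k) (sw k)
  have h1 := integral_mono (integrable_finsetSum Finset.univ fun i _ => iB i)
    (((iL.const_mul _).add (iw.const_mul _)).add
      ((Wz78.integ_dvg sf fun _ => .of_compactSpace _).const_mul 4))
    fun y => loj_pt (t := 8 * M) (c := c * ε) h.adm G.fo' hu hc (by positivity) y fun i =>
      ((Wz78.adcL ∘L opL : CL β.m.A _).le_opNorm _).trans (by
        have := (norm_sub_le _ _).trans (add_le_add (CB_bound (s1 i) y) (CB_bound (s2 i) y))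
        rw [hc', mul_comm 2, mul_assoc]
        exact mul_le_mul_of_nonneg_left (by linarith) (norm_nonneg _))
  rw [integral_add' ((iL.const_mul _).add (iw.const_mul _))
      ((Wz78.integ_dvg sf fun _ => .of_compactSpace _).const_mul 4),
    integral_add' (iL.const_mul _) (iw.const_mul _), integral_const_mul, integral_const_mul,
    integral_const_mul, Wz78.integral_dvg sf fun _ => .of_compactSpace _,
    integral_finsetSum _ fun k _ => I (sw k)] at h1
  generalize hX : ∫ y, ∑ i, ∑ k, ‖By D β a' i k y‖ ^ 2 ∂D.F.μ = X at h1 ⊢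
  have X0 : 0 ≤ X := hX ▸ integral_nonneg fun y => by positivity
  have h2 := s3 √X (Real.sqrt_nonneg _) fun i k => by
    rw [nrm_eq]
    refine Real.sqrt_le_sqrt (hX ▸ integral_mono (I (sB i k))
      (integrable_finsetSum Finset.univ fun i _ => iB i) fun y => ?_)
    exact (Finset.single_le_sum (f := fun k => ‖By D β a' i k y‖ ^ 2) (fun _ _ => by positivity)
      (Finset.mem_univ k)).trans (Finset.single_le_sum
        (f := fun i => ∑ k, ‖By D β a' i k y‖ ^ 2) (fun _ _ => by positivity) (Finset.mem_univ i))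
  have h3 : ∑ k, ∫ y, ‖a' k y - u k y‖ ^ 2 ∂D.F.μ ≤ M * (X + δ) := by
    refine (Finset.sum_le_card_nsmul _ _ (2 * K ^ 2 * (X + δ)) fun k _ => ?_).trans ?_
    · refine (nrm_sq 0 _).symm.trans_le ((pow_le_pow_left₀ (nrm_nonneg _ _)
        ((nrm_mono zero_le_one _).trans (h2 k)) 2).trans ?_)
      have := mul_le_mul_of_nonneg_left (add_sq_le (a := √X) (b := √δ)) (sq_nonneg K)
      rw [Real.sq_sqrt X0, Real.sq_sqrt hδ.le] at this
      rw [mul_pow]; linarith
    · rw [nsmul_eq_mul, Finset.card_univ, hM]; nlinarith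
  have h4 := (mul_le_mul_of_nonneg_left h3 (by positivity :
    0 ≤ 2 * (8 * M)⁻¹ + n * (c * ε) ^ 2)).trans ((mul_assoc _ _ _).symm.trans_le
      (mul_le_mul_of_nonneg_right p6 (by positivity)))
  linarith

theorem Gr.dA (G : Gr D β a a' g) (hB : BasStmt I3 Y κ lam) (h : Bs D β) {u : κ → Y → β.m.A}
    (hu : Fo D β u) (o : Option κ) (x : Y × ℝ) :
    Bki64.dA D.Z (cy (bh β a 0)) (cy (bh β u 0)) (fun x => g x.1 ∘L β.m.p x.1) o x =
      opL (o.elim 0 fun k => u k x.1 - a' k x.1) := by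
  have e := G.eq0 hB h
  let W : (κ → Y → β.m.A) → Option κ → Y × ℝ → En (Fin β.m.N) := fun b => (cy (bh β b 0)).W
  have h1 : D.Z.D o (fun x => g x.1 ∘L β.m.p x.1) x + W a' o x ∘L g x.1 ∘L β.m.p x.1 -
    (g x.1 ∘L β.m.p x.1) ∘L W a o x = 0 := e.par x trivial o
  have h2 : (g x.1 ∘L β.m.p x.1) ∘L trn (g x.1 ∘L β.m.p x.1) = β.m.p x.1 :=
    Pj41.ad_trn (g x.1 ∘L β.m.p x.1) ▸ (e.iso.iso x trivial).tgt
  have h3 : W u o x = W a' o x + opL (o.elim 0 fun k => u k x.1 - a' k x.1) := by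
    show β.W o x.1 + opL (o.elim 0 fun k => u k x.1) = β.W o x.1 + opL (o.elim 0 fun k => a' k x.1) + _
    cases o <;> simp
  show (D.Z.D o (fun x => g x.1 ∘L β.m.p x.1) x + W u o x ∘L g x.1 ∘L β.m.p x.1 -
    (g x.1 ∘L β.m.p x.1) ∘L W a o x) ∘L trn (g x.1 ∘L β.m.p x.1) = _
  rw [h3, ContinuousLinearMap.add_comp, ← add_assoc, add_sub_right_comm, h1, zero_add,
    ContinuousLinearMap.comp_assoc, h2]
  refine Wz78.g_p' (mok h.adm) ?_
  cases o with
  | none => exact zero_mem _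
  | some k => exact sub_mem (hu.mem k _) (G.fo'.mem k _)

theorem near (hB : BasStmt I3 Y κ lam) : NearStmt I3 Y κ lam := fun D β h hc j => by
  obtain ⟨K₁, p1, H1⟩ := cor h hc (j + 3) j
  obtain ⟨C, hF⟩ := Cht98.exists_tame D.F (by rw [h.dim]; norm_num)
  obtain ⟨K₂, p2, H2⟩ := ncb D.F.toPre (j + 3) β.m.A
  have hcj : ContDiff ℝ ∞ (cj : En (Fin β.m.N) → CL β.m.A β.m.A) :=
    contMDiff_iff_contDiff.1 fun x => Eqv71.sa_cj contMDiffAt_id
  set R := ‖(1 : En (Fin β.m.N))‖ + 1 with hR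
  obtain ⟨K₃, p3, H3⟩ := exists_GB R (j + 3 + 1) hcj
  have sp : Sm I3 β.m.p := (mok h.adm).sp
  obtain ⟨Cp, -, H4⟩ := Cb_of_compact (F := D.F.toPre) sp
  set K₄ := cK κ (j + 3) * |cC R (j + 3 + 1) * K₃| * K₂ with hK₄
  have p4 : 0 ≤ K₄ := by have := cK_nonneg (ι := κ) (j + 3); positivity
  set K₅ := ‖(-opL : CL β.m.A _)‖ * (√|C 0| * (K₁ * (K₄ + 1))) with hK₅
  have p5 : 0 ≤ K₅ := by positivity
  set K₆ := 2 ^ (j + 1) * ‖ContinuousLinearMap.compL ℝ β.m.V β.m.V β.m.V‖ * |R| * |Cp j| with hK₆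
  have p6 : 0 ≤ K₆ := by positivity
  refine ⟨j + 3 + 7, K₅ + K₆, by positivity, fun ε hε => ?_⟩
  obtain ⟨η, q0, H1⟩ := H1 (min ε 1) (by positivity)
  refine ⟨η, q0, fun a ha hb b b0 hB' => ?_⟩
  obtain ⟨a', g, u, G, hu, s0, -, s2, s3⟩ := H1 a ha hb b b0
  have c1 : D.F.CB (j + 3) g R := by
    have := CB_add (contMDiff_const (c := 1)) (G.sm.sub contMDiff_const) (CB_const _ _)
      (CB_mono s0 (min_le_right _ _))
    rwa [show ((fun _ => 1) + fun y => g y - 1) = g from funext fun y => add_sub_cancel _ _] at this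
  have sw : ∀ k, Sm I3 fun y => a' k y - u k y := fun k => (G.fo'.sm k).sub (hu.sm k)
  have c2 := s3 (K₄ * b) (by positivity) fun i k => by
    rw [funext (G.By hB h i k)]
    refine (nrm_app (fun y => Eqv71.sa_cj (G.sm y)) (ha.smB h.adm i k) (CB_comp p3 G.sm hcj H3 c1)
      (FL_of_hcs _ (ha.smB h.adm i k) (.of_compactSpace _))).trans ?_
    rw [hK₄, mul_assoc _ K₂]
    exact mul_le_mul_of_nonneg_left ((H2 _ _ (ha.smB h.adm i k)
      (CB_of_le (hB' i k) (by omega))).trans_eq (by rw [abs_of_pos b0]))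
      (by have := cK_nonneg (ι := κ) (j + 3); positivity)
  have c3 : ∀ k, D.F.CB j (fun y => (-opL : CL β.m.A _) (a' k y - u k y)) ((K₅ + K₆) * b) := fun k =>
    CB_mono (CB_clm _ (sw k) (CB_mono (cbn (Sup.of_tame hF) (sw k) j)
      (mul_le_mul_of_nonneg_left (c2 k) (Real.sqrt_nonneg _))))
      (le_trans (le_of_eq (by rw [hK₅]; ring))
        (mul_le_mul_of_nonneg_right (le_add_of_nonneg_right p6) b0.le))
  have q1 : 0 ≤ (K₅ + K₆) * b := by positivity
  have L0 : ∀ (N : Type) [NormedAddCommGroup N] [NormedSpace ℝ N],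
      Lb D.Z.toPre univ j (fun _ => (0 : N)) ((K₅ + K₆) * b) := fun N _ _ =>
    (Lb.const isOpen_univ _).mono (norm_zero.trans_le q1)
  refine ⟨u, fun y => g y ∘L β.m.p y, hu, fun k => CB_mono (s2 k) (min_le_left _ _),
    CB_mono (CB_bil (ContinuousLinearMap.compL ℝ β.m.V β.m.V β.m.V) G.sm sp
      (CB_of_le c1 (by omega)) (H4 j)) (le_add_of_nonneg_left p5),
    isOpen_univ, ?_, fun o => ?_, ?_⟩
  · have e := (G.eq0 hB h).iso
    exact ⟨e.su, e.iso, e.J, e.ρ, e.j⟩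
  · refine Lb.congr isOpen_univ ?_ fun x _ => G.dA hB h hu.toFo o x
    cases o with
    | none => exact (L0 (En (Fin β.m.N))).congr isOpen_univ fun x _ => map_zero _
    | some k =>
      have := ((hB D β h.ok h.adm).2.2.2.2.2 _ j _).2 _ (smL _ (sw k)) (c3 k)
      rw [abs_of_nonneg q1] at this
      simp only [_root_.neg_apply, ← map_neg, neg_sub] at this
      exact this
  · exact (L0 β.m.V).congr isOpen_univ fun x _ => by
      show cs β.m.J 1 (g x.1 (β.m.p x.1 (β.Φ x.1 + 0))) - (β.Φ x.1 + 0) = 0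
      simp [h.zr, cs]

end Crest.Agent.X212.Rdc90
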