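import Mathlib
import Crest.Agent.Lib.ODEFlow

/-!
# Row 212, RDEC (helper90), file 1: partial derivatives in coordinates, linear ODEs with parameters
-/

set_option autoImplicit false
set_option linter.unusedSectionVars false
set_option linter.unusedVariables false
noncomputable section
open Set Function Filter Topology
open scoped ContDiff

namespace Crest.Agent.X212.Rdc90

section Ode
open Crest.Agent.Lib.ODEFlow
variable {P V : Type} [NormedAddCommGroup P] [NormedSpace ℝ P]
  [NormedAddCommGroup V] [NormedSpace ℝ V] [CompleteSpace V]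

/-- `(p, l) ↦ (t ↦ ((p, t l), l))` -/
def lineL (P : Type) [NormedAddCommGroup P] [NormedSpace ℝ P] :
    (P × ℝ) →L[ℝ] C(I, (P × ℝ) × ℝ) :=
  LinearMap.mkContinuous
    { toFun := fun y => ⟨fun t => ((y.1, (t : ℝ) * y.2), y.2), by fun_prop⟩
      map_add' := by intro y z; ext t <;> simp [mul_add]
      map_smul' := by intro c y; ext t <;> simp [mul_left_comm] } 1 (by
    intro y
    rw [ContinuousMap.norm_le _ (by positivity)]
    intro t
    have h1 : ‖y.1‖ ≤ ‖y‖ := norm_fst_le y
    have h2 : ‖y.2‖ ≤ ‖y‖ := norm_snd_le y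
    have h3 : ‖(t : ℝ) * y.2‖ ≤ ‖y‖ := by
      rw [norm_mul, Real.norm_of_nonneg t.2.1]
      exact (mul_le_of_le_one_left (norm_nonneg _) t.2.2).trans h2
    show ‖((y.1, (t : ℝ) * y.2), y.2)‖ ≤ 1 * ‖y‖
    rw [one_mul]
    exact norm_prod_le_iff.2 ⟨norm_prod_le_iff.2 ⟨h1, h3⟩, h2⟩)

/-- smooth solutions of a linear ODE with parameters -/
theorem exists_ode (B : P × ℝ → V →L[ℝ] V) (hB : ContDiff ℝ ∞ B) (v0 : V) :
    ∃ w : P × ℝ → V, ContDiff ℝ ∞ w ∧ (∀ p, w (p, 0) = v0) ∧
      ∀ p s, HasDerivAt (fun r => w (p, r)) (B (p, s) (w (p, s))) s := by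
  set g : (P × ℝ) × ℝ → V →L[ℝ] V := fun q => q.2 • B q.1 with hg
  have hgU : ContDiffOn ℝ ∞ g univ :=
    (contDiff_snd.smul (hB.comp contDiff_fst)).contDiffOn
  have hray : ∀ y, lineL P y ∈ mapsIn I (univ : Set ((P × ℝ) × ℝ)) := fun y t => mem_univ _
  set op : P × ℝ → C(I, V) →L[ℝ] C(I, V) := fun y =>
    ContinuousLinearMap.id ℝ C(I, V) - vol ∘L applyB (nem g (lineL P y)) with hop
  have hinv : ∀ y, (op y).IsInvertible := fun y =>
    isInvertible_id_sub_vol_comp _ (norm_nonneg (nem g (lineL P y))) fun h t => by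
      rw [applyB_apply]
      exact ((nem g (lineL P y)) t).le_of_opNorm_le ((nem g (lineL P y)).norm_coe_le_norm t) _
  have hops : ContDiff ℝ ∞ op := by
    have h1 : ContDiff ℝ ∞ (fun y => nem g (lineL P y)) := by
      rw [← contDiffOn_univ]
      exact (contDiffOn_nem (n := ⊤) isOpen_univ hgU).comp (lineL P).contDiff.contDiffOn
        fun y _ => hray y
    have h3 : ContDiff ℝ ∞ (fun A : C(I, V →L[ℝ] V) => (applyB A : C(I, V) →L[ℝ] C(I, V))) := by
      fun_prop
    exact contDiff_const.sub (contDiff_const.clm_comp (h3.comp h1))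
  set W : P × ℝ → C(I, V) := fun y => (op y).inverse (ContinuousMap.const I v0) with hW
  have hWs : ContDiff ℝ ∞ W := by
    have h1 : ContDiff ℝ ∞ (fun y => (op y).inverse) := contDiff_iff_contDiffAt.2 fun y =>
      (hinv y).contDiffAt_map_inverse.comp y hops.contDiffAt
    exact h1.clm_apply contDiff_const
  have hWeq : ∀ y, op y (W y) = ContinuousMap.const I v0 := fun y =>
    (hinv y).self_apply_inverse _
  have hopap : ∀ y, ∀ (h : C(I, V)) (t : I), op y h t =
      h t - ∫ s in (0 : ℝ)..t, y.2 • B (y.1, (pr s : ℝ) * y.2) (h (pr s)) := by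
    intro y h t
    have : ∀ s : I, applyB (nem g (lineL P y)) h s = y.2 • B (y.1, (s : ℝ) * y.2) (h s) :=
      fun s => by rw [applyB_apply, nem_apply hgU.continuousOn (hray y)]; rfl
    simp only [hop, sub_apply, ContinuousLinearMap.id_apply, ContinuousLinearMap.comp_apply,
      ContinuousMap.sub_apply, vol_apply, this]
  have hint : ∀ y, ∀ t : I,
      W y t = v0 + ∫ s in (0 : ℝ)..t, y.2 • B (y.1, (pr s : ℝ) * y.2) (W y (pr s)) := by
    intro y t
    have := hopap y (W y) t
    rw [hWeq] at this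
    simp only [ContinuousMap.const_apply] at this
    rw [this]; abel
  have hscale : ∀ p l, ∀ θ ∈ Icc (0 : ℝ) 1, W (p, θ * l) = scale θ (W (p, l)) := by
    intro p l θ hθ
    have h1 : op (p, θ * l) (scale θ (W (p, l))) = ContinuousMap.const I v0 := by
      ext t
      rw [hopap, scale_apply, hint, pr_of_mem (mul_mem_I hθ t.2), ContinuousMap.const_apply]
      have h2 := intervalIntegral.smul_integral_comp_mul_left (a := 0) (b := (t : ℝ))
        (fun s : ℝ => l • B (p, (pr s : ℝ) * l) (W (p, l) (pr s))) θ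
      rw [mul_zero] at h2
      simp only at h2 ⊢
      rw [← h2, ← intervalIntegral.integral_smul]
      have h3 : ∫ s in (0 : ℝ)..t, θ • l • B (p, (pr (θ * s) : ℝ) * l) (W (p, l) (pr (θ * s))) =
          ∫ s in (0 : ℝ)..t, (θ * l) • B (p, (pr s : ℝ) * (θ * l))
            (scale θ (W (p, l)) (pr s)) := by
        refine intervalIntegral.integral_congr fun s hs => ?_
        rw [uIcc_of_le t.2.1] at hs
        have hs' : s ∈ Icc (0 : ℝ) 1 := ⟨hs.1, hs.2.trans t.2.2⟩
        simp only [scale_apply, pr_of_mem hs', pr_of_mem (mul_mem_I hθ hs'), smul_smul,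
          mul_assoc, mul_left_comm s θ]
      rw [h3]; abel
    have := (hinv (p, θ * l)).inverse_apply_self (scale θ (W (p, l)))
    rw [h1] at this
    exact this
  set w : P × ℝ → V := fun y => W y ⟨1, zero_le_one, le_rfl⟩ with hw
  have hws : ContDiff ℝ ∞ w := by
    have : ContDiff ℝ ∞ (fun f : C(I, V) =>
        (ContinuousMap.evalCLM ℝ (⟨1, zero_le_one, le_rfl⟩ : I) : C(I, V) →L[ℝ] V) f) := by
      fun_prop
    exact this.comp hWs
  have hwr : ∀ p l, w (p, l) = v0 + ∫ r in (0 : ℝ)..l, B (p, r) (w (p, r)) := by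
    intro p l
    have e : ∀ θ ∈ Icc (0 : ℝ) 1, W (p, l) (pr θ) = w (p, θ * l) := fun θ hθ => by
      show _ = W (p, θ * l) ⟨1, zero_le_one, le_rfl⟩
      rw [hscale p l θ hθ, scale_apply, mul_one]
    have h2 := intervalIntegral.smul_integral_comp_mul_right (a := 0) (b := (1 : ℝ))
      (fun r : ℝ => B (p, r) (w (p, r))) l
    rw [zero_mul, one_mul] at h2
    rw [← h2, ← intervalIntegral.integral_smul]
    show W (p, l) ⟨1, zero_le_one, le_rfl⟩ = _
    rw [hint]
    congr 1
    refine intervalIntegral.integral_congr fun s hs => ?_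
    rw [uIcc_of_le zero_le_one] at hs
    simp only [pr_of_mem hs, e s hs]
  refine ⟨w, hws, fun p => by simpa using hwr p 0, fun p s => ?_⟩
  have hc : Continuous fun r : ℝ => B (p, r) (w (p, r)) :=
    (hB.continuous.comp (by fun_prop)).clm_apply (hws.continuous.comp (by fun_prop))
  have h1 := (intervalIntegral.integral_hasDerivAt_right (hc.intervalIntegrable 0 s)
    (hc.stronglyMeasurableAtFilter _ _) hc.continuousAt).const_add v0
  exact h1.congr_of_eventuallyEq (Eventually.of_forall fun r => hwr p r)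

omit [CompleteSpace V] in
/-- uniqueness for a linear ODE on the line -/
theorem ode_unique {B : ℝ → V →L[ℝ] V} (hB : Continuous B) {f g : ℝ → V}
    (hf : ∀ s, HasDerivAt f (B s (f s)) s) (hg : ∀ s, HasDerivAt g (B s (g s)) s)
    {a : ℝ} (h0 : f a = g a) (s : ℝ) : f s = g s := by
  set R := |s - a| + 1 with hR
  have hRs : |s - a| < R := by linarith
  have hR0 : 0 < R := by positivity
  obtain ⟨K, hK⟩ := (isCompact_Icc (a := a - R) (b := a + R)).exists_bound_of_continuousOn
    hB.continuousOn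
  have hK0 : 0 ≤ K := (norm_nonneg _).trans (hK a ⟨by linarith, by linarith⟩)
  have := ODE_solution_unique_of_mem_Ioo (v := fun t y => B t y) (s := fun _ => univ)
    (K := ⟨K, hK0⟩) (f := f) (g := g) (a := a - R) (b := a + R) (t₀ := a)
    (fun t ht => ((B t).lipschitz.weaken (by
      have := hK t (Ioo_subset_Icc_self ht); exact_mod_cast this)).lipschitzOnWith)
    ⟨by linarith, by linarith⟩ (fun t _ => ⟨hf t, mem_univ _⟩) (fun t _ => ⟨hg t, mem_univ _⟩) h0
  have h := abs_lt.1 hRs
  exact this ⟨by linarith [h.1], by linarith [h.2]⟩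

end Ode

variable {ι : Type} [Fintype ι] [DecidableEq ι] {V W : Type} [NormedAddCommGroup V]
  [NormedSpace ℝ V] [NormedAddCommGroup W] [NormedSpace ℝ W]
  {A : Type} [NormedRing A] [NormedAlgebra ℝ A]

/-- partial derivative -/
def pd (i : ι) (f : (ι → ℝ) → V) (x : ι → ℝ) : V := fderiv ℝ f x (Pi.single i 1)

/-- smooth near a point -/
abbrev SA (f : (ι → ℝ) → V) (x : ι → ℝ) : Prop := ContDiffAt ℝ ∞ f x

theorem SA.d {f : (ι → ℝ) → V} {x : ι → ℝ} (h : SA f x) : DifferentiableAt ℝ f x :=
  h.differentiableAt (by simp)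

theorem SA.ev {f : (ι → ℝ) → V} {x : ι → ℝ} (h : SA f x) : ∀ᶠ y in 𝓝 x, DifferentiableAt ℝ f y :=
  ((h.of_le (m := 1) (by simp)).eventually (by simp)).mono fun _ hy => hy.differentiableAt (by simp)

@[fun_prop] theorem SA.pd {f : (ι → ℝ) → V} {x : ι → ℝ} (h : ContDiffAt ℝ ∞ f x) (i : ι) :
    ContDiffAt ℝ ∞ (pd i f) x :=
  (h.fderiv_right (m := ∞) (by simp)).clm_apply contDiffAt_const

@[fun_prop] theorem contDiff_pd {f : (ι → ℝ) → V} (h : ContDiff ℝ ∞ f) (i : ι) :
    ContDiff ℝ ∞ (pd i f) := contDiff_iff_contDiffAt.2 fun _ => SA.pd h.contDiffAt i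

section
variable {i j : ι} {x : ι → ℝ}

theorem pd_congr {f g : (ι → ℝ) → V} (h : f =ᶠ[𝓝 x] g) : pd i f x = pd i g x := by
  simp only [pd, h.fderiv_eq]

theorem pd_const (c : V) : pd i (fun _ : ι → ℝ => c) x = 0 := by simp [pd]

theorem pd_add {f g : (ι → ℝ) → V} (hf : DifferentiableAt ℝ f x) (hg : DifferentiableAt ℝ g x) :
    pd i (fun y => f y + g y) x = pd i f x + pd i g x := by
  simp only [pd, fderiv_fun_add hf hg, add_apply]

theorem pd_sub {f g : (ι → ℝ) → V} (hf : DifferentiableAt ℝ f x) (hg : DifferentiableAt ℝ g x) :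
    pd i (fun y => f y - g y) x = pd i f x - pd i g x := by
  simp only [pd, fderiv_fun_sub hf hg, sub_apply]

theorem pd_neg {f : (ι → ℝ) → V} : pd i (fun y => - f y) x = - pd i f x := by
  simp only [pd, fderiv_fun_neg, neg_apply]

theorem pd_mul {f g : (ι → ℝ) → A} (hf : DifferentiableAt ℝ f x) (hg : DifferentiableAt ℝ g x) :
    pd i (fun y => f y * g y) x = pd i f x * g x + f x * pd i g x := by
  have := (hf.hasFDerivAt.fun_mul' hg.hasFDerivAt).fderiv
  simp only [pd, this, add_apply, smul_apply,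
    smul_eq_mul, op_smul_eq_mul]
  abel

theorem pd_smul {f : (ι → ℝ) → ℝ} {g : (ι → ℝ) → V} (hf : DifferentiableAt ℝ f x)
    (hg : DifferentiableAt ℝ g x) :
    pd i (fun y => f y • g y) x = pd i f x • g x + f x • pd i g x := by
  simp only [pd, fderiv_fun_smul hf hg, add_apply,
    smul_apply, ContinuousLinearMap.smulRight_apply]
  abel

theorem pd_clm (L : V →L[ℝ] W) {f : (ι → ℝ) → V} (hf : DifferentiableAt ℝ f x) :
    pd i (fun y => L (f y)) x = L (pd i f x) := by
  have := (L.hasFDerivAt.comp x hf.hasFDerivAt).fderiv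
  simp only [pd]
  rw [show (fun y => L (f y)) = L ∘ f from rfl, this]; rfl

theorem pd_comm {f : (ι → ℝ) → V} (hf : SA f x) : pd i (pd j f) x = pd j (pd i f) x := by
  have h2 : DifferentiableAt ℝ (fderiv ℝ f) x :=
    SA.d (hf.fderiv_right (m := ∞) (by simp))
  have e : ∀ a b : ι, pd a (pd b f) x = fderiv ℝ (fderiv ℝ f) x (Pi.single a 1) (Pi.single b 1) :=
    fun a b => pd_clm (ContinuousLinearMap.apply ℝ V (Pi.single b (1 : ℝ) : ι → ℝ)) h2
  rw [e, e]
  exact hf.isSymmSndFDerivAt (by simpa using (WithTop.coe_le_coe.2 le_top : ((2 : ℕ∞) : WithTop ℕ∞) ≤ ∞)) _ _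

theorem hasDerivAt_upd {f : (ι → ℝ) → V} {s : ℝ} (hf : DifferentiableAt ℝ f (update x i s)) :
    HasDerivAt (fun r => f (update x i r)) (pd i f (update x i s)) s :=
  hf.hasFDerivAt.comp_hasDerivAt s (hasDerivAt_update x i s)

theorem pd_eq_of {f : (ι → ℝ) → V} (hf : DifferentiableAt ℝ f x) {v : V}
    (h : HasDerivAt (fun r => f (update x i r)) v (x i)) : pd i f x = v := by
  have h1 := hasDerivAt_upd (x := x) (i := i) (s := x i) (f := f) (by rwa [update_eq_self])
  rw [update_eq_self] at h1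
  exact h1.unique h

theorem contDiff_upd (i : ι) (c : ℝ) : ContDiff ℝ ∞ fun y : ι → ℝ => update y i c := by
  refine contDiff_pi.2 fun k => ?_
  by_cases h : k = i
  · subst h; simpa using contDiff_const
  · simpa [update_of_ne h] using contDiff_apply ℝ ℝ k

theorem pd_upd_ne {f : (ι → ℝ) → V} {c : ℝ} (hf : DifferentiableAt ℝ f (update x j c))
    (h : i ≠ j) : pd i (fun y => f (update y j c)) x = pd i f (update x j c) := by
  refine pd_eq_of (f := fun y => f (update y j c))
    (hf.comp x ((contDiff_upd j c).differentiable (by simp) x)) ?_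
  have h1 := hasDerivAt_upd (x := update x j c) (i := i) (s := x i) (f := f) (by
    rwa [update_comm h.symm, update_eq_self])
  rw [update_comm h.symm, update_eq_self] at h1
  simpa only [update_comm h.symm] using h1

/-- a function that does not depend on `x i` along the line through `x` -/
theorem pd_eq_zero {f : (ι → ℝ) → V} (hf : DifferentiableAt ℝ f x)
    (h : ∀ r, f (update x i r) = f x) : pd i f x = 0 :=
  pd_eq_of hf (by simpa only [h] using hasDerivAt_const (x i) (f x))

theorem pd_transl {f : (ι → ℝ) → V} {v : ι → ℝ} (h : ∀ y, f (y + v) = f y) :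
    pd i f (x + v) = pd i f x := by
  simp only [pd]
  rw [← fderiv_comp_add_right]; simp only [h]

theorem pd_coord (φ : ℝ → ℝ) {d : ℝ} (h : HasDerivAt φ d (x j)) :
    pd i (fun y : ι → ℝ => φ (y j)) x = if i = j then d else 0 := by
  have hd : DifferentiableAt ℝ (fun y : ι → ℝ => φ (y j)) x :=
    h.differentiableAt.comp x (differentiableAt_apply j x)
  split_ifs with hij
  · subst hij
    exact pd_eq_of hd (by simpa using h)
  · exact pd_eq_zero hd fun r => by rw [update_of_ne (Ne.symm hij)]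

/-- mean value bound along a coordinate -/
theorem norm_sub_le_upd {f : (ι → ℝ) → V} {a b C : ℝ} (hf : Differentiable ℝ f)
    (hC : ∀ s ∈ Icc a b, ‖pd i f (update x i s)‖ ≤ C) {s : ℝ} (hs : s ∈ Icc a b) :
    ‖f (update x i s) - f (update x i a)‖ ≤ C * (s - a) :=
  norm_image_sub_le_of_norm_deriv_le_segment' (f := fun r => f (update x i r))
    (fun r _ => (hasDerivAt_upd (hf _)).hasDerivWithinAt)
    (fun r hr => hC r (Ico_subset_Icc_self hr)) s hs

end

/-- gauge in the direction `i`: `∂_i g = - M g`, `g = 1` on `x i = 0` -/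
theorem exists_gauge [CompleteSpace A] (i : ι) {M : (ι → ℝ) → A} (hM : ContDiff ℝ ∞ M) :
    ∃ g : (ι → ℝ) → A, ContDiff ℝ ∞ g ∧ (∀ x, g (update x i 0) = 1) ∧
      ∀ x, pd i g x = - (M x * g x) := by
  have hu : ContDiff ℝ ∞ fun q : (ι → ℝ) × ℝ => update q.1 i q.2 := by
    refine contDiff_pi.2 fun k => ?_
    by_cases h : k = i
    · subst h; simpa using contDiff_snd
    · simp only [update_of_ne h]; fun_prop
  obtain ⟨w, hw, h0, hd⟩ := exists_ode (P := ι → ℝ)
    (fun q => ContinuousLinearMap.mul ℝ A (- M (update q.1 i q.2)))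
    ((ContinuousLinearMap.mul ℝ A).contDiff.comp (hM.comp hu).neg) (1 : A)
  have hg : ContDiff ℝ ∞ fun x : ι → ℝ => w (update x i 0, x i) :=
    hw.comp ((contDiff_upd i 0).prodMk (contDiff_apply ℝ ℝ i))
  refine ⟨fun x => w (update x i 0, x i), hg, fun x => by simp [h0], fun x => ?_⟩
  refine pd_eq_of (hg.differentiable (by simp) x) ?_
  simpa using hd (update x i 0) (x i)

/-- uniqueness of the gauge along a line, for two coefficient functions that agree there -/
theorem gauge_unique {i : ι} {M M' g g' : (ι → ℝ) → A} (hM : ContDiff ℝ ∞ M)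
    (hg : ContDiff ℝ ∞ g) (hg' : ContDiff ℝ ∞ g') (hd : ∀ x, pd i g x = - (M x * g x))
    (hd' : ∀ x, pd i g' x = - (M' x * g' x)) {x x' : ι → ℝ}
    (hMM : ∀ s, M (update x i s) = M' (update x' i s)) {a : ℝ}
    (h0 : g (update x i a) = g' (update x' i a)) (s : ℝ) :
    g (update x i s) = g' (update x' i s) := by
  refine ode_unique (B := fun r => ContinuousLinearMap.mul ℝ A (- M (update x i r)))
    ((ContinuousLinearMap.mul ℝ A).continuous.comp
      (hM.continuous.comp (continuous_const.update i continuous_id)).neg)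
    (f := fun r => g (update x i r)) (g := fun r => g' (update x' i r)) (fun r => ?_)
    (fun r => ?_) h0 s
  · simpa [hd] using hasDerivAt_upd (x := x) (i := i) (s := r) (hg.differentiable (by simp) _)
  · simpa [hd', hMM] using
      hasDerivAt_upd (x := x') (i := i) (s := r) (hg'.differentiable (by simp) _)

end Crest.Agent.X212.Rdc90
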